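import Mathlib.Analysis.InnerProductSpace.Completion
import Mathlib.Analysis.InnerProductSpace.Projection.Basic

/-!
# Stage 4 (Kodaira embedding): the abstract lemma

`V` is a pre-Hilbert space (the smooth sections of a line bundle), `B : V → V` symmetric and
nonnegative (the operator `∂̄* ∂̄`), with the gap inequality `c ⟨B u, u⟩ ≤ ‖B u‖²`, and such that
for one `lam > 0` the range of `B + lam` is dense. Then every `s₀ ∈ V` is approximated, up to the
error `(⟨B s₀, s₀⟩ / c)^{1/2}`, by a Cauchy sequence `y k` in `V` with `⟨B (y k), y k⟩ → 0`.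
-/

open Filter Topology ComplexConjugate

noncomputable section

namespace Vale.Agent.P272.KOD

section inner
variable {V : Type*} [SeminormedAddCommGroup V] [InnerProductSpace ℂ V]

/-- Cauchy-Schwarz for the form `⟨B u, v⟩` -/
theorem cs_form (B : V →ₗ[ℂ] V) (hsym : ∀ u v, (inner ℂ (B u) (v)) = (inner ℂ (u) (B v)))
    (hpos : ∀ u, 0 ≤ ((inner ℂ (B u) (u))).re) (u v : V) :
    ‖(inner ℂ (B u) (v))‖ ^ 2 ≤ ((inner ℂ (B u) (u))).re * ((inner ℂ (B v) (v))).re := by
  set a := ((inner ℂ (B u) (u))).re with ha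
  set b := ((inner ℂ (B v) (v))).re with hb
  set w := (inner ℂ (B u) (v)) with hw
  have hreal : ∀ x, ((inner ℂ (B x) (x)) : ℂ) = (((inner ℂ (B x) (x))).re : ℂ) := fun x => by
    have h1 : conj ((inner ℂ (B x) (x))) = (inner ℂ (B x) (x)) := by
      rw [inner_conj_symm, ← hsym]
    exact (Complex.conj_eq_iff_re.1 h1).symm
  have hvu : ((inner ℂ (B v) (u)) : ℂ) = conj w := by
    rw [hsym v u, hw, inner_conj_symm]
  have key : ∀ t : ℂ, 0 ≤ a + 2 * (conj t * w).re * (-1) + ‖t‖ ^ 2 * b := by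
    intro t
    have h := hpos (u - conj t • v)
    have e : ((inner ℂ (B (u - conj t • v)) (u - conj t • v)) : ℂ) =
        (a : ℂ) - conj t * w - conj (conj t * w) + ((‖t‖ ^ 2 * b : ℝ) : ℂ) := by
      rw [map_sub, map_smul, inner_sub_left, inner_sub_right, inner_sub_right, inner_smul_left,
        inner_smul_left, inner_smul_right, inner_smul_right, hvu, hreal u, hreal v, ← hw, ← ha,
        ← hb]
      have : (‖t‖ ^ 2 : ℂ) = t * conj t := by
        rw [Complex.mul_conj, Complex.normSq_eq_norm_sq]; push_cast; ring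
      push_cast
      rw [this]
      simp only [map_mul, Complex.conj_conj]
      ring
    rw [e] at h
    simp only [Complex.add_re, Complex.sub_re, Complex.ofReal_re, Complex.conj_re] at h
    linarith
  have ha0 : 0 ≤ a := hpos u
  have hb0 : 0 ≤ b := hpos v
  rcases eq_or_lt_of_le hb0 with hb1 | hb1
  · -- `b = 0`
    by_contra hcon
    push Not at hcon
    rw [← hb1, mul_zero] at hcon
    have h := key (((a + 1) / ‖w‖ ^ 2 : ℝ) * w)
    have e1 : (conj (((a + 1) / ‖w‖ ^ 2 : ℝ) * w) * w).re = a + 1 := by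
      have e2 : conj ((((a + 1) / ‖w‖ ^ 2 : ℝ) : ℂ) * w) * w =
          (((a + 1) / ‖w‖ ^ 2 * ‖w‖ ^ 2 : ℝ) : ℂ) := by
        rw [map_mul, Complex.conj_ofReal, mul_assoc, Complex.conj_mul']
        push_cast; ring
      rw [e2, Complex.ofReal_re, div_mul_cancel₀ _ hcon.ne']
    rw [e1, ← hb1] at h
    nlinarith
  · have h := key ((1 / b : ℝ) * w)
    have e1 : (conj ((1 / b : ℝ) * w) * w).re = ‖w‖ ^ 2 / b := by
      have e2 : conj (((1 / b : ℝ) : ℂ) * w) * w = ((‖w‖ ^ 2 / b : ℝ) : ℂ) := by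
        rw [map_mul, Complex.conj_ofReal, mul_assoc, Complex.conj_mul']
        push_cast; ring
      rw [e2, Complex.ofReal_re]
    have e3 : ‖((1 / b : ℝ) : ℂ) * w‖ ^ 2 * b = ‖w‖ ^ 2 / b := by
      rw [norm_mul, Complex.norm_real, Real.norm_eq_abs, abs_of_pos (by positivity)]
      field_simp
    rw [e1, e3] at h
    have h2 : ‖w‖ ^ 2 / b ≤ a := by linarith
    rw [div_le_iff₀ hb1] at h2
    exact h2

/-- **The abstract lemma.** -/
theorem exists_seq (B : V →ₗ[ℂ] V) (hsym : ∀ u v, (inner ℂ (B u) (v)) = (inner ℂ (u) (B v)))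
    (hpos : ∀ u, 0 ≤ ((inner ℂ (B u) (u))).re) {c : ℝ} (hc : 0 < c)
    (hgap : ∀ u, c * ((inner ℂ (B u) (u))).re ≤ ‖B u‖ ^ 2) {lam : ℝ} (hlam : 0 < lam)
    (hR : ∀ f : V, ∀ ε > 0, ∃ y : V, ‖B y + (lam : ℂ) • y - f‖ < ε) (s0 : V) :
    ∃ (y : ℕ → V) (d : ℝ), CauchySeq y ∧ Tendsto (fun k => ‖B (y k)‖) atTop (𝓝 0) ∧
      Tendsto (fun k => ((inner ℂ (B (y k)) (y k))).re) atTop (𝓝 0) ∧
      Tendsto (fun k => ‖s0 - y k‖) atTop (𝓝 d) ∧ c * d ^ 2 ≤ ((inner ℂ (B s0) (s0))).re := by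
  set H := UniformSpace.Completion V
  let ι : V →L[ℂ] H := UniformSpace.Completion.toComplL
  have hι : ∀ v, ι v = (v : H) := fun v => rfl
  have hin : ∀ u v : V, (inner ℂ (ι u) (ι v) : ℂ) = (inner ℂ (u) (v)) := fun u v =>
    UniformSpace.Completion.inner_coe u v
  have hno : ∀ u : V, ‖ι u‖ = ‖u‖ := fun u => UniformSpace.Completion.norm_coe u
  have hdense : DenseRange ι := UniformSpace.Completion.denseRange_coe
  let M : Submodule ℂ H := (LinearMap.range ((ι : V →ₗ[ℂ] H).comp B)).topologicalClosure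
  haveI : CompleteSpace M := (Submodule.isClosed_topologicalClosure _).completeSpace_coe
  -- the functional is bounded on `M`
  set K := √(((inner ℂ (B s0) (s0))).re / c) with hK
  have hq0 : 0 ≤ ((inner ℂ (B s0) (s0))).re := hpos s0
  have hbd : ∀ w ∈ M, ‖(inner ℂ (ι s0) w : ℂ)‖ ≤ K * ‖w‖ := by
    intro w hw
    have hcl : IsClosed {w : H | ‖(inner ℂ (ι s0) w : ℂ)‖ ≤ K * ‖w‖} :=
      isClosed_le (by fun_prop) (by fun_prop)
    refine closure_minimal (s := (LinearMap.range ((ι : V →ₗ[ℂ] H).comp B) : Set H)) ?_ hcl hw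
    rintro _ ⟨z, rfl⟩
    show ‖(inner ℂ (ι s0) (ι (B z)) : ℂ)‖ ≤ K * ‖ι (B z)‖
    rw [hin, hno, ← hsym]
    have h1 := cs_form B hsym hpos s0 z
    have h2 := hgap z
    have h3 : ((inner ℂ (B z) (z))).re ≤ ‖B z‖ ^ 2 / c := by rw [le_div_iff₀ hc]; linarith
    have h4 : ‖((inner ℂ (B s0) (z)) : ℂ)‖ ^ 2 ≤ (K * ‖B z‖) ^ 2 := by
      calc ‖((inner ℂ (B s0) (z)) : ℂ)‖ ^ 2 ≤ ((inner ℂ (B s0) (s0))).re * ((inner ℂ (B z) (z))).re := h1
        _ ≤ ((inner ℂ (B s0) (s0))).re * (‖B z‖ ^ 2 / c) := mul_le_mul_of_nonneg_left h3 hq0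
        _ = (K * ‖B z‖) ^ 2 := by
            rw [mul_pow, hK, Real.sq_sqrt (by positivity)]; ring
    exact abs_le_of_sq_le_sq' h4 (by positivity) |>.2
  -- the orthogonal decomposition
  set u : H := (M.orthogonalProjection (ι s0) : H) with hu
  have huM : u ∈ M := (M.orthogonalProjection (ι s0)).2
  set s : H := ι s0 - u with hs
  have hsort : ∀ w ∈ M, (inner ℂ s w : ℂ) = 0 := fun w hw => by
    have := M.sub_starProjection_mem_orthogonal (ι s0)
    have h2 := (Submodule.mem_orthogonal' _ _).1 this w hw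
    exact h2
  have hun : ‖u‖ ≤ K := by
    have h1 : (inner ℂ (ι s0) u : ℂ) = inner ℂ u u := by
      have : ι s0 = s + u := by rw [hs]; abel
      rw [this, inner_add_left, hsort u huM, zero_add]
    have h2 := hbd u huM
    rw [h1, inner_self_eq_norm_sq_to_K] at h2
    rw [norm_pow, RCLike.norm_ofReal, abs_norm] at h2
    have h4 : ‖u‖ ^ 2 ≤ K * ‖u‖ := h2
    rcases eq_or_lt_of_le (norm_nonneg u) with h5 | h5
    · rw [← h5]; exact Real.sqrt_nonneg _
    · nlinarith
  -- the sequence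
  have hdenseR : ∀ h : H, ∀ ε > 0, ∃ y : V, ‖ι (B y + (lam : ℂ) • y) - h‖ < ε := by
    intro h ε hε
    obtain ⟨f, hf⟩ := Metric.denseRange_iff.1 hdense h (ε / 2) (by positivity)
    obtain ⟨y, hy⟩ := hR f (ε / 2) (by positivity)
    refine ⟨y, ?_⟩
    rw [dist_comm, dist_eq_norm] at hf
    rw [← hno, map_sub] at hy
    calc ‖ι (B y + (lam : ℂ) • y) - h‖
        = ‖(ι (B y + (lam : ℂ) • y) - ι f) + (ι f - h)‖ := by congr 1; abel
      _ ≤ _ := norm_add_le _ _
      _ < ε := by linarith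
  have hlow : ∀ y : V, lam * ‖y‖ ≤ ‖B y + (lam : ℂ) • y‖ := by
    intro y
    have h1 : ‖B y + (lam : ℂ) • y‖ ^ 2 = ‖B y‖ ^ 2 + 2 * (lam * ((inner ℂ (B y) (y))).re) +
        (lam * ‖y‖) ^ 2 := by
      rw [@norm_add_sq ℂ, inner_smul_right, norm_smul, Complex.norm_real, Real.norm_eq_abs,
        abs_of_pos hlam]
      congr 2
      simp
    have h2 : (lam * ‖y‖) ^ 2 ≤ ‖B y + (lam : ℂ) • y‖ ^ 2 := by
      rw [h1]
      nlinarith [mul_nonneg hlam.le (hpos y), sq_nonneg ‖B y‖]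
    exact abs_le_of_sq_le_sq' h2 (norm_nonneg _) |>.2
  choose y hy using fun k : ℕ => hdenseR ((lam : ℂ) • s) (1 / ((k : ℝ) + 1)) (by positivity)
  have ht1 : Tendsto (fun k => ι (B (y k) + (lam : ℂ) • y k)) atTop (𝓝 ((lam : ℂ) • s)) := by
    rw [tendsto_iff_norm_sub_tendsto_zero]
    exact squeeze_zero (fun _ => norm_nonneg _) (fun k => (hy k).le)
      tendsto_one_div_add_atTop_nhds_zero_nat
  have hcau : CauchySeq fun k => ι (B (y k) + (lam : ℂ) • y k) := ht1.cauchySeq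
  have hycau : CauchySeq y := by
    rw [Metric.cauchySeq_iff'] at hcau ⊢
    intro ε hε
    obtain ⟨N, hN⟩ := hcau (lam * ε) (by positivity)
    refine ⟨N, fun k hk => ?_⟩
    have h1 := hN k hk
    rw [dist_eq_norm] at h1 ⊢
    rw [← map_sub, hno] at h1
    have e : B (y k) + (lam : ℂ) • y k - (B (y N) + (lam : ℂ) • y N) =
        B (y k - y N) + (lam : ℂ) • (y k - y N) := by
      rw [map_sub, smul_sub]; abel
    rw [e] at h1
    have h2 := hlow (y k - y N)
    exact lt_of_mul_lt_mul_left (lt_of_le_of_lt h2 h1) hlam.le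
  have hycauH : CauchySeq fun k => ι (y k) := hycau.map ι.uniformContinuous
  obtain ⟨y', hy'⟩ := cauchySeq_tendsto_of_complete hycauH
  have ht2 : Tendsto (fun k => ι (B (y k))) atTop (𝓝 ((lam : ℂ) • (s - y'))) := by
    have h1 := ht1.sub (hy'.const_smul (lam : ℂ))
    rw [smul_sub]
    refine h1.congr fun k => ?_
    rw [map_add, map_smul]; abel
  -- `d = s - y'` is orthogonal to the range of `B + lam`
  have hd : ∀ z : V, (inner ℂ (s - y') (ι (B z + (lam : ℂ) • z)) : ℂ) = 0 := by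
    intro z
    have h1 : (inner ℂ ((lam : ℂ) • (s - y')) (ι z) : ℂ) = inner ℂ y' (ι (B z)) := by
      have t1 : Tendsto (fun k => (inner ℂ (ι (B (y k))) (ι z) : ℂ)) atTop
          (𝓝 (inner ℂ ((lam : ℂ) • (s - y')) (ι z))) := ht2.inner tendsto_const_nhds
      have t2 : Tendsto (fun k => (inner ℂ (ι (y k)) (ι (B z)) : ℂ)) atTop
          (𝓝 (inner ℂ y' (ι (B z)))) := hy'.inner tendsto_const_nhds
      refine tendsto_nhds_unique t1 (t2.congr fun k => ?_)
      rw [hin, hin, hsym]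
    have h2 : (inner ℂ s (ι (B z)) : ℂ) = 0 := by
      refine hsort _ ?_
      exact Submodule.le_topologicalClosure _ ⟨z, rfl⟩
    rw [map_add, map_smul, inner_add_right, inner_smul_right, inner_sub_left, h2, zero_sub, ← h1,
      inner_smul_left, Complex.conj_ofReal]
    ring
  have hd0 : s - y' = 0 := by
    have h1 : (inner ℂ (s - y') (s - y') : ℂ) = 0 := by
      choose z hz using fun k : ℕ => hdenseR (s - y') (1 / ((k : ℝ) + 1)) (by positivity)
      have t1 : Tendsto (fun k => ι (B (z k) + (lam : ℂ) • z k)) atTop (𝓝 (s - y')) := by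
        rw [tendsto_iff_norm_sub_tendsto_zero]
        exact squeeze_zero (fun _ => norm_nonneg _) (fun k => (hz k).le)
          tendsto_one_div_add_atTop_nhds_zero_nat
      have t2 : Tendsto (fun k => (inner ℂ (s - y') (ι (B (z k) + (lam : ℂ) • z k)) : ℂ)) atTop
          (𝓝 (inner ℂ (s - y') (s - y'))) := tendsto_const_nhds.inner t1
      simp only [hd] at t2
      exact (tendsto_nhds_unique t2 tendsto_const_nhds)
    exact inner_self_eq_zero.1 h1
  have hsy : s = y' := sub_eq_zero.1 hd0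
  have ht3 : Tendsto (fun k => ‖B (y k)‖) atTop (𝓝 0) := by
    rw [hd0, smul_zero] at ht2
    have := ht2.norm
    rw [norm_zero] at this
    exact this.congr fun k => hno _
  have ht4 : Tendsto (fun k => ‖y k‖) atTop (𝓝 ‖y'‖) := hy'.norm.congr fun k => hno _
  refine ⟨y, ‖u‖, hycau, ht3, ?_, ?_, ?_⟩
  · have t5 : Tendsto (fun k => ‖B (y k)‖ * ‖y k‖) atTop (𝓝 0) := by
      simpa using ht3.mul ht4
    refine squeeze_zero (fun k => hpos _) (fun k => ?_) t5
    exact (Complex.re_le_norm _).trans (norm_inner_le_norm _ _)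
  · have t6 : Tendsto (fun k => ‖ι s0 - ι (y k)‖) atTop (𝓝 ‖ι s0 - y'‖) :=
      (tendsto_const_nhds.sub hy').norm
    have e : ι s0 - y' = u := by rw [← hsy, hs]; abel
    rw [e] at t6
    refine t6.congr fun k => ?_
    rw [← map_sub, hno]
  · have h1 : ‖u‖ ^ 2 ≤ K ^ 2 := pow_le_pow_left₀ (norm_nonneg _) hun 2
    rw [hK, Real.sq_sqrt (by positivity), le_div_iff₀ hc] at h1
    linarith

end inner

/-- **The abstract lemma**, for a vector space with a positive semidefinite Hermitian form `ip`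
(linear in the first variable). -/
theorem exists_seq_bare {V : Type*} [AddCommGroup V] [Module ℂ V] (ip : V → V → ℂ)
    (hadd : ∀ u v w, ip (u + v) w = ip u w + ip v w) (hsmul : ∀ (a : ℂ) u w, ip (a • u) w = a * ip u w)
    (hconj : ∀ u v, conj (ip u v) = ip v u) (hnn : ∀ u, 0 ≤ (ip u u).re)
    (B : V →ₗ[ℂ] V) (hsym : ∀ u v, ip (B u) v = ip u (B v)) (hpos : ∀ u, 0 ≤ (ip (B u) u).re)
    {c : ℝ} (hc : 0 < c) (hgap : ∀ u, c * (ip (B u) u).re ≤ (ip (B u) (B u)).re)
    {lam : ℝ} (hlam : 0 < lam)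
    (hR : ∀ f : V, ∀ ε > 0, ∃ y : V,
      (ip (B y + (lam : ℂ) • y - f) (B y + (lam : ℂ) • y - f)).re < ε) (s0 : V) :
    ∃ (y : ℕ → V) (d : ℝ),
      (∀ ε > 0, ∃ N, ∀ k ≥ N, ∀ l ≥ N, (ip (y k - y l) (y k - y l)).re < ε) ∧
      Tendsto (fun k => (ip (B (y k)) (B (y k))).re) atTop (𝓝 0) ∧
      Tendsto (fun k => (ip (B (y k)) (y k)).re) atTop (𝓝 0) ∧
      Tendsto (fun k => (ip (s0 - y k) (s0 - y k)).re) atTop (𝓝 d) ∧
      c * d ≤ (ip (B s0) s0).re := by
  let core : PreInnerProductSpace.Core ℂ V :=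
    { inner := fun u v => ip v u
      conj_inner_symm := fun u v => hconj u v
      re_inner_nonneg := fun u => hnn u
      add_left := fun u v w => by
        show ip w (u + v) = ip w u + ip w v
        rw [← hconj, hadd, map_add, hconj, hconj]
      smul_left := fun u v a => by
        show ip v (a • u) = conj a * ip v u
        rw [← hconj, hsmul, map_mul, hconj] }
  let i1 : SeminormedAddCommGroup V := @InnerProductSpace.Core.toSeminormedAddCommGroup ℂ V _ _ _ core
  let i2 : InnerProductSpace ℂ V := InnerProductSpace.ofCore core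
  have hin : ∀ u v : V, (inner ℂ u v : ℂ) = ip v u := fun u v => rfl
  have hno : ∀ u : V, ‖u‖ ^ 2 = (ip u u).re := fun u => by
    have := inner_self_eq_norm_sq (𝕜 := ℂ) u
    rw [← this, hin]; rfl
  have hre : ∀ u v : V, (ip u v).re = (ip v u).re := fun u v => by
    rw [← hconj u v, Complex.conj_re]
  obtain ⟨y, d, h1, h2, h3, h4, h5⟩ := exists_seq B (fun u v => by rw [hin, hin, hsym])
    (fun u => by rw [hin, hre]; exact hpos u) hc
    (fun u => by rw [hin, hno, hre]; exact hgap u) hlam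
    (fun f ε hε => by
      obtain ⟨y, hy⟩ := hR f (ε ^ 2) (by positivity)
      rw [← hno] at hy
      exact ⟨y, lt_of_pow_lt_pow_left₀ 2 hε.le hy⟩) s0
  refine ⟨y, d ^ 2, fun ε hε => ?_, ?_, ?_, ?_, ?_⟩
  · obtain ⟨N, hN⟩ := Metric.cauchySeq_iff.1 h1 (√ε) (by positivity)
    refine ⟨N, fun k hk l hl => ?_⟩
    have := hN k hk l hl
    rw [dist_eq_norm] at this
    rw [← hno]
    calc ‖y k - y l‖ ^ 2 < (√ε) ^ 2 := pow_lt_pow_left₀ this (norm_nonneg _) two_ne_zero
      _ = ε := Real.sq_sqrt hε.le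
  · have := h2.pow 2
    simpa [hno] using this
  · refine h3.congr fun k => ?_
    rw [hin, hre]
  · refine (h4.pow 2).congr fun k => hno _
  · have := h5
    rwa [hin, hre] at this

end Vale.Agent.P272.KOD
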