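import Vale.Agent.P272.K.INT.Dens
import Vale.Agent.P272.K.Inv.Chart

/-!
# P272 / KOD: comparison of the Lebesgue measures of two coordinate balls on the overlap
-/

open scoped Manifold ContDiff ComplexOrder Topology ENNReal ComplexConjugate
open MeasureTheory Set Filter Metric

noncomputable section

namespace Vale.Agent.P272.KOD

open K

variable {n : ℕ} {X : Type*} [TopologicalSpace X] [ChartedSpace (Cm n) X]
  [IsManifold 𝓘(ℂ, Cm n) ω X]

/-- the Jacobian determinant is a continuous function of the point -/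
lemma continuousAt_det {e e' : Chart n X} {x : X} (he : At e x) (he' : At e' x) :
    ContinuousAt (fun y => (jacM e e' y).det) x := by
  have h1 := (jacM_det_holo he he').continuousAt
  have h2 : ContinuousAt (fun y => (jacM e e' (e.symm (e y))).det) x :=
    ContinuousAt.comp (f := e) (g := fun z => (jacM e e' (e.symm z)).det) h1
      (e.continuousAt he.2)
  refine h2.congr ?_
  filter_upwards [e.open_source.mem_nhds he.2] with y hy
  rw [e.left_inv hy]

/-- lower bound of the Jacobian determinant on a compact part of the overlap -/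
lemma exists_det_ge [T2Space X] {e e' : Chart n X} (he : e ∈ atlas (Cm n) X)
    (he' : e' ∈ atlas (Cm n) X) {K K' : Set (Cm n)} (hK : IsCompact K) (hK' : IsCompact K')
    (hKt : K ⊆ e.target) (hKt' : K' ⊆ e'.target) :
    ∃ δ : ℝ, 0 < δ ∧ ∀ x, x ∈ e.source → x ∈ e'.source → e x ∈ K → e' x ∈ K' →
      δ ≤ ‖(jacM e e' x).det‖ := by
  have hc : IsCompact (e.symm '' K ∩ e'.symm '' K') :=
    (hK.image_of_continuousOn (e.continuousOn_symm.mono hKt)).inter
      (hK'.image_of_continuousOn (e'.continuousOn_symm.mono hKt'))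
  have hat : ∀ x ∈ e.symm '' K ∩ e'.symm '' K', At e x ∧ At e' x := by
    rintro x ⟨⟨z, hz, rfl⟩, ⟨w, hw, hwz⟩⟩
    refine ⟨⟨he, e.map_target (hKt hz)⟩, ⟨he', ?_⟩⟩
    rw [← hwz]; exact e'.map_target (hKt' hw)
  rcases (e.symm '' K ∩ e'.symm '' K').eq_empty_or_nonempty with h0 | h0
  · refine ⟨1, one_pos, fun x hx hx' h h' => ?_⟩
    have : x ∈ e.symm '' K ∩ e'.symm '' K' :=
      ⟨⟨e x, h, e.left_inv hx⟩, ⟨e' x, h', e'.left_inv hx'⟩⟩
    rw [h0] at this
    exact absurd this (notMem_empty _)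
  · obtain ⟨x0, hx0, hmin⟩ := hc.exists_isMinOn h0
      (f := fun x => ‖(jacM e e' x).det‖) fun x hx =>
        ((continuousAt_det (hat x hx).1 (hat x hx).2).norm).continuousWithinAt
    refine ⟨‖(jacM e e' x0).det‖,
      norm_pos_iff.2 (jacM_det_ne_zero (hat x0 hx0).1 (hat x0 hx0).2), fun x hx hx' h h' => ?_⟩
    exact hmin ⟨⟨e x, h, e.left_inv hx⟩, ⟨e' x, h', e'.left_inv hx'⟩⟩

/-- Comparison of two charts. -/
theorem cmp_two [T2Space X] {e e' : Chart n X} (he : e ∈ atlas (Cm n) X)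
    (he' : e' ∈ atlas (Cm n) X) {V V' : Set (Cm n)} (hV : IsOpen V) (hV' : IsOpen V')
    (hVc : IsCompact (closure V)) (hVc' : IsCompact (closure V')) (hVt : closure V ⊆ e.target)
    (hVt' : closure V' ⊆ e'.target) :
    ∃ K : ℝ≥0∞, K ≠ ⊤ ∧ ∀ g : X → ℝ≥0∞,
      ∫⁻ z in V, {x | x ∈ e'.source ∧ e' x ∈ V'}.indicator g (e.symm z) ≤
        K * ∫⁻ w in V', g (e'.symm w) := by
  obtain ⟨δ, hδ, hd⟩ := exists_det_ge he he' hVc hVc' hVt hVt'
  refine ⟨ENNReal.ofReal ((δ ^ 2)⁻¹), ENNReal.ofReal_ne_top, fun g => ?_⟩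
  set A : Set (Cm n) := V ∩ (e.target ∩ e.symm ⁻¹' (e'.source ∩ e' ⁻¹' V')) with hA
  have hAo : IsOpen A := hV.inter (e.isOpen_inter_preimage_symm
    (e'.isOpen_inter_preimage hV'))
  have hAm := hAo.measurableSet
  have hat : ∀ z ∈ A, At e (e.symm z) ∧ At e' (e.symm z) := fun z hz =>
    ⟨⟨he, e.map_target hz.2.1⟩, ⟨he', hz.2.2.1⟩⟩
  have e1 : ∫⁻ z in V, {x | x ∈ e'.source ∧ e' x ∈ V'}.indicator g (e.symm z) =
      ∫⁻ z in A, g (e.symm z) := by
    rw [← lintegral_indicator hV.measurableSet, ← lintegral_indicator hAm]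
    congr 1
    funext z
    by_cases hz : z ∈ A
    · rw [indicator_of_mem hz, indicator_of_mem hz.1, indicator_of_mem]
      exact hz.2.2
    · rw [indicator_of_notMem hz]
      by_cases hzV : z ∈ V
      · rw [indicator_of_mem hzV, indicator_of_notMem]
        exact fun h => hz ⟨hzV, hVt (subset_closure hzV), h⟩
      · rw [indicator_of_notMem hzV]
  rw [e1]
  set S : Cm n → Cm n := fun z => e' (e.symm z) with hS
  have hdiff : ∀ z ∈ A, HasFDerivWithinAt S (fderiv ℝ S z) A z := by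
    intro z hz
    have h := transition_differentiableAt (hat z hz).1 (hat z hz).2
    rw [e.right_inv hz.2.1] at h
    exact (h.restrictScalars ℝ).hasFDerivAt.hasFDerivWithinAt
  have hinj : InjOn S A := by
    intro z hz w hw hzw
    have h1 : e.symm z = e.symm w := by
      have := congrArg e'.symm hzw
      simp only [hS] at this
      rwa [e'.left_inv hz.2.2.1, e'.left_inv hw.2.2.1] at this
    have := congrArg e h1
    rwa [e.right_inv hz.2.1, e.right_inv hw.2.1] at this
  have hsub : S '' A ⊆ V' := by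
    rintro _ ⟨z, hz, rfl⟩
    exact hz.2.2.2
  have h1 : ∫⁻ w in S '' A, g (e'.symm w) =
      ∫⁻ z in A, ENNReal.ofReal |(fderiv ℝ S z).det| * g (e'.symm (S z)) :=
    lintegral_image_eq_lintegral_abs_det_fderiv_mul volume hAm hdiff hinj fun w => g (e'.symm w)
  have h2 : ∫⁻ z in A, g (e.symm z) ≤ ENNReal.ofReal ((δ ^ 2)⁻¹) *
      ∫⁻ z in A, ENNReal.ofReal |(fderiv ℝ S z).det| * g (e'.symm (S z)) := by
    rw [← lintegral_const_mul' _ _ ENNReal.ofReal_ne_top]
    refine setLIntegral_mono' hAm fun z hz => ?_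
    have h3 : (fderiv ℝ S z).det = ‖(jacM e e' (e.symm z)).det‖ ^ 2 := by
      have := INT.det_trans (hat z hz).1 (hat z hz).2
      rwa [e.right_inv hz.2.1] at this
    have h4 : δ ≤ ‖(jacM e e' (e.symm z)).det‖ := by
      refine hd _ (e.map_target hz.2.1) hz.2.2.1 ?_ (subset_closure hz.2.2.2)
      rw [e.right_inv hz.2.1]
      exact subset_closure hz.1
    have h5 : e'.symm (S z) = e.symm z := e'.left_inv hz.2.2.1
    rw [h3, h5, ← mul_assoc, ← ENNReal.ofReal_mul (by positivity)]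
    have h6 : (1 : ℝ) ≤ (δ ^ 2)⁻¹ * |‖(jacM e e' (e.symm z)).det‖ ^ 2| := by
      rw [abs_of_nonneg (by positivity), inv_mul_eq_div, one_le_div (by positivity)]
      exact pow_le_pow_left₀ hδ.le h4 2
    calc g (e.symm z) = 1 * g (e.symm z) := (one_mul _).symm
      _ ≤ _ := by
        gcongr
        rw [← ENNReal.ofReal_one]
        exact ENNReal.ofReal_le_ofReal h6
  refine h2.trans ?_
  rw [← h1]
  gcongr

/-- Comparison of the charts of a finite family, with a common constant. -/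
theorem cmp [T2Space X] {N : ℕ} {e : Fin N → Chart n X} {V : Fin N → Set (Cm n)}
    (he : ∀ i, e i ∈ atlas (Cm n) X) (hV : ∀ i, IsOpen (V i))
    (hVc : ∀ i, IsCompact (closure (V i))) (hVt : ∀ i, closure (V i) ⊆ (e i).target) :
    ∃ K : ℝ≥0∞, K ≠ ⊤ ∧ 1 ≤ K ∧ ∀ i j, ∀ g : X → ℝ≥0∞,
      ∫⁻ z in V i, {x | x ∈ (e j).source ∧ e j x ∈ V j}.indicator g ((e i).symm z) ≤
        K * ∫⁻ w in V j, g ((e j).symm w) := by
  have h := fun i j => cmp_two (he i) (he j) (hV i) (hV j) (hVc i) (hVc j) (hVt i) (hVt j)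
  choose K hK hK' using h
  refine ⟨1 + ∑ i, ∑ j, K i j, ?_, le_self_add, fun i j g => ?_⟩
  · refine ENNReal.add_ne_top.2 ⟨ENNReal.one_ne_top, ?_⟩
    exact ENNReal.sum_ne_top.2 fun i _ => ENNReal.sum_ne_top.2 fun j _ => hK i j
  · refine (hK' i j g).trans ?_
    gcongr
    calc K i j ≤ ∑ j, K i j := Finset.single_le_sum (f := fun j => K i j)
            (fun _ _ => zero_le) (Finset.mem_univ j)
      _ ≤ ∑ i, ∑ j, K i j := Finset.single_le_sum (f := fun i => ∑ j, K i j)
            (fun _ _ => zero_le) (Finset.mem_univ i)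
      _ ≤ _ := le_add_self

end Vale.Agent.P272.KOD
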