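import Vale.Agent.P272.K.LIN.Cov
import Vale.Agent.P272.K.Inv.Chart
import Vale.Agent.P272.K.Iface
import Vale.Agent.P272.K.INT.Local

/-!
# P272 / KOD: existence of a finite cover by coordinate polydiscs with a smooth partition of unity
and uniform positivity of `i∂∂̄φ`
-/

open scoped Manifold ContDiff ComplexOrder Topology ENNReal ComplexConjugate
open MeasureTheory Set Filter Metric

noncomputable section

namespace Vale.Agent.P272.KOD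

open K K.LIN

variable {n : ℕ} {X : Type*} [TopologicalSpace X] [ChartedSpace (Cm n) X]
  [IsManifold 𝓘(ℂ, Cm n) ω X]

variable (n X) in
lemma rsm : RSm (Cm n) X where
  trans := fun _ he _ he' _ hx hx' =>
    ((transition ⟨he, hx⟩ ⟨he', hx'⟩).restrict_scalars ℝ).of_le (by exact le_top)

section chi
variable (𝒞 : Cov (Cm n) X)

/-- bump functions supported in the ball of radius `2 r` -/
def bmp (i : Fin 𝒞.N) : ContDiffBump (𝒞.c i) where
  rIn := 𝒞.r i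
  rOut := 2 * 𝒞.r i
  rIn_pos := 𝒞.r_pos i
  rIn_lt_rOut := by have := 𝒞.r_pos i; linarith

/-- the bump functions on `X` -/
def bet (i : Fin 𝒞.N) : X → ℝ := ext0 (𝒞.e i) (bmp 𝒞 i)

/-- the partition of unity -/
def chi (i : Fin 𝒞.N) (x : X) : ℝ := bet 𝒞 i x / ∑ j, bet 𝒞 j x

omit [IsManifold 𝓘(ℂ, Cm n) ω X] in
lemma bet_nonneg (i : Fin 𝒞.N) (x : X) : 0 ≤ bet 𝒞 i x := by
  unfold bet ext0
  exact indicator_nonneg (fun x _ => (bmp 𝒞 i).nonneg) x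

omit [IsManifold 𝓘(ℂ, Cm n) ω X] in
lemma bet_ne_zero {i : Fin 𝒞.N} {x : X} (h : bet 𝒞 i x ≠ 0) :
    x ∈ (𝒞.e i).source ∧ 𝒞.e i x ∈ closedBall (𝒞.c i) (2 * 𝒞.r i) := by
  have hx : x ∈ (𝒞.e i).source := by
    by_contra hx
    exact h (ext0_of_notMem hx)
  refine ⟨hx, ?_⟩
  by_contra h2
  apply h
  rw [bet, ext0_of_mem hx]
  apply (bmp 𝒞 i).zero_of_le_dist
  simp only [mem_closedBall, not_le] at h2
  exact h2.le

lemma bet_ck [T2Space X] (i : Fin 𝒞.N) : CkFn (Cm n) ∞ (bet 𝒞 i) := by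
  have := rsm n X
  refine ext0_ck le_rfl (𝒞.mem i) (K := closedBall (𝒞.c i) (2 * 𝒞.r i)) (isCompact_closedBall _ _)
    ((closedBall_subset_closedBall (by have := 𝒞.r_pos i; linarith)).trans (𝒞.sub i))
    (fun y hy => ?_) fun y _ => (bmp 𝒞 i).contDiffAt
  apply (bmp 𝒞 i).zero_of_le_dist
  simp only [mem_closedBall, not_le] at hy
  exact hy.le

omit [IsManifold 𝓘(ℂ, Cm n) ω X] in
lemma bet_sum_pos (x : X) : 0 < ∑ j, bet 𝒞 j x := by
  obtain ⟨i, hx, hi⟩ := 𝒞.cover x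
  have h1 : bet 𝒞 i x = 1 := by
    rw [bet, ext0_of_mem hx]
    exact (bmp 𝒞 i).one_of_mem_closedBall (ball_subset_closedBall hi)
  have h2 : bet 𝒞 i x ≤ ∑ j, bet 𝒞 j x :=
    Finset.single_le_sum (f := fun j => bet 𝒞 j x) (fun j _ => bet_nonneg 𝒞 j x)
      (Finset.mem_univ i)
  linarith

lemma chi_ck [T2Space X] (i : Fin 𝒞.N) : CkFn (Cm n) ∞ (chi 𝒞 i) :=
  (bet_ck 𝒞 i).div (CkFn.sum fun j _ => bet_ck 𝒞 j) fun x => (bet_sum_pos 𝒞 x).ne'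

lemma chi_smooth [T2Space X] (i : Fin 𝒞.N) : SmoothFn (n := n) (chi 𝒞 i) :=
  fun e x hx => chi_ck 𝒞 i e hx.1 x hx.2

omit [IsManifold 𝓘(ℂ, Cm n) ω X] in
lemma chi_nonneg (i : Fin 𝒞.N) (x : X) : 0 ≤ chi 𝒞 i x :=
  div_nonneg (bet_nonneg 𝒞 i x) (bet_sum_pos 𝒞 x).le

omit [IsManifold 𝓘(ℂ, Cm n) ω X] in
lemma chi_sum (x : X) : ∑ i, chi 𝒞 i x = 1 := by
  unfold chi
  rw [← Finset.sum_div]
  exact div_self (bet_sum_pos 𝒞 x).ne'

omit [IsManifold 𝓘(ℂ, Cm n) ω X] in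
lemma chi_ne_zero {i : Fin 𝒞.N} {x : X} (h : chi 𝒞 i x ≠ 0) :
    x ∈ (𝒞.e i).source ∧ 𝒞.e i x ∈ closedBall (𝒞.c i) (2 * 𝒞.r i) :=
  bet_ne_zero 𝒞 fun h0 => h (by rw [chi, h0, zero_div])

end chi

/-- the Levi form as a function of the point and of the vector -/
def levq (φ : Cm n → ℝ) (p : Cm n × Cm n) : ℝ :=
  (∑ j, ∑ k, cHess φ p.1 j k * p.2 j * conj (p.2 k)).re

omit [TopologicalSpace X] [ChartedSpace (Cm n) X] [IsManifold 𝓘(ℂ, Cm n) ω X] in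
lemma levq_pos {φ : Cm n → ℝ} {z β : Cm n} (h : (cHess φ z).PosDef) (hβ : β ≠ 0) :
    0 < levq φ (z, β) := by
  have h1 := h.dotProduct_mulVec_pos (x := star β) (by simpa using hβ)
  have h2 : star (star β) ⬝ᵥ (cHess φ z).mulVec (star β) =
      ∑ j, ∑ k, cHess φ z j k * β j * conj (β k) := by
    simp only [star_star, dotProduct, Matrix.mulVec, Finset.mul_sum, Pi.star_apply]
    refine Finset.sum_congr rfl fun j _ => Finset.sum_congr rfl fun k _ => ?_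
    rw [starRingEnd_apply]; ring
  rw [h2] at h1
  exact (Complex.lt_def.1 h1).1

omit [TopologicalSpace X] [ChartedSpace (Cm n) X] [IsManifold 𝓘(ℂ, Cm n) ω X] in
lemma levq_smul (φ : Cm n → ℝ) (z β : Cm n) (c : ℝ) :
    levq φ (z, (c : ℂ) • β) = c ^ 2 * levq φ (z, β) := by
  unfold levq
  have h1 : (∑ j, ∑ k, cHess φ z j k * ((c : ℂ) • β) j * conj (((c : ℂ) • β) k)) =
      ((c ^ 2 : ℝ) : ℂ) * ∑ j, ∑ k, cHess φ z j k * β j * conj (β k) := by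
    rw [Finset.mul_sum]
    refine Finset.sum_congr rfl fun j _ => ?_
    rw [Finset.mul_sum]
    refine Finset.sum_congr rfl fun k _ => ?_
    simp only [Pi.smul_apply, smul_eq_mul, map_mul, Complex.conj_ofReal]
    push_cast; ring
  simp only [h1, Complex.re_ofReal_mul]

/-- uniform positivity on a compact set of a chart -/
theorem exists_lam {φ : Cm n → ℝ} {S : Set (Cm n)} (hS : IsCompact S)
    (hφ : ∀ z ∈ S, ContDiffAt ℝ ∞ φ z) (hpos : ∀ z ∈ S, (cHess φ z).PosDef) :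
    ∃ lam : ℝ, 0 < lam ∧ ∀ z ∈ S, ∀ β : Cm n, lam * ∑ j, ‖β j‖ ^ 2 ≤
      (∑ j, ∑ k, cHess φ z j k * β j * conj (β k)).re := by
  have hT : IsCompact {β : Cm n | ∑ j, ‖β j‖ ^ 2 = 1} := by
    refine Metric.isCompact_of_isClosed_isBounded ?_ ?_
    · exact isClosed_eq (by fun_prop) continuous_const
    · refine (Metric.isBounded_closedBall (x := (0 : Cm n)) (r := 1)).subset fun β hβ => ?_
      rw [mem_closedBall_zero_iff, pi_norm_le_iff_of_nonneg zero_le_one]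
      intro j
      have h1 : ‖β j‖ ^ 2 ≤ ∑ j, ‖β j‖ ^ 2 :=
        Finset.single_le_sum (f := fun j => ‖β j‖ ^ 2) (fun j _ => by positivity)
          (Finset.mem_univ j)
      rw [mem_ofPred_eq] at hβ
      rw [hβ] at h1
      nlinarith [norm_nonneg (β j)]
  have hc : ContinuousOn (levq φ) (S ×ˢ {β : Cm n | ∑ j, ‖β j‖ ^ 2 = 1}) := by
    rintro ⟨z, β⟩ ⟨hz, -⟩
    have h1 : ∀ j k, ContinuousAt (fun p : Cm n × Cm n => cHess φ p.1 j k) (z, β) := by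
      intro j k
      have := (INT.smooth_cHess (hφ z hz) j k).continuousAt
      exact ContinuousAt.comp (f := fun p : Cm n × Cm n => p.1)
        (g := fun z => cHess φ z j k) this continuousAt_fst
    refine ContinuousAt.continuousWithinAt ?_
    unfold levq
    refine Complex.continuous_re.continuousAt.comp ?_
    refine tendsto_finsetSum _ fun j _ => tendsto_finsetSum _ fun k _ => ?_
    refine ((h1 j k).mul ?_).mul ?_
    · fun_prop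
    · fun_prop
  have key : ∃ lam : ℝ, 0 < lam ∧ ∀ z ∈ S, ∀ β : Cm n, ∑ j, ‖β j‖ ^ 2 = 1 → lam ≤ levq φ (z, β) := by
    rcases (S ×ˢ {β : Cm n | ∑ j, ‖β j‖ ^ 2 = 1}).eq_empty_or_nonempty with h0 | h0
    · refine ⟨1, one_pos, fun z hz β hβ => ?_⟩
      have : (z, β) ∈ (S ×ˢ {β : Cm n | ∑ j, ‖β j‖ ^ 2 = 1}) := ⟨hz, hβ⟩
      rw [h0] at this
      exact absurd this (notMem_empty _)
    · obtain ⟨⟨z0, β0⟩, ⟨hz0, hβ0⟩, hmin⟩ := (hS.prod hT).exists_isMinOn h0 hc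
      refine ⟨levq φ (z0, β0), levq_pos (hpos z0 hz0) ?_, fun z hz β hβ => hmin ⟨hz, hβ⟩⟩
      rintro rfl
      simp at hβ0
  obtain ⟨lam, hlam, h⟩ := key
  refine ⟨lam, hlam, fun z hz β => ?_⟩
  show _ ≤ levq φ (z, β)
  set t := ∑ j, ‖β j‖ ^ 2 with ht
  have ht0 : 0 ≤ t := Finset.sum_nonneg fun j _ => by positivity
  rcases ht0.eq_or_lt with h0 | h0
  · have hβ : β = 0 := by
      funext j
      have h1 : ‖β j‖ ^ 2 ≤ t :=
        Finset.single_le_sum (f := fun j => ‖β j‖ ^ 2) (fun j _ => by positivity)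
          (Finset.mem_univ j)
      rw [← h0] at h1
      have h2 : ‖β j‖ = 0 := pow_eq_zero_iff (two_ne_zero) |>.1 (le_antisymm h1 (sq_nonneg _))
      simpa using h2
    rw [← h0, mul_zero, hβ]
    simp [levq]
  · have hs : 0 < Real.sqrt t := Real.sqrt_pos.2 h0
    have h1 := h z hz (((Real.sqrt t)⁻¹ : ℝ) • β) (by
      simp only [Pi.smul_apply, norm_smul, mul_pow, ← Finset.mul_sum, ← ht]
      rw [Real.norm_eq_abs, sq_abs, inv_pow, Real.sq_sqrt ht0, inv_mul_cancel₀ h0.ne'])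
    have h2 : (((Real.sqrt t)⁻¹ : ℝ) • β) = ((((Real.sqrt t)⁻¹ : ℝ) : ℂ)) • β := by
      funext j; simp
    rw [h2, levq_smul, inv_pow, Real.sq_sqrt ht0, inv_mul_eq_div, le_div_iff₀ h0] at h1
    exact h1

/-- **Existence of the cover.** -/
theorem exists_cover [T2Space X] [CompactSpace X] {φ : Chart n X → Cm n → ℝ}
    (hφ : IsCanonicalMetric φ) (hpos : ∀ e x, At e x → (cHess (φ e) (e x)).PosDef) :
    ∃ (N : ℕ) (e : Fin N → Chart n X) (c : Fin N → Cm n) (r : Fin N → ℝ)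
      (χ : Fin N → X → ℝ) (lam : ℝ), (∀ i, e i ∈ atlas (Cm n) X) ∧ (∀ i, 0 < r i) ∧
      (∀ i, closedBall (c i) (3 * r i) ⊆ (e i).target) ∧ (∀ i, SmoothFn (n := n) (χ i)) ∧
      (∀ i x, 0 ≤ χ i x) ∧ (∀ x, ∑ i, χ i x = 1) ∧
      (∀ i x, χ i x ≠ 0 → x ∈ (e i).source ∧ e i x ∈ closedBall (c i) (2 * r i)) ∧ 0 < lam ∧
      ∀ i, ∀ z ∈ closedBall (c i) (3 * r i), ∀ β : Cm n, lam * ∑ j, ‖β j‖ ^ 2 ≤
        (∑ j, ∑ k, cHess (φ (e i)) z j k * β j * conj (β k)).re := by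
  obtain ⟨𝒞⟩ := Cov.nonempty (Cm n) X
  have h1 : ∀ i, ∃ lam : ℝ, 0 < lam ∧ ∀ z ∈ closedBall (𝒞.c i) (3 * 𝒞.r i), ∀ β : Cm n,
      lam * ∑ j, ‖β j‖ ^ 2 ≤ (∑ j, ∑ k, cHess (φ (𝒞.e i)) z j k * β j * conj (β k)).re := by
    intro i
    refine exists_lam (isCompact_closedBall _ _) (fun z hz => ?_) fun z hz => ?_
    · have := hφ.smooth (𝒞.e i) ((𝒞.e i).symm z) (At.of_target (𝒞.mem i) (𝒞.sub i hz))
      rwa [(𝒞.e i).right_inv (𝒞.sub i hz)] at this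
    · have := hpos (𝒞.e i) ((𝒞.e i).symm z) (At.of_target (𝒞.mem i) (𝒞.sub i hz))
      rwa [(𝒞.e i).right_inv (𝒞.sub i hz)] at this
  choose lam hlam hlam' using h1
  obtain ⟨l, hl, hl'⟩ : ∃ l : ℝ, 0 < l ∧ ∀ i, l ≤ lam i := by
    rcases Nat.eq_zero_or_pos 𝒞.N with h0 | h0
    · refine ⟨1, one_pos, fun i => absurd i.2 (by omega)⟩
    · have : Nonempty (Fin 𝒞.N) := ⟨⟨0, h0⟩⟩
      obtain ⟨i0, hi0⟩ := Finite.exists_min lam
      exact ⟨lam i0, hlam i0, hi0⟩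
  refine ⟨𝒞.N, 𝒞.e, 𝒞.c, 𝒞.r, chi 𝒞, l, 𝒞.mem, 𝒞.r_pos, 𝒞.sub, chi_smooth 𝒞, chi_nonneg 𝒞,
    chi_sum 𝒞, fun i x h => chi_ne_zero 𝒞 h, hl, fun i z hz β => ?_⟩
  refine le_trans ?_ (hlam' i z hz β)
  exact mul_le_mul_of_nonneg_right (hl' i) (Finset.sum_nonneg fun j _ => by positivity)

end Vale.Agent.P272.KOD
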