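import Vale.Agent.P272.KOD.KDefs
import Vale.Agent.P272.KOD.CovEx

/-! P272 / KOD: good covers exist. -/

open scoped Manifold ContDiff ComplexOrder Topology ENNReal ComplexConjugate
open MeasureTheory Set Metric

noncomputable section

namespace Vale.Agent.P272.KOD

open K

/-- **Existence of a good cover** on which the curvature of `φ` is uniformly positive. -/
theorem exists_pcov {n : ℕ} {X : Type*} [TopologicalSpace X] [ChartedSpace (Cm n) X]
    [IsManifold 𝓘(ℂ, Cm n) ω X] [T2Space X] [CompactSpace X] {φ : Chart n X → Cm n → ℝ}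
    (hφ : IsCanonicalMetric φ) (hpos : ∀ e x, At e x → (cHess (φ e) (e x)).PosDef) :
    ∃ (C : PCov n X) (lam : ℝ), C.Pos φ lam := by
  obtain ⟨N, e, c, r, χ, lam, hmem, hr, hsub, hsm, hnn, hsum, hsupp, hlam, hlev⟩ :=
    exists_cover hφ hpos
  refine ⟨⟨N, e, hmem, c, fun i => 3 * r i, fun i => by have := hr i; positivity, hsub, χ, hsm,
    hnn, hsum, fun i => closedBall (c i) (2 * r i), fun i => isCompact_closedBall _ _,
    fun i => closedBall_subset_ball (by have := hr i; linarith), hsupp⟩, lam, hlam, hlev⟩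

end Vale.Agent.P272.KOD
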