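import Vale.Agent.P272.K.Stmt
import Mathlib.Analysis.Analytic.Constructions
import Mathlib.LinearAlgebra.Projectivization.Basic

/-!
# P272, stage 4: sections of the powers of the canonical bundle, ampleness (Kodaira embedding)

Frozen definitions and frozen interface statements.
-/

open scoped Manifold ContDiff ComplexOrder
open MeasureTheory

noncomputable section

namespace Vale.Agent.P272.KOD

open Vale.Agent.P272.K

/-- A holomorphic section of the `m`-th power of the canonical bundle of `X` (a holomorphic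
`m`-canonical form), given by its coefficient functions in the charts of `X`. -/
structure PSec (n m : ℕ) (X : Type*) [TopologicalSpace X] [ChartedSpace (Cm n) X] where
  coeff : Chart n X → Cm n → ℂ
  holo : ∀ (e : Chart n X) (x : X), At e x → AnalyticAt ℂ (coeff e) (e x)
  change : ∀ (e e' : Chart n X) (x : X), At e x → At e' x →
    coeff e (e x) = coeff e' (e' x) * (jacM e e' x).det ^ m

/-- A smooth section of the `m`-th power of the canonical bundle of `X`. -/
structure SSec (n m : ℕ) (X : Type*) [TopologicalSpace X] [ChartedSpace (Cm n) X] where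
  coeff : Chart n X → Cm n → ℂ
  smooth : ∀ (e : Chart n X) (x : X), At e x → ContDiffAt ℝ ∞ (coeff e) (e x)
  change : ∀ (e e' : Chart n X) (x : X), At e x → At e' x →
    coeff e (e x) = coeff e' (e' x) * (jacM e e' x).det ^ m

section
variable {n m : ℕ} {X : Type*} [TopologicalSpace X] [ChartedSpace (Cm n) X]

/-- The value of a section at `x` in the preferred chart at `x`. -/
def PSec.val (s : PSec n m X) (x : X) : ℂ :=
  s.coeff (chartAt (Cm n) x) (chartAt (Cm n) x x)

/-- The derivative at `x`, in the preferred chart at `x`, of the map `s_j / s_i`. -/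
def dratio {N : ℕ} (s : Fin (N + 1) → PSec n m X) (x : X) (i j : Fin (N + 1)) : Cm n →L[ℂ] ℂ :=
  fderiv ℂ (fun z => (s j).coeff (chartAt (Cm n) x) z / (s i).coeff (chartAt (Cm n) x) z)
    (chartAt (Cm n) x x)

/-- The sections `s_0, …, s_N` of `K_X^m` define a holomorphic embedding of the compact manifold
`X` into the projective space `ℙ^N`: they have no common zero, the map
`x ↦ [s_0(x) : … : s_N(x)]` to `ℙ^N` is injective, and it is an immersion (in the affine chart
`s_i ≠ 0` of `ℙ^N` it is the map `(s_j / s_i)_j`, whose derivative is injective). -/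
structure DefinesEmbedding {N : ℕ} (s : Fin (N + 1) → PSec n m X) : Prop where
  ne_zero : ∀ x, (fun i => (s i).val x) ≠ 0
  injective : Function.Injective fun x =>
    Projectivization.mk ℂ (fun i : Fin (N + 1) => (s i).val x) (ne_zero x)
  immersive : ∀ x i, (s i).val x ≠ 0 → ∀ v : Cm n, (∀ j, dratio s x i j v = 0) → v = 0

variable (n X) in
/-- `K_X` is ample: for some `m ≥ 1` finitely many holomorphic sections of `K_X^m` define a
holomorphic embedding of `X` into a projective space. -/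
def AmpleCanonical : Prop :=
  ∃ m : ℕ, 1 ≤ m ∧ ∃ (N : ℕ) (s : Fin (N + 1) → PSec n m X), DefinesEmbedding s

variable (n m) in
/-- Some sections of `K_X^m` have a nonzero value and span the `1`-jets at `x`. -/
def JetAt (x : X) : Prop :=
  ∃ (s : Fin (n + 1) → PSec n m X) (e : Chart n X), At e x ∧ (s 0).coeff e (e x) ≠ 0 ∧
    (Matrix.of fun i j : Fin n =>
      dz j (fun z => (s i.succ).coeff e z / (s 0).coeff e z) (e x)).det ≠ 0

variable (n m) in
/-- Some sections of `K_X^m` separate `x` and `y`. -/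
def SepAt (x y : X) : Prop :=
  ∃ (s t : PSec n m X) (e e' : Chart n X), At e x ∧ At e' y ∧
    s.coeff e (e x) * t.coeff e' (e' y) - s.coeff e' (e' y) * t.coeff e (e x) ≠ 0

end

section blocks

variable (n : ℕ) (X : Type) [TopologicalSpace X] [ChartedSpace (Cm n) X]

/-- Squared `L²` norm over `V`, with weight `exp (-m φ)`, of `f`. -/
def nrm (m : ℕ) (φ : Cm n → ℝ) (V : Set (Cm n)) (f : Cm n → ℂ) : ENNReal :=
  ∫⁻ z in V, ENNReal.ofReal (‖f z‖ ^ 2 * Real.exp (-(m : ℝ) * φ z))

/-- Squared `L²` norm over `V`, with weight `exp (-m φ)`, of `∂̄f`. -/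
def dnrm (m : ℕ) (φ : Cm n → ℝ) (V : Set (Cm n)) (f : Cm n → ℂ) : ENNReal :=
  ∫⁻ z in V, ENNReal.ofReal ((∑ l, ‖dzb l f z‖ ^ 2) * Real.exp (-(m : ℝ) * φ z))

/-- KEY (block K2): approximation of smooth sections of `K_X^m` by holomorphic ones, for a fixed
finite family of coordinate domains covering `X`, with constants independent of `m`. -/
def Key (φ : Chart n X → Cm n → ℝ) : Prop :=
  ∃ (N : ℕ) (e : Fin N → Chart n X) (V : Fin N → Set (Cm n)) (C : ℝ) (m₀ : ℕ),
    0 ≤ C ∧ 1 ≤ m₀ ∧ (∀ i, e i ∈ atlas (Cm n) X) ∧ (∀ i, IsOpen (V i)) ∧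
    (∀ i, IsCompact (closure (V i))) ∧ (∀ i, closure (V i) ⊆ (e i).target) ∧
    (∀ x, ∃ i, x ∈ (e i).source ∧ e i x ∈ V i) ∧
    ∀ m, m₀ ≤ m → ∀ σ : SSec n m X, ∃ s : PSec n m X, ∀ i,
      nrm n m (φ (e i)) (V i) (fun z => σ.coeff (e i) z - s.coeff (e i) z) ≤
        ENNReal.ofReal C * ∑ j, dnrm n m (φ (e j)) (V j) (σ.coeff (e j))

/-- Block K2. -/
def KeyStmt : Prop :=
  ∀ (n : ℕ) (X : Type) [TopologicalSpace X] [T2Space X] [CompactSpace X] [ChartedSpace (Cm n) X]
    [IsManifold 𝓘(ℂ, Cm n) ω X] (φ : Chart n X → Cm n → ℝ), IsCanonicalMetric φ →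
    (∀ e x, At e x → (cHess (φ e) (e x)).PosDef) → Key n X φ

/-- Block K4: peak sections. -/
def PeakStmt : Prop :=
  ∀ (n : ℕ) (X : Type) [TopologicalSpace X] [T2Space X] [CompactSpace X] [ChartedSpace (Cm n) X]
    [IsManifold 𝓘(ℂ, Cm n) ω X] (φ : Chart n X → Cm n → ℝ), IsCanonicalMetric φ →
    (∀ e x, At e x → (cHess (φ e) (e x)).PosDef) → Key n X φ →
    (∀ x : X, ∃ m, 1 ≤ m ∧ JetAt n m x) ∧ (∀ x y : X, x ≠ y → ∃ m, 1 ≤ m ∧ SepAt n m x y)

/-- Block K5: soft part. -/
def SoftStmt : Prop :=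
  ∀ (n : ℕ) (X : Type) [TopologicalSpace X] [T2Space X] [CompactSpace X] [Nonempty X]
    [ChartedSpace (Cm n) X] [IsManifold 𝓘(ℂ, Cm n) ω X],
    (∀ x : X, ∃ m, 1 ≤ m ∧ JetAt n m x) →
    (∀ x y : X, x ≠ y → ∃ m, 1 ≤ m ∧ SepAt n m x y) → AmpleCanonical n X

/-- Kodaira's theorem for the canonical bundle, from the blocks. -/
theorem kodaira_of (hK : KeyStmt) (hP : PeakStmt) (hS : SoftStmt)
    (n : ℕ) (X : Type) [TopologicalSpace X] [T2Space X] [CompactSpace X] [Nonempty X]
    [ChartedSpace (Cm n) X] [IsManifold 𝓘(ℂ, Cm n) ω X]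
    (hpos : ∃ φ : Chart n X → Cm n → ℝ, IsCanonicalMetric φ ∧
      ∀ e x, At e x → (cHess (φ e) (e x)).PosDef) : AmpleCanonical n X := by
  obtain ⟨φ, hφ, hp⟩ := hpos
  obtain ⟨h1, h2⟩ := hP n X φ hφ hp (hK n X φ hφ hp)
  exact hS n X h1 h2

end blocks

end Vale.Agent.P272.KOD
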