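import Vale.Agent.P271.H884.Holo
import Vale.Agent.P271.H884.Poly
import Vale.Agent.P272.K.Inv.Wirt
import Vale.Agent.P272.KOD.Defs

/-!
P272, stage 4: the local approximation theorem (Hoermander's theorem on a polydisc with the weight
`m φ`, from the starting files).
-/

open scoped Manifold ContDiff ENNReal NNReal ComplexConjugate
open MeasureTheory Filter Topology Metric Set

noncomputable section

namespace Vale.Agent.P272.KOD

open Vale.Agent.P272.K

variable {n : ℕ}

/-- On a polydisc a smooth function is close to a holomorphic function if its `∂̄` is small, with a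
gain `1 / m` in the weighted norm for the weight `m φ`. -/
theorem loc {c : Cm n} {r : ℝ} (hr : 0 < r) {φ : Cm n → ℝ}
    (hφ : ∀ z ∈ closedBall c r, ContDiffAt ℝ 2 φ z) {lam : ℝ} (hlam : 0 < lam)
    (hpos : ∀ z ∈ closedBall c r, ∀ β : Cm n,
      lam * ∑ j, ‖β j‖ ^ 2 ≤ (∑ j, ∑ k, cHess φ z j k * β j * conj (β k)).re)
    {m : ℕ} (hm : 1 ≤ m) {s : Cm n → ℂ} (hs : ∀ z ∈ closedBall c r, ContDiffAt ℝ 2 s z)
    {A : ℝ} (hA : 0 ≤ A)
    (h : ∫⁻ z in ball c r, ENNReal.ofReal ((∑ j, ‖dzb j s z‖ ^ 2) *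
      Real.exp (-((m : ℝ) * φ z))) ≤ ENNReal.ofReal A) :
    ∃ F : Cm n → ℂ, DifferentiableOn ℂ F (ball c r) ∧
      ∫⁻ z in ball c r, ENNReal.ofReal (‖F z - s z‖ ^ 2 * Real.exp (-((m : ℝ) * φ z))) ≤
        ENNReal.ofReal (2 / ((m : ℝ) * lam) * A) := by
  have hm0 : (0 : ℝ) < m := by exact_mod_cast hm
  set V : Set (Cm n) := ball c r with hVdef
  have hV : IsOpen V := isOpen_ball
  have hVc : V ⊆ closedBall c r := ball_subset_closedBall
  obtain ⟨p, C, hC, hp⟩ := Vale.Agent.P271.Dom.exh_ball (z₀ := c) hr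
  have hφV : ContDiffOn ℝ 2 φ V := fun z hz => (hφ z (hVc hz)).contDiffWithinAt
  have hsV : ContDiffOn ℝ 2 s V := fun z hz => (hs z (hVc hz)).contDiffWithinAt
  set Φ : Cm n → ℝ := fun z => (m : ℝ) * φ z with hΦ
  have hΦV : ContDiffOn ℝ 2 Φ V := contDiffOn_const.mul hφV
  have hφc : ContinuousOn φ (closedBall c r) := fun z hz => (hφ z hz).continuousAt.continuousWithinAt
  -- the weight is bounded below
  have hΦb : ∃ b : ℝ, ∀ z ∈ V, b ≤ Φ z := by
    obtain ⟨b, hb⟩ := (isCompact_closedBall c r).bddBelow_image hφc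
    exact ⟨m * b, fun z hz => mul_le_mul_of_nonneg_left (hb ⟨z, hVc hz, rfl⟩) hm0.le⟩
  -- the Levi form
  have hlev : ∀ z ∈ V, ∀ β : Cm n,
      (m : ℝ) * (lam * ∑ j, ‖β j‖ ^ 2) ≤ Vale.Agent.P271.Dom.leviF Φ β z := by
    intro z hz β
    have h1 : Vale.Agent.P271.Dom.leviF Φ β z =
        (m : ℝ) * (∑ j, ∑ k, cHess φ z j k * β j * conj (β k)).re := by
      have h2 : ∀ j k, dz j (dzb k fun y => (Φ y : ℂ)) z = (m : ℂ) * cHess φ z j k := by
        intro j k
        have hφz := hφ z (hVc hz)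
        have h3 : ∀ᶠ w in 𝓝 z, ContDiffAt ℝ 2 φ w := hφz.eventually (by norm_num)
        have h4 : dzb k (fun y => (Φ y : ℂ)) =ᶠ[𝓝 z] fun w => (m : ℂ) *
            dzb k (fun y => (φ y : ℂ)) w := by
          filter_upwards [h3] with w hw
          have h5 : DifferentiableAt ℝ (fun y => (φ y : ℂ)) w :=
            Complex.ofRealCLM.differentiableAt.comp w (hw.differentiableAt (by norm_num))
          rw [← dzb_const_mul (m : ℂ) h5]
          congr 1
          funext y
          simp [hΦ]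
        rw [dz_congr h4]
        have h6 : DifferentiableAt ℝ (dzb k fun y => (φ y : ℂ)) z := by
          have h7 : ContDiffAt ℝ 2 (fun y => (φ y : ℂ)) z :=
            Complex.ofRealCLM.contDiff.contDiffAt.comp z hφz
          have h8 : ContDiffAt ℝ 1 (fderiv ℝ fun y => (φ y : ℂ)) z :=
            h7.fderiv_right (by norm_num)
          have h9 : DifferentiableAt ℝ (fderiv ℝ fun y => (φ y : ℂ)) z :=
            h8.differentiableAt (by norm_num)
          have h10 : DifferentiableAt ℝ (fun w => fderiv ℝ (fun y => (φ y : ℂ)) w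
              (Pi.single k 1)) z := h9.clm_apply (differentiableAt_const _)
          have h11 : DifferentiableAt ℝ (fun w => fderiv ℝ (fun y => (φ y : ℂ)) w
              (Pi.single k Complex.I)) z := h9.clm_apply (differentiableAt_const _)
          unfold dzb
          simp only [div_eq_mul_inv]
          exact (h10.fun_add (h11.const_mul _)).mul_const _
        rw [dz_const_mul (m : ℂ) h6]
        rfl
      show (∑ j, ∑ k, dz j (dzb k fun y => (Φ y : ℂ)) z * β j * conj (β k)).re = _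
      simp only [h2]
      have h3 : ∑ j, ∑ k, (m : ℂ) * cHess φ z j k * β j * conj (β k) =
          ((m : ℝ) : ℂ) * ∑ j, ∑ k, cHess φ z j k * β j * conj (β k) := by
        rw [Finset.mul_sum]
        refine Finset.sum_congr rfl fun j _ => ?_
        rw [Finset.mul_sum]
        refine Finset.sum_congr rfl fun k _ => ?_
        push_cast
        ring
      rw [h3, Complex.re_ofReal_mul]
    rw [h1]
    exact mul_le_mul_of_nonneg_left (hpos z (hVc hz) β) hm0.le
  have hlevi : ∀ z ∈ V, ∀ β, 0 ≤ Vale.Agent.P271.Dom.leviF Φ β z := fun z hz β =>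
    le_trans (by positivity) (hlev z hz β)
  -- the derivatives of `s`
  have hdc : ∀ j, ContinuousOn (dzb j s) (closedBall c r) := by
    intro j z hz
    have h8 : ContDiffAt ℝ 1 (fderiv ℝ s) z := (hs z hz).fderiv_right (by norm_num)
    have h9 : ContinuousAt (fderiv ℝ s) z := h8.continuousAt
    have : ContinuousAt (dzb j s) z := by
      unfold dzb
      exact ((h9.clm_apply continuousAt_const).add
        ((h9.clm_apply continuousAt_const).const_mul _)).div_const _
    exact this.continuousWithinAt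
  have hsb : ∃ (b : ℝ) (k : ℕ), ∀ z ∈ V, ∀ j, ‖dzb j s z‖ ≤ b * (1 + p z) ^ k := by
    have h1 : ∀ j, ∃ b, ∀ z ∈ closedBall c r, ‖dzb j s z‖ ≤ b := fun j =>
      (isCompact_closedBall c r).exists_bound_of_continuousOn (hdc j)
    choose b hb using h1
    refine ⟨∑ j, |b j|, 0, fun z hz j => ?_⟩
    rw [pow_zero, mul_one]
    exact ((hb j z (hVc hz)).trans (le_abs_self _)).trans
      (Finset.single_le_sum (f := fun j => |b j|) (fun i _ => abs_nonneg _) (Finset.mem_univ j))
  set a : Cm n → ℝ := fun z => (∑ j, ‖dzb j s z‖ ^ 2) / ((m : ℝ) * lam) with ha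
  have ha0 : ∀ z, 0 ≤ a z := fun z => by positivity
  have ham : AEMeasurable a (volume.restrict V) := by
    refine ContinuousOn.aemeasurable ?_ hV.measurableSet
    refine ContinuousOn.div_const ?_ _
    exact continuousOn_finsetSum _ fun j _ => ((hdc j).mono hVc).norm.pow 2
  have hab : ∀ z ∈ V, ∀ β : Cm n, ‖∑ j, dzb j s z * conj (β j)‖ ^ 2 ≤
      a z * Vale.Agent.P271.Dom.leviF Φ β z := by
    intro z hz β
    have h1 : ‖∑ j, dzb j s z * conj (β j)‖ ^ 2 ≤ (∑ j, ‖dzb j s z‖ ^ 2) * ∑ j, ‖β j‖ ^ 2 := by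
      have h2 : ‖∑ j, dzb j s z * conj (β j)‖ ≤ ∑ j, ‖dzb j s z‖ * ‖β j‖ := by
        refine (norm_sum_le _ _).trans (le_of_eq ?_)
        refine Finset.sum_congr rfl fun j _ => ?_
        rw [norm_mul, RCLike.norm_conj]
      exact (pow_le_pow_left₀ (norm_nonneg _) h2 2).trans
        (Finset.sum_mul_sq_le_sq_mul_sq _ _ _)
    refine h1.trans ?_
    have h3 := hlev z hz β
    have h4 : (∑ j, ‖dzb j s z‖ ^ 2) * ∑ j, ‖β j‖ ^ 2 =
        a z * ((m : ℝ) * (lam * ∑ j, ‖β j‖ ^ 2)) := by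
      simp only [ha]
      field_simp
    rw [h4]
    exact mul_le_mul_of_nonneg_left h3 (ha0 z)
  have hAint : ∫⁻ z in V, ENNReal.ofReal (a z * Real.exp (-Φ z)) ≤
      ENNReal.ofReal (A / ((m : ℝ) * lam)) := by
    have h1 : ∀ z, ENNReal.ofReal (a z * Real.exp (-Φ z)) = ENNReal.ofReal (1 / ((m : ℝ) * lam)) *
        ENNReal.ofReal ((∑ j, ‖dzb j s z‖ ^ 2) * Real.exp (-((m : ℝ) * φ z))) := by
      intro z
      rw [← ENNReal.ofReal_mul (by positivity)]
      congr 1
      simp only [ha, hΦ]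
      ring
    simp only [h1]
    rw [lintegral_const_mul' _ _ ENNReal.ofReal_ne_top]
    refine (mul_le_mul_right h _).trans (le_of_eq ?_)
    rw [← ENNReal.ofReal_mul (by positivity)]
    congr 1
    ring
  obtain ⟨F, hF, hFe⟩ := Vale.Agent.P271.Dom.holo_dom hV hp hΦV hΦb hlevi hsV hsb a ha0 ham hab
    (A := A / ((m : ℝ) * lam)) (by positivity) hAint
  refine ⟨F, hF, hFe.trans (le_of_eq ?_)⟩
  congr 1
  ring

/-- LOC: the same with the norms of the interface. -/
theorem loc_nrm {c : Cm n} {r : ℝ} (hr : 0 < r) {φ : Cm n → ℝ}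
    (hφ : ∀ z ∈ closedBall c r, ContDiffAt ℝ 2 φ z) {lam : ℝ} (hlam : 0 < lam)
    (hpos : ∀ z ∈ closedBall c r, ∀ β : Cm n,
      lam * ∑ j, ‖β j‖ ^ 2 ≤ (∑ j, ∑ k, cHess φ z j k * β j * conj (β k)).re)
    {m : ℕ} (hm : 1 ≤ m) {s : Cm n → ℂ} (hs : ∀ z ∈ closedBall c r, ContDiffAt ℝ 2 s z)
    {A : ℝ} (hA : 0 ≤ A) (h : dnrm n m φ (ball c r) s ≤ ENNReal.ofReal A) :
    ∃ F : Cm n → ℂ, DifferentiableOn ℂ F (ball c r) ∧
      nrm n m φ (ball c r) (fun z => F z - s z) ≤ ENNReal.ofReal (2 / ((m : ℝ) * lam) * A) := by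
  unfold dnrm at h
  unfold nrm
  simp only [neg_mul] at h ⊢
  exact loc hr hφ hlam hpos hm hs hA h

end Vale.Agent.P272.KOD
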