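import Vale.Agent.P272.KOD.KDefs
import Vale.Agent.P272.KOD.Tools
import Vale.Agent.P272.KOD.Cmp
import Vale.Agent.P282.Bd3.B1
import Vale.Agent.P272.KOD.Loc
import Mathlib.Algebra.Order.Chebyshev

/-!
# P272 / KOD: the averaging step

A smooth section `σ` of `K_X^m` and holomorphic functions `F i` on the polydiscs, close to `σ`, give
the smooth section `∑ χ_j F_j`, close to `σ` and with small `∂̄`.
-/

open scoped Manifold ContDiff ComplexOrder Topology ENNReal ComplexConjugate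
open MeasureTheory Set Filter Metric

noncomputable section

namespace Vale.Agent.P272.KOD

open K

lemma gs_sum_sq {N : ℕ} (a b : Fin N → ℂ) {c E : ℝ} (_hc : 0 ≤ c) (hE : 0 ≤ E)
    (P : Fin N → Prop) [DecidablePred P] (ha : ∀ j, ‖a j‖ ≤ c) (hP : ∀ j, ¬ P j → a j = 0) :
    ENNReal.ofReal (‖∑ j, a j * b j‖ ^ 2 * E) ≤ ENNReal.ofReal (N * c ^ 2) *
      ∑ j, (if P j then ENNReal.ofReal (‖b j‖ ^ 2 * E) else 0) := by
  have h1 : ∀ j, (if P j then ENNReal.ofReal (‖b j‖ ^ 2 * E) else 0) =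
      ENNReal.ofReal ((if P j then ‖b j‖ ^ 2 else 0) * E) := by
    intro j; split_ifs <;> simp
  have h6 : ∀ j, 0 ≤ (if P j then ‖b j‖ ^ 2 else 0) * E := by
    intro j; split_ifs <;> positivity
  rw [Finset.sum_congr rfl fun j _ => h1 j, ← ENNReal.ofReal_sum_of_nonneg fun j _ => h6 j,
    ← ENNReal.ofReal_mul (by positivity)]
  apply ENNReal.ofReal_le_ofReal
  rw [← Finset.sum_mul, ← mul_assoc]
  refine mul_le_mul_of_nonneg_right ?_ hE
  have h8 : ‖∑ j, a j * b j‖ ≤ c * ∑ j, (if P j then ‖b j‖ else 0) := by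
    rw [Finset.mul_sum]
    refine (norm_sum_le _ _).trans (Finset.sum_le_sum fun j _ => ?_)
    by_cases h : P j
    · rw [if_pos h, norm_mul]
      exact mul_le_mul_of_nonneg_right (ha j) (norm_nonneg _)
    · rw [if_neg h, hP j h, zero_mul, norm_zero, mul_zero]
  have h9 : (∑ j, (if P j then ‖b j‖ else 0)) ^ 2 ≤ N * ∑ j, (if P j then ‖b j‖ else 0) ^ 2 := by
    have := sq_sum_le_card_mul_sum_sq (s := (Finset.univ : Finset (Fin N)))
      (f := fun j => if P j then ‖b j‖ else 0)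
    simpa using this
  have h10 : ∀ j, (if P j then ‖b j‖ else 0) ^ 2 = (if P j then ‖b j‖ ^ 2 else 0) := by
    intro j; split_ifs <;> simp
  simp only [h10] at h9
  calc ‖∑ j, a j * b j‖ ^ 2 ≤ (c * ∑ j, (if P j then ‖b j‖ else 0)) ^ 2 :=
        pow_le_pow_left₀ (norm_nonneg _) h8 2
    _ = c ^ 2 * (∑ j, (if P j then ‖b j‖ else 0)) ^ 2 := by ring
    _ ≤ c ^ 2 * (N * ∑ j, (if P j then ‖b j‖ ^ 2 else 0)) := by gcongr
    _ = _ := by ring

section
variable {n : ℕ} {X : Type*} [TopologicalSpace X] [ChartedSpace (Cm n) X]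
  [IsManifold 𝓘(ℂ, Cm n) ω X] [T2Space X] (C : PCov n X) {φ : Chart n X → Cm n → ℝ} {m : ℕ}

omit [IsManifold 𝓘(ℂ, Cm n) ω X] [T2Space X] in
lemma gs_isOpen_V (i : Fin C.N) : IsOpen (C.V i) := isOpen_ball

omit [IsManifold 𝓘(ℂ, Cm n) ω X] [T2Space X] in
lemma gs_V_sub (i : Fin C.N) : C.V i ⊆ (C.e i).target := ball_subset_closedBall.trans (C.sub i)

/-- the part of `X` in the polydisc number `i` -/
def gsD (i : Fin C.N) : Set X := {x | x ∈ (C.e i).source ∧ C.e i x ∈ C.V i}

/-- the support of the cut-off function number `i` -/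
def gsQ (i : Fin C.N) : Set X := (C.e i).symm '' C.K i

omit [IsManifold 𝓘(ℂ, Cm n) ω X] in
lemma gs_isClosed_Q (i : Fin C.N) : IsClosed (gsQ C i) :=
  ((C.compactK i).image_of_continuousOn ((C.e i).continuousOn_symm.mono
    ((C.K_sub i).trans (gs_V_sub C i)))).isClosed

omit [IsManifold 𝓘(ℂ, Cm n) ω X] [T2Space X] in
lemma gs_Q_sub (i : Fin C.N) : gsQ C i ⊆ gsD C i := by
  rintro _ ⟨z, hz, rfl⟩
  have h1 := C.K_sub i hz
  have h2 := gs_V_sub C i h1
  refine ⟨(C.e i).map_target h2, ?_⟩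
  rw [(C.e i).right_inv h2]; exact h1

omit [IsManifold 𝓘(ℂ, Cm n) ω X] [T2Space X] in
lemma gs_chi_zero {i : Fin C.N} {x : X} (h : x ∉ gsQ C i) : C.χ i x = 0 := by
  by_contra h0
  obtain ⟨h1, h2⟩ := C.supp i x h0
  exact h ⟨_, h2, (C.e i).left_inv h1⟩

omit [IsManifold 𝓘(ℂ, Cm n) ω X] [T2Space X] in
lemma gs_chi_le (i : Fin C.N) (x : X) : C.χ i x ≤ 1 := by
  rw [← C.sum_one x]
  exact Finset.single_le_sum (f := fun j => C.χ j x) (fun j _ => C.nonneg j x) (Finset.mem_univ i)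

/-- the function `χ F` in the chart -/
def gsG (j : Fin C.N) (F : Cm n → ℂ) : Cm n → ℂ :=
  (C.K j).indicator fun z => (C.χ j ((C.e j).symm z) : ℂ) * F z

omit [IsManifold 𝓘(ℂ, Cm n) ω X] [T2Space X] in
lemma gsG_of_mem {j : Fin C.N} {F : Cm n → ℂ} {z : Cm n} (hz : z ∈ (C.e j).target) :
    gsG C j F z = (C.χ j ((C.e j).symm z) : ℂ) * F z := by
  unfold gsG
  by_cases h : z ∈ C.K j
  · rw [indicator_of_mem h]
  · rw [indicator_of_notMem h]
    have : C.χ j ((C.e j).symm z) = 0 := by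
      by_contra h0
      have := (C.supp j _ h0).2
      rw [(C.e j).right_inv hz] at this
      exact h this
    rw [this]; simp

lemma gs_holo_smooth {F : Cm n → ℂ} {V : Set (Cm n)} (hV : IsOpen V) (hF : DifferentiableOn ℂ F V)
    {z : Cm n} (hz : z ∈ V) : ContDiffAt ℝ ∞ F z := by
  rw [contDiffAt_infty]
  intro k
  exact ((P282.L2.Sheets.contDiffOn_real_of_holo hV hF k) z hz).contDiffAt (hV.mem_nhds hz)

omit [IsManifold 𝓘(ℂ, Cm n) ω X] [T2Space X] in
lemma gsG_smooth {j : Fin C.N} {F : Cm n → ℂ} (hF : DifferentiableOn ℂ F (C.V j)) :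
    ∀ z ∈ (C.e j).target, ContDiffAt ℝ ∞ (gsG C j F) z := by
  intro z hz
  by_cases hzV : z ∈ C.V j
  · have h1 : ContDiffAt ℝ ∞ (fun z => (C.χ j ((C.e j).symm z) : ℂ)) z := by
      have := C.smooth j (C.e j) ((C.e j).symm z) (At.of_target (C.mem j) hz)
      rw [(C.e j).right_inv hz] at this
      exact Complex.ofRealCLM.contDiff.contDiffAt.comp z this
    refine (h1.mul (gs_holo_smooth (gs_isOpen_V C j) hF hzV)).congr_of_eventuallyEq ?_
    filter_upwards [(C.e j).open_target.mem_nhds hz] with w hw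
    rw [gsG_of_mem C hw]
  · have h1 : z ∉ C.K j := fun h => hzV (C.K_sub j h)
    refine (contDiffAt_const (c := (0 : ℂ))).congr_of_eventuallyEq ?_
    filter_upwards [(C.compactK j).isClosed.isOpen_compl.mem_nhds h1] with w hw
    exact indicator_of_notMem hw _

variable (m) in
/-- the section `χ_j F_j` -/
def gsT (j : Fin C.N) (F : Cm n → ℂ) (hF : DifferentiableOn ℂ F (C.V j)) : SSec n m X :=
  locSec m (C.e j) (C.mem j) (gsG C j F) (gsG_smooth C hF) (C.K j) (C.compactK j)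
    ((C.K_sub j).trans (gs_V_sub C j)) fun _ hz => indicator_of_notMem hz _

variable (m) in
/-- the glued section -/
def gsS (F : Fin C.N → Cm n → ℂ) (hF : ∀ j, DifferentiableOn ℂ (F j) (C.V j)) : SSec n m X :=
  SSec.sum Finset.univ fun j => gsT C m j (F j) (hF j)

variable {C} {F : Fin C.N → Cm n → ℂ} (hF : ∀ j, DifferentiableOn ℂ (F j) (C.V j))
  {σ : SSec n m X}

/-- the coefficient of `F j` in the chart `e` -/
def gsH (C : PCov n X) (m : ℕ) (F : Fin C.N → Cm n → ℂ) (e : Chart n X) (j : Fin C.N)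
    (z : Cm n) : ℂ :=
  F j (C.e j (e.symm z)) * (jacM e (C.e j) (e.symm z)).det ^ m

lemma gsT_of_mem {e : Chart n X} {x : X} (h : At e x) {j : Fin C.N} (hx : x ∈ (C.e j).source) :
    (gsT C m j (F j) (hF j)).coeff e (e x) = (C.χ j x : ℂ) * gsH C m F e j (e x) := by
  show locCoeff m (C.e j) (gsG C j (F j)) e (e x) = _
  rw [locCoeff_of_mem h hx, gsG_of_mem C ((C.e j).map_source hx), (C.e j).left_inv hx, gsH,
    h.left_inv, mul_assoc]

lemma gsT_eventually {e : Chart n X} {x : X} (h : At e x) {j : Fin C.N}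
    (hx : x ∈ (C.e j).source) : (gsT C m j (F j) (hF j)).coeff e =ᶠ[𝓝 (e x)]
      fun z => (C.χ j (e.symm z) : ℂ) * gsH C m F e j z := by
  filter_upwards [h.nhds_at ⟨C.mem j, hx⟩] with z hz
  have := gsT_of_mem (m := m) hF hz.2.1 hz.2.2.2
  rwa [e.right_inv hz.1] at this

lemma gsT_zero {e : Chart n X} {x : X} (h : At e x) {j : Fin C.N} (hx : x ∉ gsQ C j) :
    (gsT C m j (F j) (hF j)).coeff e =ᶠ[𝓝 (e x)] fun _ => 0 :=
  locCoeff_eventually_zero (C.compactK j) ((C.K_sub j).trans (gs_V_sub C j))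
    (fun _ hz => indicator_of_notMem hz _) h hx

omit [IsManifold 𝓘(ℂ, Cm n) ω X] in
lemma gs_chi_zero' {e : Chart n X} {x : X} (h : At e x) {j : Fin C.N} (hx : x ∉ gsQ C j) :
    (fun z => (C.χ j (e.symm z) : ℂ)) =ᶠ[𝓝 (e x)] fun _ => 0 := by
  have h1 : ∀ᶠ z in 𝓝 (e x), e.symm z ∈ (gsQ C j)ᶜ := by
    apply (e.continuousAt_symm h.mem_target).eventually_mem
    rw [h.left_inv]
    exact (gs_isClosed_Q C j).isOpen_compl.mem_nhds hx
  filter_upwards [h1] with z hz
  rw [gs_chi_zero C hz]; simp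

include hF in
omit [T2Space X] in
lemma gsH_holo {e : Chart n X} {x : X} (h : At e x) {j : Fin C.N} (hx : x ∈ gsD C j) :
    DifferentiableAt ℂ (gsH C m F e j) (e x) := by
  have h0 : At (C.e j) x := ⟨C.mem j, hx.1⟩
  have h1 : DifferentiableAt ℂ (fun z => C.e j (e.symm z)) (e x) := transition_differentiableAt h h0
  have h2 : DifferentiableAt ℂ (F j) (C.e j (e.symm (e x))) := by
    rw [h.left_inv]
    exact (hF j).differentiableAt ((gs_isOpen_V C j).mem_nhds hx.2)
  exact (h2.comp (e x) h1).mul (((jacM_det_holo h h0).differentiableAt (by simp)).pow m)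

/-- the pointwise squared norm of `F j - σ` -/
def gsN (C : PCov n X) (φ : Chart n X → Cm n → ℝ) (F : Fin C.N → Cm n → ℂ) (σ : SSec n m X)
    (j : Fin C.N) (x : X) : ℝ≥0∞ :=
  ENNReal.ofReal (‖F j (C.e j x) - σ.coeff (C.e j) (C.e j x)‖ ^ 2 *
    Real.exp (-(m : ℝ) * φ (C.e j) (C.e j x)))

omit [T2Space X] in
lemma gsN_eq (hφ : IsCanonicalMetric φ) {e : Chart n X} {x : X} (h : At e x) {j : Fin C.N}
    (hx : x ∈ (C.e j).source) :
    ENNReal.ofReal (‖gsH C m F e j (e x) - σ.coeff e (e x)‖ ^ 2 *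
      Real.exp (-(m : ℝ) * φ e (e x))) = gsN C φ F σ j x := by
  have h0 : At (C.e j) x := ⟨C.mem j, hx⟩
  unfold gsN gsH
  congr 1
  have hd : 0 < ‖(jacM e (C.e j) x).det‖ ^ 2 :=
    pow_pos (norm_pos_iff.2 (jacM_det_ne_zero h h0)) 2
  have h1 : Real.exp (-(m : ℝ) * φ e (e x)) =
      Real.exp (-(m : ℝ) * φ (C.e j) (C.e j x)) * ((‖(jacM e (C.e j) x).det‖ ^ 2) ^ m)⁻¹ := by
    rw [hφ.change e (C.e j) x h h0, mul_add, Real.exp_add]
    congr 1
    rw [neg_mul, Real.exp_neg, ← Real.log_pow, Real.exp_log (pow_pos hd m)]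
  have hd' : ‖(jacM e (C.e j) x).det‖ ^ (2 * m) ≠ 0 :=
    pow_ne_zero _ (norm_ne_zero_iff.2 (jacM_det_ne_zero h h0))
  rw [h1, σ.change e (C.e j) x h h0, h.left_inv, ← sub_mul, norm_mul, norm_pow, mul_pow, ← pow_mul,
    ← pow_mul, Nat.mul_comm m 2]
  field_simp

open Classical in
/-- first pointwise estimate -/
lemma gs_point (hφ : IsCanonicalMetric φ) {i : Fin C.N} {z : Cm n} (hz : z ∈ C.V i) :
    ENNReal.ofReal (‖(gsS C m F hF).coeff (C.e i) z - σ.coeff (C.e i) z‖ ^ 2 *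
      Real.exp (-(m : ℝ) * φ (C.e i) z)) ≤ ENNReal.ofReal (C.N * 1 ^ 2) *
      ∑ j, (gsD C j).indicator (gsN C φ F σ j) ((C.e i).symm z) := by
  have hzt := gs_V_sub C i hz
  have h : At (C.e i) ((C.e i).symm z) := At.of_target (C.mem i) hzt
  set x := (C.e i).symm z with hx
  have hxz : C.e i x = z := (C.e i).right_inv hzt
  have h1 : (gsS C m F hF).coeff (C.e i) z - σ.coeff (C.e i) z =
      ∑ j, (C.χ j x : ℂ) * (gsH C m F (C.e i) j z - σ.coeff (C.e i) z) := by
    have h2 : (gsS C m F hF).coeff (C.e i) z = ∑ j, (C.χ j x : ℂ) * gsH C m F (C.e i) j z := by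
      show ∑ j, (gsT C m j (F j) (hF j)).coeff (C.e i) z = _
      refine Finset.sum_congr rfl fun j _ => ?_
      by_cases hj : x ∈ (C.e j).source
      · have := gsT_of_mem (m := m) hF h hj
        rwa [hxz] at this
      · have hq : x ∉ gsQ C j := fun h' => hj (gs_Q_sub C j h').1
        have := (gsT_zero (m := m) hF h hq).self_of_nhds
        rw [hxz] at this
        rw [this, gs_chi_zero C hq]; simp
    have h3 : ∑ j, (C.χ j x : ℂ) = 1 := by
      rw [← Complex.ofReal_sum, C.sum_one x, Complex.ofReal_one]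
    simp only [mul_sub, Finset.sum_sub_distrib]
    rw [← Finset.sum_mul, h3, one_mul, h2]
  rw [h1]
  refine (gs_sum_sq (fun j => (C.χ j x : ℂ)) _ zero_le_one (Real.exp_pos _).le
    (fun j => x ∈ gsD C j) (fun j => ?_) fun j hj => ?_).trans (le_of_eq ?_)
  · rw [Complex.norm_real, Real.norm_eq_abs, abs_of_nonneg (C.nonneg j x)]
    exact gs_chi_le C j x
  · rw [gs_chi_zero C fun h' => hj (gs_Q_sub C j h')]; simp
  · congr 1
    refine Finset.sum_congr rfl fun j _ => ?_
    by_cases hj : x ∈ gsD C j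
    · rw [if_pos hj, indicator_of_mem hj, ← gsN_eq hφ h hj.1, hxz]
    · rw [if_neg hj, indicator_of_notMem hj]

/-- the `∂̄` derivatives of the glued section -/
lemma gs_dzb {i : Fin C.N} {z : Cm n} (hz : z ∈ C.V i) (k : Fin n) :
    dzb k ((gsS C m F hF).coeff (C.e i)) z =
      ∑ j, dzb k (fun w => (C.χ j ((C.e i).symm w) : ℂ)) z *
        (gsH C m F (C.e i) j z - σ.coeff (C.e i) z) := by
  have hzt := gs_V_sub C i hz
  have h : At (C.e i) ((C.e i).symm z) := At.of_target (C.mem i) hzt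
  set x := (C.e i).symm z with hx
  have hxz : C.e i x = z := (C.e i).right_inv hzt
  have hχd : ∀ j, DifferentiableAt ℝ (fun w => (C.χ j ((C.e i).symm w) : ℂ)) z := by
    intro j
    have := C.smooth j (C.e i) x h
    rw [hxz] at this
    exact (Complex.ofRealCLM.contDiff.contDiffAt.comp z this).differentiableAt (by simp)
  have h1 : dzb k ((gsS C m F hF).coeff (C.e i)) z =
      ∑ j, dzb k ((gsT C m j (F j) (hF j)).coeff (C.e i)) z := by
    refine dzb_sum (F := fun j => (gsT C m j (F j) (hF j)).coeff (C.e i)) Finset.univ fun j _ => ?_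
    have := (gsT C m j (F j) (hF j)).smooth (C.e i) x h
    rw [hxz] at this
    exact this.differentiableAt (by simp)
  have h2 : ∀ j, dzb k ((gsT C m j (F j) (hF j)).coeff (C.e i)) z =
      dzb k (fun w => (C.χ j ((C.e i).symm w) : ℂ)) z * gsH C m F (C.e i) j z := by
    intro j
    by_cases hq : x ∈ gsQ C j
    · have hD := gs_Q_sub C j hq
      have e1 := gsT_eventually (m := m) hF h hD.1
      rw [hxz] at e1
      rw [dzb_congr e1]
      have hH := gsH_holo (m := m) hF h hD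
      rw [hxz] at hH
      rw [dzb_mul (hχd j) (hH.restrictScalars ℝ), dzb_of_holo hH]
      ring
    · have e1 := gsT_zero (m := m) hF h hq
      have e2 := gs_chi_zero' (C := C) h hq
      rw [hxz] at e1 e2
      rw [dzb_congr e1, dzb_congr e2, dzb_const, zero_mul]
  have h3 : ∑ j, dzb k (fun w => (C.χ j ((C.e i).symm w) : ℂ)) z = 0 := by
    rw [← dzb_sum (F := fun j w => (C.χ j ((C.e i).symm w) : ℂ)) Finset.univ fun j _ => hχd j]
    have : (fun w => ∑ j, (C.χ j ((C.e i).symm w) : ℂ)) = fun _ => (1 : ℂ) := by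
      funext w
      rw [← Complex.ofReal_sum, C.sum_one, Complex.ofReal_one]
    rw [this, dzb_const]
  simp only [mul_sub, Finset.sum_sub_distrib]
  rw [← Finset.sum_mul, h3, zero_mul, sub_zero, h1]
  exact Finset.sum_congr rfl fun j _ => h2 j

open Classical in
/-- second pointwise estimate -/
lemma gs_point' (hφ : IsCanonicalMetric φ) {c : ℝ} (hc : 0 ≤ c)
    (hχ : ∀ i j k, ∀ z ∈ closedBall (C.c i) (C.r i),
      ‖dzb k (fun w => (C.χ j ((C.e i).symm w) : ℂ)) z‖ ≤ c) {i : Fin C.N} {z : Cm n}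
    (hz : z ∈ C.V i) :
    ENNReal.ofReal ((∑ k, ‖dzb k ((gsS C m F hF).coeff (C.e i)) z‖ ^ 2) *
      Real.exp (-(m : ℝ) * φ (C.e i) z)) ≤ n * (ENNReal.ofReal (C.N * c ^ 2) *
      ∑ j, (gsD C j).indicator (gsN C φ F σ j) ((C.e i).symm z)) := by
  have hzt := gs_V_sub C i hz
  have h : At (C.e i) ((C.e i).symm z) := At.of_target (C.mem i) hzt
  set x := (C.e i).symm z with hx
  have hxz : C.e i x = z := (C.e i).right_inv hzt
  rw [Finset.sum_mul, ENNReal.ofReal_sum_of_nonneg fun k _ => by positivity]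
  have h5 : ∀ k : Fin n, ENNReal.ofReal (‖dzb k ((gsS C m F hF).coeff (C.e i)) z‖ ^ 2 *
      Real.exp (-(m : ℝ) * φ (C.e i) z)) ≤ ENNReal.ofReal (C.N * c ^ 2) *
      ∑ j, (gsD C j).indicator (gsN C φ F σ j) x := by
    intro k
    rw [gs_dzb (σ := σ) hF hz k]
    refine (gs_sum_sq _ _ hc (Real.exp_pos _).le
      (fun j => x ∈ gsD C j) (fun j => hχ i j k z (ball_subset_closedBall hz)) fun j hj => ?_).trans
      (le_of_eq ?_)
    · have hq : x ∉ gsQ C j := fun h' => hj (gs_Q_sub C j h')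
      have := gs_chi_zero' (C := C) h hq
      rw [hxz] at this
      rw [dzb_congr this, dzb_const]
    · congr 1
      refine Finset.sum_congr rfl fun j _ => ?_
      by_cases hj : x ∈ gsD C j
      · rw [if_pos hj, indicator_of_mem hj, ← gsN_eq hφ h hj.1, hxz]
      · rw [if_neg hj, indicator_of_notMem hj]
  calc _ ≤ ∑ k : Fin n, ENNReal.ofReal (C.N * c ^ 2) *
      ∑ j, (gsD C j).indicator (gsN C φ F σ j) x := Finset.sum_le_sum fun k _ => h5 k
    _ = _ := by
      rw [Finset.sum_const, Finset.card_univ, Fintype.card_fin, nsmul_eq_mul]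


include hF in
omit [T2Space X] in
lemma gsN_aemeas (hφ : IsCanonicalMetric φ) (i j : Fin C.N) :
    AEMeasurable (fun z => (gsD C j).indicator (gsN C φ F σ j) ((C.e i).symm z))
      (volume.restrict (C.V i)) := by
  set W : Set (Cm n) := C.V i ∩ ((C.e i).target ∩ (C.e i).symm ⁻¹' (gsD C j)) with hW
  have hDo : IsOpen (gsD C j) := (C.e j).isOpen_inter_preimage (gs_isOpen_V C j)
  have hWo : IsOpen W := (gs_isOpen_V C i).inter ((C.e i).isOpen_inter_preimage_symm hDo)
  have hc : ContinuousOn (fun z => gsN C φ F σ j ((C.e i).symm z)) W := by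
    intro z hz
    refine ContinuousAt.continuousWithinAt ?_
    have h : At (C.e i) ((C.e i).symm z) := At.of_target (C.mem i) hz.2.1
    have h0 : At (C.e j) ((C.e i).symm z) := ⟨C.mem j, hz.2.2.1⟩
    have h1 : ContinuousAt (fun z => C.e j ((C.e i).symm z)) z := by
      have := (transition_differentiableAt h h0).continuousAt
      rwa [(C.e i).right_inv hz.2.1] at this
    have h2 : ContinuousAt (F j) (C.e j ((C.e i).symm z)) :=
      ((hF j).differentiableAt ((gs_isOpen_V C j).mem_nhds hz.2.2.2)).continuousAt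
    have h3 : ContinuousAt (σ.coeff (C.e j)) (C.e j ((C.e i).symm z)) :=
      (σ.smooth (C.e j) _ h0).continuousAt
    have h4 : ContinuousAt (φ (C.e j)) (C.e j ((C.e i).symm z)) :=
      (hφ.smooth (C.e j) _ h0).continuousAt
    have h5 : ContinuousAt (fun w => ENNReal.ofReal (‖F j w - σ.coeff (C.e j) w‖ ^ 2 *
        Real.exp (-(m : ℝ) * φ (C.e j) w))) (C.e j ((C.e i).symm z)) := by
      refine ENNReal.continuous_ofReal.continuousAt.comp ?_
      exact ((h2.sub h3).norm.pow 2).mul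
        (Real.continuous_exp.continuousAt.comp (continuousAt_const.mul h4))
    exact ContinuousAt.comp (f := fun z => C.e j ((C.e i).symm z)) h5 h1
  have h1 : AEMeasurable (W.indicator fun z => gsN C φ F σ j ((C.e i).symm z))
      (volume.restrict (C.V i)) := by
    rw [aemeasurable_indicator_iff hWo.measurableSet,
      Measure.restrict_restrict hWo.measurableSet]
    have : W ∩ C.V i = W := inter_eq_left.2 inter_subset_left
    rw [this]
    exact hc.aemeasurable hWo.measurableSet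
  refine h1.congr ?_
  filter_upwards [ae_restrict_mem (gs_isOpen_V C i).measurableSet] with z hz
  by_cases hzW : z ∈ W
  · rw [indicator_of_mem hzW]
    exact (indicator_of_mem (show (C.e i).symm z ∈ gsD C j from hzW.2.2) _).symm
  · rw [indicator_of_notMem hzW, indicator_of_notMem]
    exact fun h => hzW ⟨hz, gs_V_sub C i hz, h⟩

omit [T2Space X] [IsManifold 𝓘(ℂ, Cm n) ω X] in
/-- bound of the derivatives of the cut-off functions -/
lemma gs_chi_bound (C : PCov n X) : ∃ c : ℝ, 0 ≤ c ∧ ∀ i j k, ∀ z ∈ closedBall (C.c i) (C.r i),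
    ‖dzb k (fun w => (C.χ j ((C.e i).symm w) : ℂ)) z‖ ≤ c := by
  have h1 : ∀ i j : Fin C.N, ∀ k : Fin n, ∃ c : ℝ, 0 ≤ c ∧ ∀ z ∈ closedBall (C.c i) (C.r i),
      ‖dzb k (fun w => (C.χ j ((C.e i).symm w) : ℂ)) z‖ ≤ c := by
    intro i j k
    have hs : ContDiffOn ℝ (1 : ℕ) (fun w => (C.χ j ((C.e i).symm w) : ℂ)) (C.e i).target := by
      intro z hz
      have := C.smooth j (C.e i) ((C.e i).symm z) (At.of_target (C.mem i) hz)
      rw [(C.e i).right_inv hz] at this
      exact ((Complex.ofRealCLM.contDiff.contDiffAt.comp z this).of_le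
        (by norm_cast)).contDiffWithinAt
    have hc : ContinuousOn (dzb k (fun w => (C.χ j ((C.e i).symm w) : ℂ))) (C.e i).target :=
      (P282.L2.contDiffOn_dzb (m := 0) (j := k) (C.e i).open_target
        (by simpa using hs)).continuousOn
    obtain ⟨c, hc'⟩ := (isCompact_closedBall (C.c i) (C.r i)).exists_bound_of_continuousOn
      (hc.mono (C.sub i))
    exact ⟨max c 0, le_max_right _ _, fun z hz => (hc' z hz).trans (le_max_left _ _)⟩
  choose c hc0 hc using h1
  refine ⟨∑ i, ∑ j, ∑ k, c i j k, Finset.sum_nonneg fun i _ => Finset.sum_nonneg fun j _ =>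
    Finset.sum_nonneg fun k _ => hc0 i j k, fun i j k z hz => (hc i j k z hz).trans ?_⟩
  calc c i j k ≤ ∑ k, c i j k := Finset.single_le_sum (f := fun k => c i j k)
        (fun k _ => hc0 i j k) (Finset.mem_univ k)
    _ ≤ ∑ j, ∑ k, c i j k := Finset.single_le_sum (f := fun j => ∑ k, c i j k)
        (fun j _ => Finset.sum_nonneg fun k _ => hc0 i j k) (Finset.mem_univ j)
    _ ≤ _ := Finset.single_le_sum (f := fun i => ∑ j, ∑ k, c i j k)
        (fun i _ => Finset.sum_nonneg fun j _ => Finset.sum_nonneg fun k _ => hc0 i j k)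
        (Finset.mem_univ i)

omit [T2Space X] [IsManifold 𝓘(ℂ, Cm n) ω X] in
lemma gsN_lintegral (j : Fin C.N) : ∫⁻ w in C.V j, gsN C φ F σ j ((C.e j).symm w) =
    nrm n m (φ (C.e j)) (C.V j) (fun z => F j z - σ.coeff (C.e j) z) := by
  unfold nrm
  refine setLIntegral_congr_fun (gs_isOpen_V C j).measurableSet fun w hw => ?_
  have := (C.e j).right_inv (gs_V_sub C j hw)
  simp only [gsN, this]

end

/-- **The averaging step.** -/
theorem step {n : ℕ} {X : Type} [TopologicalSpace X] [T2Space X] [ChartedSpace (Cm n) X]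
    [IsManifold 𝓘(ℂ, Cm n) ω X] {φ : Chart n X → Cm n → ℝ} {lam : ℝ} (C : PCov n X)
    (hφ : IsCanonicalMetric φ) (hP : C.Pos φ lam) :
    ∃ B : ℝ, 0 ≤ B ∧ ∀ m : ℕ, 1 ≤ m → ∀ σ : SSec n m X, ∀ A : ℝ, 0 ≤ A →
      (∀ i, dnrm n m (φ (C.e i)) (C.V i) (σ.coeff (C.e i)) ≤ ENNReal.ofReal A) →
      ∃ (F : Fin C.N → Cm n → ℂ) (τ : SSec n m X), (∀ i, DifferentiableOn ℂ (F i) (C.V i)) ∧
        (∀ i, nrm n m (φ (C.e i)) (C.V i) (fun z => F i z - σ.coeff (C.e i) z) ≤
          ENNReal.ofReal (B / m * A)) ∧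
        (∀ i, nrm n m (φ (C.e i)) (C.V i) (fun z => τ.coeff (C.e i) z - σ.coeff (C.e i) z) ≤
          ENNReal.ofReal (B / m * A)) ∧
        ∀ i, dnrm n m (φ (C.e i)) (C.V i) (τ.coeff (C.e i)) ≤ ENNReal.ofReal (B / m * A) := by
  obtain ⟨K, hKt, -, hK⟩ := cmp (V := C.V) C.mem (gs_isOpen_V C)
    (fun i => by
      rw [PCov.V, closure_ball _ (C.pos i).ne']
      exact isCompact_closedBall _ _)
    (fun i => by
      rw [PCov.V, closure_ball _ (C.pos i).ne']
      exact C.sub i)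
  obtain ⟨c, hc, hχ⟩ := gs_chi_bound C
  have hlam := hP.1
  set Kr := K.toReal with hKr
  have hKr0 : 0 ≤ Kr := ENNReal.toReal_nonneg
  have hKK : K = ENNReal.ofReal Kr := (ENNReal.ofReal_toReal hKt).symm
  set B : ℝ := (2 / lam) * (1 + (C.N * (1 : ℝ) ^ 2) * (C.N * Kr) +
    n * ((C.N * c ^ 2) * (C.N * Kr))) with hB
  refine ⟨B, by positivity, fun m hm σ A hA h => ?_⟩
  have hm0 : (0 : ℝ) < m := by exact_mod_cast (by omega : 0 < m)
  have hsm : ∀ i, ∀ z ∈ closedBall (C.c i) (C.r i), ContDiffAt ℝ 2 (σ.coeff (C.e i)) z := by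
    intro i z hz
    have h1 := σ.smooth (C.e i) ((C.e i).symm z) (At.of_target (C.mem i) (C.sub i hz))
    rw [(C.e i).right_inv (C.sub i hz)] at h1
    exact h1.of_le (by norm_cast)
  have hφ2 : ∀ i, ∀ z ∈ closedBall (C.c i) (C.r i), ContDiffAt ℝ 2 (φ (C.e i)) z := by
    intro i z hz
    have h1 := hφ.smooth (C.e i) ((C.e i).symm z) (At.of_target (C.mem i) (C.sub i hz))
    rw [(C.e i).right_inv (C.sub i hz)] at h1
    exact h1.of_le (by norm_cast)
  have hloc := fun i => loc_nrm (C.pos i) (hφ2 i) hlam (hP.2 i) hm (hsm i) hA (h i)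
  choose F hF hFn using hloc
  set δ : ℝ := 2 / (m * lam) * A with hδ
  have hδ0 : 0 ≤ δ := by positivity
  have hsum : ∀ i, ∫⁻ z in C.V i, ∑ j, (gsD C j).indicator (gsN C φ F σ j) ((C.e i).symm z) ≤
      ENNReal.ofReal (C.N * Kr * δ) := by
    intro i
    rw [lintegral_finsetSum' _ fun j _ => gsN_aemeas hF hφ i j]
    calc ∑ j, ∫⁻ z in C.V i, (gsD C j).indicator (gsN C φ F σ j) ((C.e i).symm z)
        ≤ ∑ j : Fin C.N, K * ENNReal.ofReal δ := by
          refine Finset.sum_le_sum fun j _ => (hK i j (gsN C φ F σ j)).trans ?_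
          rw [gsN_lintegral j]
          gcongr
          exact hFn j
      _ = ENNReal.ofReal (C.N * Kr * δ) := by
          rw [Finset.sum_const, Finset.card_univ, Fintype.card_fin, nsmul_eq_mul, hKK,
            ← ENNReal.ofReal_mul hKr0, ← ENNReal.ofReal_natCast,
            ← ENNReal.ofReal_mul (by positivity), mul_assoc]
  have hBm : B / m * A = δ + (C.N * (1 : ℝ) ^ 2) * (C.N * Kr * δ) +
      n * ((C.N * c ^ 2) * (C.N * Kr * δ)) := by
    rw [hB, hδ]
    field_simp
  refine ⟨F, gsS C m F hF, hF, fun i => (hFn i).trans (ENNReal.ofReal_le_ofReal ?_), fun i => ?_,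
    fun i => ?_⟩
  · rw [hBm]
    have : 0 ≤ (C.N * (1 : ℝ) ^ 2) * (C.N * Kr * δ) := by positivity
    have : 0 ≤ (n : ℝ) * ((C.N * c ^ 2) * (C.N * Kr * δ)) := by positivity
    linarith
  · set g : Cm n → ℂ := fun z => (gsS C m F hF).coeff (C.e i) z - σ.coeff (C.e i) z with hg
    calc nrm n m (φ (C.e i)) (C.V i) g ≤ ∫⁻ z in C.V i, ENNReal.ofReal (C.N * 1 ^ 2) *
          ∑ j, (gsD C j).indicator (gsN C φ F σ j) ((C.e i).symm z) :=
          setLIntegral_mono' (gs_isOpen_V C i).measurableSet fun z hz => gs_point hF hφ hz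
      _ = ENNReal.ofReal (C.N * 1 ^ 2) * ∫⁻ z in C.V i,
          ∑ j, (gsD C j).indicator (gsN C φ F σ j) ((C.e i).symm z) :=
          lintegral_const_mul' _ _ ENNReal.ofReal_ne_top
      _ ≤ ENNReal.ofReal (C.N * 1 ^ 2) * ENNReal.ofReal (C.N * Kr * δ) := by
          gcongr
          exact hsum i
      _ ≤ ENNReal.ofReal (B / m * A) := by
          rw [← ENNReal.ofReal_mul (by positivity)]
          apply ENNReal.ofReal_le_ofReal
          rw [hBm]
          have : 0 ≤ (n : ℝ) * ((C.N * c ^ 2) * (C.N * Kr * δ)) := by positivity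
          linarith
  · calc dnrm n m (φ (C.e i)) (C.V i) ((gsS C m F hF).coeff (C.e i))
        ≤ ∫⁻ z in C.V i, n * (ENNReal.ofReal (C.N * c ^ 2) *
          ∑ j, (gsD C j).indicator (gsN C φ F σ j) ((C.e i).symm z)) :=
          setLIntegral_mono' (gs_isOpen_V C i).measurableSet fun z hz =>
            gs_point' hF hφ hc hχ hz
      _ = n * (ENNReal.ofReal (C.N * c ^ 2) * ∫⁻ z in C.V i,
          ∑ j, (gsD C j).indicator (gsN C φ F σ j) ((C.e i).symm z)) := by
          rw [lintegral_const_mul' _ _ (ENNReal.natCast_ne_top n),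
            lintegral_const_mul' _ _ ENNReal.ofReal_ne_top]
      _ ≤ n * (ENNReal.ofReal (C.N * c ^ 2) * ENNReal.ofReal (C.N * Kr * δ)) := by
          gcongr
          exact hsum i
      _ ≤ ENNReal.ofReal (B / m * A) := by
          rw [← ENNReal.ofReal_mul (by positivity), ← ENNReal.ofReal_natCast,
            ← ENNReal.ofReal_mul (by positivity)]
          apply ENNReal.ofReal_le_ofReal
          rw [hBm]
          have : 0 ≤ (C.N * (1 : ℝ) ^ 2) * (C.N * Kr * δ) := by positivity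
          linarith

end Vale.Agent.P272.KOD
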