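import Vale.Agent.P272.KOD.KDefs
import Vale.Agent.P272.KOD.Tools
import Vale.Agent.P282.Bd3.B1

/-! Stage 4: glueing holomorphic functions on the polydiscs of a cover by a partition of unity. -/

open scoped Manifold ContDiff ComplexOrder Topology ENNReal ComplexConjugate
open MeasureTheory Filter

set_option linter.all false

noncomputable section

namespace Vale.Agent.P272.KOD

open Vale.Agent.P272.K

variable {n m : ℕ} {X : Type*} [TopologicalSpace X] [ChartedSpace (Cm n) X]

lemma contDiffAt_of_holo {V : Set (Cm n)} (hV : IsOpen V) {F : Cm n → ℂ}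
    (hF : DifferentiableOn ℂ F V) {z : Cm n} (hz : z ∈ V) : ContDiffAt ℝ ∞ F z := by
  rw [contDiffAt_infty]
  intro k
  exact (Vale.Agent.P282.L2.Sheets.contDiffOn_real_of_holo hV hF k).contDiffAt (hV.mem_nhds hz)

/-- the set of the points where the function number `j` may be nonzero -/
def PCov.D (C : PCov n X) (j : Fin C.N) : Set X := {x | x ∈ (C.e j).source ∧ C.e j x ∈ C.K j}

lemma PCov.D_eq (C : PCov n X) (j : Fin C.N) : C.D j = (C.e j).symm '' (C.K j) := by
  ext x
  constructor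
  · rintro ⟨h1, h2⟩
    exact ⟨_, h2, (C.e j).left_inv h1⟩
  · rintro ⟨w, hw, rfl⟩
    have ht : w ∈ (C.e j).target := C.sub j (Metric.ball_subset_closedBall (C.K_sub j hw))
    exact ⟨(C.e j).map_target ht, by rw [(C.e j).right_inv ht]; exact hw⟩

lemma PCov.closed_D [T2Space X] (C : PCov n X) (j : Fin C.N) : IsClosed (C.D j) := by
  rw [C.D_eq]
  have hs : C.K j ⊆ (C.e j).target := fun w hw =>
    C.sub j (Metric.ball_subset_closedBall (C.K_sub j hw))
  exact ((C.compactK j).image_of_continuousOn ((C.e j).continuousOn_symm.mono hs)).isClosed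

lemma PCov.at_D {C : PCov n X} {j : Fin C.N} {x : X} (h : x ∈ C.D j) : At (C.e j) x :=
  ⟨C.mem j, h.1⟩

lemma PCov.V_D {C : PCov n X} {j : Fin C.N} {x : X} (h : x ∈ C.D j) : C.e j x ∈ C.V j :=
  C.K_sub j h.2

lemma PCov.χ_zero (C : PCov n X) {j : Fin C.N} {x : X} (h : x ∉ C.D j) : C.χ j x = 0 := by
  by_contra h0
  exact h (C.supp j x h0)

lemma PCov.isOpen_V (C : PCov n X) (i : Fin C.N) : IsOpen (C.V i) := Metric.isOpen_ball

lemma PCov.V_target {C : PCov n X} {i : Fin C.N} {z : Cm n} (hz : z ∈ C.V i) :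
    z ∈ (C.e i).target := C.sub i (Metric.ball_subset_closedBall hz)

lemma PCov.at_V {C : PCov n X} {i : Fin C.N} {z : Cm n} (hz : z ∈ C.V i) :
    At (C.e i) ((C.e i).symm z) := At.of_target (C.mem i) (PCov.V_target hz)

lemma PCov.χ_ev_zero [T2Space X] (C : PCov n X) {j : Fin C.N} {e : Chart n X} {x : X} (hx : At e x)
    (h : x ∉ C.D j) : ∀ᶠ z in 𝓝 (e x), C.χ j (e.symm z) = 0 := by
  have h1 : ∀ᶠ z in 𝓝 (e x), e.symm z ∈ (C.D j)ᶜ := by
    refine (e.continuousAt_symm hx.mem_target).eventually ?_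
    rw [hx.left_inv]
    exact (C.closed_D j).isOpen_compl.mem_nhds h
  filter_upwards [h1] with z hz
  exact C.χ_zero hz

/-- the coefficients of the glued section -/
def glueCoeff (m : ℕ) (C : PCov n X) (F : Fin C.N → Cm n → ℂ) (e : Chart n X) (z : Cm n) : ℂ :=
  ∑ j, (C.χ j (e.symm z) : ℂ) *
    (F j (C.e j (e.symm z)) * (jacM e (C.e j) (e.symm z)).det ^ m)

section smooth
variable [IsManifold 𝓘(ℂ, Cm n) ω X]

lemma term_smooth {C : PCov n X} {F : Fin C.N → Cm n → ℂ}
    (hF : ∀ i, DifferentiableOn ℂ (F i) (C.V i)) {j : Fin C.N} {e : Chart n X} {x : X}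
    (hx : At e x) (h : x ∈ C.D j) :
    ContDiffAt ℝ ∞ (fun z => F j (C.e j (e.symm z)) * (jacM e (C.e j) (e.symm z)).det ^ m)
      (e x) := by
  have hj : At (C.e j) x := PCov.at_D h
  have h1 : ContDiffAt ℝ ∞ (F j) (C.e j (e.symm (e x))) := by
    rw [hx.left_inv]
    exact contDiffAt_of_holo (C.isOpen_V j) (hF j) (PCov.V_D h)
  exact (h1.comp (e x) (transition_smooth hx hj)).mul ((jacM_det_smooth hx hj).pow m)

lemma term_holo {C : PCov n X} {F : Fin C.N → Cm n → ℂ}
    (hF : ∀ i, DifferentiableOn ℂ (F i) (C.V i)) {j : Fin C.N} {e : Chart n X} {x : X}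
    (hx : At e x) (h : x ∈ C.D j) :
    DifferentiableAt ℂ (fun z => F j (C.e j (e.symm z)) * (jacM e (C.e j) (e.symm z)).det ^ m)
      (e x) := by
  have hj : At (C.e j) x := PCov.at_D h
  have h1 : DifferentiableAt ℂ (F j) (C.e j (e.symm (e x))) := by
    rw [hx.left_inv]
    exact (hF j).differentiableAt ((C.isOpen_V j).mem_nhds (PCov.V_D h))
  exact (DifferentiableAt.comp (g := F j) (e x) h1 (transition_differentiableAt hx hj)).mul
    (((jacM_det_holo hx hj).differentiableAt (by simp)).pow m)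

lemma χ_smooth_c (C : PCov n X) (j : Fin C.N) {e : Chart n X} {x : X} (hx : At e x) :
    ContDiffAt ℝ ∞ (fun z => (C.χ j (e.symm z) : ℂ)) (e x) :=
  Complex.ofRealCLM.contDiff.contDiffAt.comp (e x) (C.smooth j e x hx)

variable [T2Space X]

/-- The glued section. -/
def glue (m : ℕ) (C : PCov n X) (F : Fin C.N → Cm n → ℂ)
    (hF : ∀ i, DifferentiableOn ℂ (F i) (C.V i)) : SSec n m X where
  coeff := glueCoeff m C F
  smooth e x hx := by
    unfold glueCoeff
    refine ContDiffAt.sum fun j _ => ?_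
    by_cases h : x ∈ C.D j
    · exact (χ_smooth_c C j hx).mul (term_smooth hF hx h)
    · refine (contDiffAt_const (c := (0 : ℂ))).congr_of_eventuallyEq ?_
      filter_upwards [C.χ_ev_zero hx h] with z hz
      rw [hz]; simp
  change e e' x hx hx' := by
    unfold glueCoeff
    rw [hx.left_inv, hx'.left_inv, Finset.sum_mul]
    refine Finset.sum_congr rfl fun j _ => ?_
    by_cases h : x ∈ C.D j
    · rw [jacM_comp hx hx' (PCov.at_D h), Matrix.det_mul, mul_pow]
      ring
    · rw [C.χ_zero h]; simp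

@[simp] lemma glue_coeff (C : PCov n X) (F : Fin C.N → Cm n → ℂ)
    (hF : ∀ i, DifferentiableOn ℂ (F i) (C.V i)) (e : Chart n X) (z : Cm n) :
    (glue m C F hF).coeff e z = glueCoeff m C F e z := rfl

/-- the difference with a given section -/
lemma glue_sub (C : PCov n X) (F : Fin C.N → Cm n → ℂ) (σ : SSec n m X) {e : Chart n X} {x : X}
    (hx : At e x) : glueCoeff m C F e (e x) - σ.coeff e (e x) =
      ∑ j, (C.χ j x : ℂ) * (F j (C.e j x) * (jacM e (C.e j) x).det ^ m - σ.coeff e (e x)) := by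
  unfold glueCoeff
  rw [hx.left_inv]
  have h1 : (∑ j, (C.χ j x : ℂ)) = 1 := by exact_mod_cast C.sum_one x
  simp only [mul_sub, Finset.sum_sub_distrib, ← Finset.sum_mul, h1, one_mul]

/-- the `∂̄`-derivative of the glued section -/
lemma dzb_glue (C : PCov n X) (F : Fin C.N → Cm n → ℂ)
    (hF : ∀ i, DifferentiableOn ℂ (F i) (C.V i)) (a : ℂ) {e : Chart n X} {x : X}
    (hx : At e x) (l : Fin n) : dzb l (glueCoeff m C F e) (e x) =
      ∑ j, dzb l (fun z => (C.χ j (e.symm z) : ℂ)) (e x) *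
        (F j (C.e j x) * (jacM e (C.e j) x).det ^ m - a) := by
  have hdχ : ∀ j, DifferentiableAt ℝ (fun z => (C.χ j (e.symm z) : ℂ)) (e x) := fun j =>
    (χ_smooth_c C j hx).differentiableAt (by simp)
  have h0 : ∀ j, x ∉ C.D j → dzb l (fun z => (C.χ j (e.symm z) : ℂ)) (e x) = 0 := by
    intro j h
    rw [dzb_congr (g := fun _ => (0 : ℂ)), dzb_const]
    filter_upwards [C.χ_ev_zero hx h] with z hz
    rw [hz]; simp
  have hterm : ∀ j, DifferentiableAt ℝ (fun z => (C.χ j (e.symm z) : ℂ) *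
      (F j (C.e j (e.symm z)) * (jacM e (C.e j) (e.symm z)).det ^ m)) (e x) ∧
      dzb l (fun z => (C.χ j (e.symm z) : ℂ) *
        (F j (C.e j (e.symm z)) * (jacM e (C.e j) (e.symm z)).det ^ m)) (e x) =
      dzb l (fun z => (C.χ j (e.symm z) : ℂ)) (e x) *
        (F j (C.e j x) * (jacM e (C.e j) x).det ^ m) := by
    intro j
    by_cases h : x ∈ C.D j
    · have hd := term_holo (m := m) hF hx h
      have hdR := hd.restrictScalars ℝ
      refine ⟨(hdχ j).mul hdR, ?_⟩
      rw [dzb_mul (hdχ j) hdR, dzb_of_holo hd, hx.left_inv]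
      ring
    · have hev : (fun z => (C.χ j (e.symm z) : ℂ) *
          (F j (C.e j (e.symm z)) * (jacM e (C.e j) (e.symm z)).det ^ m)) =ᶠ[𝓝 (e x)]
          fun _ => (0 : ℂ) := by
        filter_upwards [C.χ_ev_zero hx h] with z hz
        rw [hz]; simp
      refine ⟨(differentiableAt_const (0 : ℂ)).congr_of_eventuallyEq hev, ?_⟩
      rw [dzb_congr hev, dzb_const, h0 j h, zero_mul]
  have h1 : dzb l (glueCoeff m C F e) (e x) = ∑ j, dzb l (fun z => (C.χ j (e.symm z) : ℂ)) (e x) *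
        (F j (C.e j x) * (jacM e (C.e j) x).det ^ m) := by
    unfold glueCoeff
    rw [dzb_sum _ (fun j _ => (hterm j).1)]
    exact Finset.sum_congr rfl fun j _ => (hterm j).2
  have h2 : (∑ j, dzb l (fun z => (C.χ j (e.symm z) : ℂ)) (e x)) = 0 := by
    rw [← dzb_sum Finset.univ (fun j _ => hdχ j)]
    have : (fun z => ∑ j, (C.χ j (e.symm z) : ℂ)) = fun _ => (1 : ℂ) := by
      funext z
      exact_mod_cast C.sum_one (e.symm z)
    rw [this, dzb_const]
  rw [h1]
  simp only [mul_sub, Finset.sum_sub_distrib, ← Finset.sum_mul, h2, zero_mul, sub_zero]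

end smooth

end Vale.Agent.P272.KOD
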