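import Mathlib

/-! Stage 4 (Kodaira embedding), abstract part of the L2 method: the three space argument
in a form without densely defined operators, weak limits or regularity. -/

namespace Vale.Agent.P272.KOD

open scoped InnerProductSpace

variable {H0 H1 D : Type*} [NormedAddCommGroup H0] [InnerProductSpace ℂ H0]
  [NormedAddCommGroup H1] [InnerProductSpace ℂ H1] [AddCommGroup D] [Module ℂ D]

/-- the pair `(w, g)` satisfies `T^* w = g` weakly (tested against `D`) -/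
def WAdj (i : D →ₗ[ℂ] H0) (T : D →ₗ[ℂ] H1) (w : H1) (g : H0) : Prop :=
  ∀ v : D, ⟪w, T v⟫_ℂ = ⟪g, i v⟫_ℂ

theorem WAdj.add {i : D →ₗ[ℂ] H0} {T : D →ₗ[ℂ] H1} {w w' : H1} {g g' : H0}
    (h : WAdj i T w g) (h' : WAdj i T w' g') : WAdj i T (w + w') (g + g') := by
  intro v
  rw [inner_add_left, inner_add_left, h v, h' v]

theorem WAdj.smul {i : D →ₗ[ℂ] H0} {T : D →ₗ[ℂ] H1} {w : H1} {g : H0} (c : ℂ)
    (h : WAdj i T w g) : WAdj i T (c • w) (c • g) := by
  intro v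
  rw [inner_smul_left, inner_smul_left, h v]

theorem WAdj.zero (i : D →ₗ[ℂ] H0) (T : D →ₗ[ℂ] H1) : WAdj i T (0 : H1) (0 : H0) := by
  intro v
  rw [inner_zero_left, inner_zero_left]

/-- the space of all `T^* w` -/
def ranAdj (i : D →ₗ[ℂ] H0) (T : D →ₗ[ℂ] H1) : Submodule ℂ H0 where
  carrier := {g | ∃ w : H1, WAdj i T w g}
  add_mem' := by
    rintro g g' ⟨w, h⟩ ⟨w', h'⟩
    exact ⟨w + w', h.add h'⟩
  zero_mem' := ⟨0, WAdj.zero i T⟩
  smul_mem' := by
    rintro c g ⟨w, h⟩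
    exact ⟨c • w, h.smul c⟩

/-- **Three space lemma.** `T : D → H1`, `i : D → H0` linear, `K` a closed subspace of `H1`
containing the range of `T`; if `m |w|^2 ≤ |T^* w|^2` for all `w` in `K` (weak adjoint), then every
`i σ` is at distance at most `m^(-1/2) |T σ|` from a vector `s` which is weakly in the kernel of
`T`: orthogonal to every `T^* w`. -/
theorem hilb [CompleteSpace H0] [CompleteSpace H1] (i : D →ₗ[ℂ] H0) (T : D →ₗ[ℂ] H1)
    (K : Submodule ℂ H1) (hK : IsClosed (K : Set H1)) (hT : ∀ v, T v ∈ K)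
    {m : ℝ} (hm : 0 < m)
    (hE : ∀ w ∈ K, ∀ g : H0, WAdj i T w g → m * ‖w‖ ^ 2 ≤ ‖g‖ ^ 2) (σ : D) :
    ∃ s : H0, ‖i σ - s‖ ^ 2 ≤ ‖T σ‖ ^ 2 / m ∧
      ∀ (w : H1) (g : H0), WAdj i T w g → ⟪g, s⟫_ℂ = 0 := by
  have : CompleteSpace K := hK.completeSpace_coe
  set R := ranAdj i T with hR
  set S := R.topologicalClosure with hS
  have : CompleteSpace S := (Submodule.isClosed_topologicalClosure R).completeSpace_coe
  set c : ℝ := ‖T σ‖ / Real.sqrt m with hc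
  have hsm : 0 < Real.sqrt m := Real.sqrt_pos.2 hm
  have hc0 : 0 ≤ c := div_nonneg (norm_nonneg _) hsm.le
  have key : ∀ g ∈ R, ‖⟪g, i σ⟫_ℂ‖ ≤ c * ‖g‖ := by
    rintro g ⟨w, hw⟩
    set w' := K.starProjection w with hw'
    have hw'K : w' ∈ K := Submodule.starProjection_apply_mem K w
    have hpair : WAdj i T w' g := by
      intro v
      rw [← hw v]
      have := Submodule.starProjection_inner_eq_zero (K := K) w (T v) (hT v)
      rw [inner_sub_left, sub_eq_zero] at this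
      exact this.symm
    have h1 := hE w' hw'K g hpair
    have h2 : Real.sqrt m * ‖w'‖ ≤ ‖g‖ := by
      have h3 : (Real.sqrt m * ‖w'‖) ^ 2 ≤ ‖g‖ ^ 2 := by
        rw [mul_pow, Real.sq_sqrt hm.le]; exact h1
      exact abs_le_of_sq_le_sq' h3 (norm_nonneg _) |>.2
    have h4 : ‖w'‖ ≤ ‖g‖ / Real.sqrt m := by
      rw [le_div_iff₀ hsm, mul_comm]; exact h2
    calc ‖⟪g, i σ⟫_ℂ‖ = ‖⟪w', T σ⟫_ℂ‖ := by rw [hpair σ]
      _ ≤ ‖w'‖ * ‖T σ‖ := norm_inner_le_norm _ _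
      _ ≤ (‖g‖ / Real.sqrt m) * ‖T σ‖ := by gcongr
      _ = c * ‖g‖ := by rw [hc]; ring
  have keyS : ∀ g ∈ S, ‖⟪g, i σ⟫_ℂ‖ ≤ c * ‖g‖ := by
    have hcl : IsClosed {g : H0 | ‖⟪g, i σ⟫_ℂ‖ ≤ c * ‖g‖} :=
      isClosed_le (by fun_prop) (by fun_prop)
    intro g hg
    have : (S : Set H0) ⊆ {g : H0 | ‖⟪g, i σ⟫_ℂ‖ ≤ c * ‖g‖} := by
      rw [hS, Submodule.topologicalClosure_coe]
      exact closure_minimal (fun g hg => key g hg) hcl
    exact this hg
  set p := S.starProjection (i σ) with hp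
  have hpS : p ∈ S := Submodule.starProjection_apply_mem S _
  have hpp : ⟪p, i σ⟫_ℂ = ⟪p, p⟫_ℂ := by
    have h := Submodule.sub_starProjection_mem_orthogonal (K := S) (i σ)
    rw [Submodule.mem_orthogonal] at h
    have h' := h p hpS
    rw [inner_sub_right, sub_eq_zero] at h'
    exact h'
  have hpn : ‖p‖ ≤ c := by
    have h1 := keyS p hpS
    rw [hpp, inner_self_eq_norm_sq_to_K, norm_pow] at h1
    have h2 : ‖((‖p‖ : ℝ) : ℂ)‖ = ‖p‖ := by simp
    have h3 : ‖p‖ ^ 2 ≤ c * ‖p‖ := by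
      have : ‖((‖p‖ : ℝ) : ℂ)‖ ^ 2 ≤ c * ‖p‖ := h1
      rwa [h2] at this
    rcases (norm_nonneg p).eq_or_lt with h0 | h0
    · rw [← h0]; exact hc0
    · nlinarith
  refine ⟨i σ - p, ?_, ?_⟩
  · have : i σ - (i σ - p) = p := by abel
    rw [this]
    calc ‖p‖ ^ 2 ≤ c ^ 2 := pow_le_pow_left₀ (norm_nonneg _) hpn 2
      _ = ‖T σ‖ ^ 2 / m := by rw [hc, div_pow, Real.sq_sqrt hm.le]
  · intro w g hwg
    have hgS : g ∈ S := Submodule.le_topologicalClosure R ⟨w, hwg⟩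
    have h := Submodule.sub_starProjection_mem_orthogonal (K := S) (i σ)
    rw [Submodule.mem_orthogonal] at h
    exact h g hgS

end Vale.Agent.P272.KOD
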