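import Vale.Agent.P272.KOD.Defs
import Vale.Agent.P272.K.Inv.Compact
import Vale.Agent.P272.K.Iface

/-! Stage 4: good covers of `X` (coordinate polydiscs with a smooth partition of unity). -/

open scoped Manifold ContDiff ComplexOrder Topology ENNReal ComplexConjugate
open MeasureTheory

set_option linter.all false

noncomputable section

namespace Vale.Agent.P272.KOD

open Vale.Agent.P272.K

/-- A finite cover by coordinate polydiscs with a subordinate smooth partition of unity. -/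
structure PCov (n : ℕ) (X : Type*) [TopologicalSpace X] [ChartedSpace (Cm n) X] where
  N : ℕ
  e : Fin N → Chart n X
  mem : ∀ i, e i ∈ atlas (Cm n) X
  c : Fin N → Cm n
  r : Fin N → ℝ
  pos : ∀ i, 0 < r i
  sub : ∀ i, Metric.closedBall (c i) (r i) ⊆ (e i).target
  χ : Fin N → X → ℝ
  smooth : ∀ i, SmoothFn (n := n) (χ i)
  nonneg : ∀ i x, 0 ≤ χ i x
  sum_one : ∀ x, ∑ i, χ i x = 1
  K : Fin N → Set (Cm n)
  compactK : ∀ i, IsCompact (K i)
  K_sub : ∀ i, K i ⊆ Metric.ball (c i) (r i)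
  supp : ∀ i x, χ i x ≠ 0 → x ∈ (e i).source ∧ e i x ∈ K i

section
variable {n : ℕ} {X : Type*} [TopologicalSpace X] [ChartedSpace (Cm n) X]

/-- the polydisc number `i` -/
def PCov.V (C : PCov n X) (i : Fin C.N) : Set (Cm n) := Metric.ball (C.c i) (C.r i)

/-- the Levi form of `φ` is at least `lam` on the closed polydiscs of the cover -/
def PCov.Pos (C : PCov n X) (φ : Chart n X → Cm n → ℝ) (lam : ℝ) : Prop :=
  0 < lam ∧ ∀ i, ∀ z ∈ Metric.closedBall (C.c i) (C.r i), ∀ β : Cm n,
    lam * ∑ j, ‖β j‖ ^ 2 ≤ (∑ j, ∑ k, cHess (φ (C.e i)) z j k * β j * conj (β k)).re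

end

end Vale.Agent.P272.KOD
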