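import Vale.Agent.P272.KOD.KeyOf
import Vale.Agent.P272.KOD.GStep

/-!
# P272 / KOD: the key estimate (approximation of smooth sections of `K_X^m` by holomorphic ones)
-/

open scoped Manifold ContDiff

namespace Vale.Agent.P272.KOD

/-- The averaging step in the form consumed by `key_of_step`. -/
theorem stepStmt : StepStmt := fun _ _ _ _ _ _ _ _ C _ hφ hP => step C hφ hP

/-- **Block K2 of stage 4.** -/
theorem keyStmt : KeyStmt := key_of_step stepStmt

end Vale.Agent.P272.KOD
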