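import Vale.Agent.P272.K.Inv.Chart
import Vale.Agent.P271.H408.Mean
import Vale.Agent.P250.H3.Lim
import Vale.Agent.P268.Hol
import Vale.Agent.P272.KOD.Defs

/-!
P272, stage 4: limits of almost holomorphic sections (iteration of local approximations).
-/

open scoped Manifold ContDiff ENNReal NNReal
open MeasureTheory Filter Topology Metric Set

noncomputable section

namespace Vale.Agent.P272.KOD.Lim

open Vale.Agent.P272.K

variable {n : ℕ}

/-- weighted `L²` norm on `V` with weight `exp (-ψ)` -/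
def wn (V : Set (Cm n)) (ψ : Cm n → ℝ) (f : Cm n → ℂ) : ℝ≥0∞ :=
  eLpNorm (fun z => ((Real.exp (-ψ z / 2) : ℝ) : ℂ) * f z) 2 (volume.restrict V)

lemma exp_half_sq' (x : ℝ) : Real.exp (-x / 2) ^ 2 = Real.exp (-x) := by
  rw [← Real.exp_nat_mul]
  congr 1
  push_cast
  ring

lemma wn_sq (V : Set (Cm n)) (ψ : Cm n → ℝ) (f : Cm n → ℂ) :
    wn V ψ f ^ 2 = ∫⁻ z in V, ENNReal.ofReal (‖f z‖ ^ 2 * Real.exp (-ψ z)) := by
  have h : ∀ z, ‖((Real.exp (-ψ z / 2) : ℝ) : ℂ) * f z‖ₑ ^ (2 : ℝ) =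
      ENNReal.ofReal (‖f z‖ ^ 2 * Real.exp (-ψ z)) := by
    intro z
    rw [← ofReal_norm, ENNReal.ofReal_rpow_of_nonneg (norm_nonneg _) (by norm_num),
      norm_mul, Complex.norm_real, Real.norm_of_nonneg (Real.exp_pos _).le, ← exp_half_sq']
    congr 1
    rw [Real.rpow_two]
    ring
  unfold wn
  rw [eLpNorm_eq_lintegral_rpow_enorm_toReal (by norm_num) (by norm_num)]
  simp only [ENNReal.toReal_ofNat, h]
  rw [← ENNReal.rpow_natCast, ← ENNReal.rpow_mul]
  norm_num

lemma aesm {V : Set (Cm n)} (hV : IsOpen V) {ψ : Cm n → ℝ} (hψ : ContinuousOn ψ V)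
    {f : Cm n → ℂ} (hf : ContinuousOn f V) :
    AEStronglyMeasurable (fun z => ((Real.exp (-ψ z / 2) : ℝ) : ℂ) * f z)
      (volume.restrict V) := by
  refine ContinuousOn.aestronglyMeasurable ?_ hV.measurableSet
  refine ContinuousOn.mul ?_ hf
  exact Complex.continuous_ofReal.comp_continuousOn
    (Real.continuous_exp.comp_continuousOn (hψ.neg.div_const 2))

lemma wn_add_le {V : Set (Cm n)} (hV : IsOpen V) {ψ : Cm n → ℝ} (hψ : ContinuousOn ψ V)
    {f g : Cm n → ℂ} (hf : ContinuousOn f V) (hg : ContinuousOn g V) :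
    wn V ψ (fun z => f z + g z) ≤ wn V ψ f + wn V ψ g := by
  have h1 := eLpNorm_add_le (aesm hV hψ hf) (aesm hV hψ hg) (p := 2) (by norm_num)
  unfold wn
  refine le_trans (le_of_eq ?_) h1
  congr 1
  funext z
  simp only [Pi.add_apply, mul_add]

lemma wn_neg (V : Set (Cm n)) (ψ : Cm n → ℝ) (f : Cm n → ℂ) :
    wn V ψ (fun z => - f z) = wn V ψ f := by
  unfold wn
  have : (fun z => ((Real.exp (-ψ z / 2) : ℝ) : ℂ) * -f z) =
      -(fun z => ((Real.exp (-ψ z / 2) : ℝ) : ℂ) * f z) := by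
    funext z
    simp
  rw [this, eLpNorm_neg]

lemma wn_congr {V : Set (Cm n)} (hV : IsOpen V) {ψ : Cm n → ℝ} {f g : Cm n → ℂ}
    (h : ∀ z ∈ V, f z = g z) : wn V ψ f = wn V ψ g := by
  refine eLpNorm_congr_ae ?_
  filter_upwards [ae_restrict_mem hV.measurableSet] with z hz
  rw [h z hz]

lemma wn_sub_comm {V : Set (Cm n)} {ψ : Cm n → ℝ} (f g : Cm n → ℂ) :
    wn V ψ (fun z => f z - g z) = wn V ψ (fun z => g z - f z) := by
  rw [← wn_neg V ψ (fun z => g z - f z)]
  congr 1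
  funext z
  ring

/-- `L²` bound for the values of a holomorphic function -/
lemma enorm_le_wn {V : Set (Cm n)} (hV : IsOpen V) {ψ : Cm n → ℝ} {B : ℝ}
    (hB : ∀ z ∈ V, ψ z ≤ B) {ρ : ℝ} (hρ : 0 < ρ) :
    ∃ C : ℝ, 0 ≤ C ∧ ∀ z, ball z ρ ⊆ V → ∀ f : Cm n → ℂ, DifferentiableOn ℂ f V →
      ‖f z‖ₑ ≤ ENNReal.ofReal C * wn V ψ f := by
  set v : ℝ≥0∞ := volume (ball (0 : Cm n) ρ) with hv
  have hv0 : v ≠ 0 := (measure_ball_pos volume _ hρ).ne'
  have hvt : v ≠ ⊤ := measure_ball_lt_top.ne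
  have hvp : 0 < v.toReal := ENNReal.toReal_pos hv0 hvt
  set D : ℝ := Real.exp B / v.toReal with hD
  have hD0 : 0 ≤ D := by positivity
  refine ⟨Real.sqrt D, Real.sqrt_nonneg _, fun z hz f hf => ?_⟩
  have h1 := Vale.Agent.P271.H408.enorm_sq_mul_volume_le (hf.mono hz)
  have h2 : volume (ball z ρ) = v := Measure.addHaar_ball_center _ _ _
  rw [h2] at h1
  have h3 : ∫⁻ w in ball z ρ, ‖f w‖ₑ ^ 2 ≤ ENNReal.ofReal (Real.exp B) * wn V ψ f ^ 2 := by
    rw [wn_sq, ← lintegral_const_mul' _ _ ENNReal.ofReal_ne_top]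
    refine (lintegral_mono_set hz).trans (setLIntegral_mono' hV.measurableSet fun w hw => ?_)
    rw [← ENNReal.ofReal_mul (Real.exp_pos _).le, ← ofReal_norm, ← ENNReal.ofReal_pow
      (norm_nonneg _)]
    refine ENNReal.ofReal_le_ofReal ?_
    have h5 : 1 ≤ Real.exp B * Real.exp (-ψ w) := by
      rw [← Real.exp_add]
      exact Real.one_le_exp (by linarith [hB w hw])
    nlinarith [sq_nonneg ‖f w‖]
  have h6 : ‖f z‖ₑ ^ 2 ≤ (ENNReal.ofReal (Real.sqrt D) * wn V ψ f) ^ 2 := by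
    rw [mul_pow, ← ENNReal.ofReal_pow (Real.sqrt_nonneg _), Real.sq_sqrt hD0, hD,
      ENNReal.ofReal_div_of_pos hvp, ENNReal.ofReal_toReal hvt]
    have h7 : ‖f z‖ₑ ^ 2 ≤ ENNReal.ofReal (Real.exp B) * wn V ψ f ^ 2 / v :=
      (ENNReal.le_div_iff_mul_le (Or.inl hv0) (Or.inl hvt)).2 (h1.trans h3)
    refine h7.trans (le_of_eq ?_)
    rw [div_eq_mul_inv, div_eq_mul_inv]
    ring
  exact (ENNReal.pow_right_strictMono two_ne_zero).le_iff_le.1 h6

/-- Fatou -/
lemma wn_le_of_tendsto {V : Set (Cm n)} (hV : IsOpen V) {ψ : Cm n → ℝ} (hψ : ContinuousOn ψ V)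
    {f : ℕ → Cm n → ℂ} (hf : ∀ k, ContinuousOn (f k) V) {g : Cm n → ℂ}
    (hg : ∀ z ∈ V, Tendsto (fun k => f k z) atTop (𝓝 (g z))) {b : ℝ≥0∞}
    (hb : ∀ k, wn V ψ (f k) ≤ b) : wn V ψ g ≤ b := by
  have h1 := Lp.eLpNorm_lim_le_liminf_eLpNorm (p := 2) (μ := volume.restrict V)
    (f := fun k z => ((Real.exp (-ψ z / 2) : ℝ) : ℂ) * f k z) (fun k => aesm hV hψ (hf k))
    (fun z => ((Real.exp (-ψ z / 2) : ℝ) : ℂ) * g z) (by
      filter_upwards [ae_restrict_mem hV.measurableSet] with z hz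
      exact (hg z hz).const_mul _)
  refine h1.trans ?_
  refine (liminf_le_liminf (Eventually.of_forall hb)).trans ?_
  rw [liminf_const]

/-- `L²` convergence with a geometric rate implies convergence almost everywhere -/
lemma ae_tendsto {V : Set (Cm n)} (hV : IsOpen V) {ψ : Cm n → ℝ} (hψ : ContinuousOn ψ V)
    {f : ℕ → Cm n → ℂ} (hf : ∀ k, ContinuousOn (f k) V) {a q : ℝ}
    (hq0 : 0 ≤ q) (hq : q < 1) (h : ∀ k, wn V ψ (f k) ≤ ENNReal.ofReal (a * q ^ k)) :
    ∀ᵐ z ∂(volume : Measure (Cm n)), z ∈ V → Tendsto (fun k => f k z) atTop (𝓝 0) := by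
  have h1 : ∀ k, ∫⁻ z in V, ENNReal.ofReal (‖f k z‖ ^ 2 * Real.exp (-ψ z)) ≤
      ENNReal.ofReal ((a * q ^ k) ^ 2) := by
    intro k
    rw [← wn_sq]
    refine (pow_le_pow_left' (h k) 2).trans ?_
    rcases le_total 0 (a * q ^ k) with h0 | h0
    · rw [← ENNReal.ofReal_pow h0]
    · rw [ENNReal.ofReal_of_nonpos h0]
      simp
  have hm : ∀ k, AEMeasurable (fun z => ENNReal.ofReal (‖f k z‖ ^ 2 * Real.exp (-ψ z)))
      (volume.restrict V) := by
    intro k
    refine ENNReal.measurable_ofReal.comp_aemeasurable ?_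
    refine ContinuousOn.aemeasurable ?_ hV.measurableSet
    exact ((hf k).norm.pow 2).mul (Real.continuous_exp.comp_continuousOn hψ.neg)
  have h2 : ∫⁻ z in V, ∑' k, ENNReal.ofReal (‖f k z‖ ^ 2 * Real.exp (-ψ z)) ≠ ⊤ := by
    rw [lintegral_tsum hm]
    refine ne_top_of_le_ne_top ?_ (ENNReal.tsum_le_tsum h1)
    have h3 : Summable fun k : ℕ => (a * q ^ k) ^ 2 := by
      have h4 : (fun k : ℕ => (a * q ^ k) ^ 2) = fun k : ℕ => a ^ 2 * (q ^ 2) ^ k := by
        funext k
        ring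
      rw [h4]
      refine Summable.mul_left _ (summable_geometric_of_lt_one (by positivity) ?_)
      nlinarith
    exact h3.tsum_ofReal_ne_top
  have h3 := ae_lt_top' (AEMeasurable.tsum hm) h2
  rw [ae_restrict_iff' hV.measurableSet] at h3
  filter_upwards [h3] with z hz hzV
  have h4 := ENNReal.tendsto_atTop_zero_of_tsum_ne_top (hz hzV).ne
  have h5 : Tendsto (fun k => ‖f k z‖ ^ 2 * Real.exp (-ψ z)) atTop (𝓝 0) := by
    have h6 := (ENNReal.tendsto_toReal ENNReal.zero_ne_top).comp h4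
    simp only [ENNReal.toReal_zero] at h6
    refine h6.congr fun k => ?_
    simp only [Function.comp]
    rw [ENNReal.toReal_ofReal (by positivity)]
  have h6 : Tendsto (fun k => ‖f k z‖ ^ 2) atTop (𝓝 0) := by
    have h7 := h5.mul_const (Real.exp (ψ z))
    rw [zero_mul] at h7
    refine h7.congr fun k => ?_
    rw [mul_assoc, ← Real.exp_add]
    simp
  have h8 : Tendsto (fun k => ‖f k z‖) atTop (𝓝 0) := by
    have h9 := (Real.continuous_sqrt.tendsto 0).comp h6
    rw [Real.sqrt_zero] at h9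
    refine h9.congr fun k => ?_
    simp only [Function.comp]
    exact Real.sqrt_sq (norm_nonneg _)
  exact tendsto_zero_iff_norm_tendsto_zero.2 h8

/-- A sequence of holomorphic functions which is `L²` Cauchy with a geometric rate converges to a
holomorphic function. -/
lemma local_limit {V : Set (Cm n)} (hV : IsOpen V) {ψ : Cm n → ℝ}
    (hB : ∃ B : ℝ, ∀ z ∈ V, ψ z ≤ B) {F : ℕ → Cm n → ℂ} (hF : ∀ k, DifferentiableOn ℂ (F k) V)
    {a q : ℝ} (ha : 0 ≤ a) (hq0 : 0 ≤ q) (hq : q < 1)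
    (h : ∀ k, wn V ψ (fun z => F (k + 1) z - F k z) ≤ ENNReal.ofReal (a * q ^ k)) :
    ∃ G : Cm n → ℂ, DifferentiableOn ℂ G V ∧
      ∀ z ∈ V, Tendsto (fun k => F k z) atTop (𝓝 (G z)) := by
  obtain ⟨B, hB⟩ := hB
  have key : ∀ z ∈ V, ∃ ρ > 0, ∃ C : ℝ, 0 ≤ C ∧ ball z ρ ⊆ V ∧ ∀ w ∈ ball z ρ, ∀ k,
      dist (F k w) (F (k + 1) w) ≤ C * q ^ k := by
    intro z hz
    obtain ⟨r, hr, hrV⟩ := Metric.isOpen_iff.1 hV z hz
    obtain ⟨C, hC, hCb⟩ := enorm_le_wn hV hB (ρ := r / 2) (by positivity)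
    refine ⟨r / 2, by positivity, C * a, by positivity,
      (ball_subset_ball (by linarith)).trans hrV, fun w hw k => ?_⟩
    have hsub : ball w (r / 2) ⊆ V := by
      refine Subset.trans (ball_subset_ball' ?_) hrV
      rw [mem_ball] at hw
      linarith
    have h1 := hCb w hsub (fun z => F (k + 1) z - F k z) ((hF (k + 1)).sub (hF k))
    have h2 := h1.trans (mul_le_mul_right (h k) _)
    rw [← ENNReal.ofReal_mul hC, ← ofReal_norm] at h2
    rw [dist_comm, dist_eq_norm, mul_assoc]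
    exact (ENNReal.ofReal_le_ofReal_iff (by positivity)).1 h2
  have hlim : ∀ z, ∃ l, z ∈ V → Tendsto (fun k => F k z) atTop (𝓝 l) := by
    intro z
    by_cases hz : z ∈ V
    · obtain ⟨ρ, hρ, C, hC, -, h1⟩ := key z hz
      obtain ⟨l, hl⟩ := cauchySeq_tendsto_of_complete
        (cauchySeq_of_le_geometric q C hq (h1 z (mem_ball_self hρ)))
      exact ⟨l, fun _ => hl⟩
    · exact ⟨0, fun h => absurd h hz⟩
  choose G hG using hlim
  refine ⟨G, ?_, hG⟩
  refine Vale.Agent.P250.H3.holo_of_tendstoLocallyUniformlyOn (l := atTop) hV hF ?_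
  rw [Metric.tendstoLocallyUniformlyOn_iff]
  intro ε hε z hz
  obtain ⟨ρ, hρ, C, hC, hsub, h1⟩ := key z hz
  refine ⟨ball z ρ, mem_nhdsWithin_of_mem_nhds (ball_mem_nhds z hρ), ?_⟩
  have h3 : Tendsto (fun k : ℕ => C * q ^ k / (1 - q)) atTop (𝓝 0) := by
    have := ((tendsto_pow_atTop_nhds_zero_of_lt_one hq0 hq).const_mul C).div_const (1 - q)
    simpa using this
  filter_upwards [h3.eventually (gt_mem_nhds hε)] with k hk w hw
  rw [dist_comm]
  exact (dist_le_of_le_geometric_of_tendsto q C hq (h1 w hw) (hG w (hsub hw)) k).trans_lt hk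

/-! ### The global limit -/

section glob

variable {X : Type*} [TopologicalSpace X] [ChartedSpace (Cm n) X] [IsManifold 𝓘(ℂ, Cm n) ω X]

/-- the part of the chart set `V` which is mapped by the coordinate change into `V'` -/
def ov (e e' : Chart n X) (V V' : Set (Cm n)) : Set (Cm n) :=
  {z | z ∈ V ∧ e.symm z ∈ e'.source ∧ e' (e.symm z) ∈ V'}

omit [ChartedSpace (Cm n) X] [IsManifold 𝓘(ℂ, Cm n) ω X] in
lemma isOpen_ov {e e' : Chart n X} {V V' : Set (Cm n)} (hV : IsOpen V) (hV' : IsOpen V')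
    (hVt : V ⊆ e.target) : IsOpen (ov e e' V V') := by
  have h1 : ov e e' V V' = V ∩ (e.symm.source ∩ e.symm ⁻¹' (e'.source ∩ e' ⁻¹' V')) := by
    ext z
    constructor
    · rintro ⟨h1, h2, h3⟩
      exact ⟨h1, hVt h1, h2, h3⟩
    · rintro ⟨h1, -, h2, h3⟩
      exact ⟨h1, h2, h3⟩
  rw [h1]
  exact hV.inter (e.symm.isOpen_inter_preimage (e'.isOpen_inter_preimage hV'))

lemma trans_diff {e e' : Chart n X} (he : e ∈ atlas (Cm n) X) (he' : e' ∈ atlas (Cm n) X)
    {V V' : Set (Cm n)} (hVt : V ⊆ e.target) :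
    DifferentiableOn ℂ (fun z => e' (e.symm z)) (ov e e' V V') := by
  rintro z ⟨h1, h2, h3⟩
  have h4 : At e (e.symm z) := At.of_target he (hVt h1)
  have h5 := transition_differentiableAt h4 (⟨he', h2⟩ : At e' (e.symm z))
  rw [e.right_inv (hVt h1)] at h5
  exact h5.differentiableWithinAt

lemma jac_diff {e e' : Chart n X} (he : e ∈ atlas (Cm n) X) (he' : e' ∈ atlas (Cm n) X)
    {V V' : Set (Cm n)} (hVt : V ⊆ e.target) :
    DifferentiableOn ℂ (fun z => (jacM e e' (e.symm z)).det) (ov e e' V V') := by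
  rintro z ⟨h1, h2, h3⟩
  have h4 : At e (e.symm z) := At.of_target he (hVt h1)
  have h5 := (jacM_det_holo h4 (⟨he', h2⟩ : At e' (e.symm z))).differentiableAt (by simp)
  rw [e.right_inv (hVt h1)] at h5
  exact h5.differentiableWithinAt

/-- Null sets are preserved by coordinate changes. -/
lemma ae_trans {e e' : Chart n X} (he : e ∈ atlas (Cm n) X) (he' : e' ∈ atlas (Cm n) X)
    {V V' : Set (Cm n)} (hVt : V ⊆ e.target) (hVt' : V' ⊆ e'.target) {P : Cm n → Prop}
    (h : ∀ᵐ w ∂(volume : Measure (Cm n)), w ∈ V' → P w) :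
    ∀ᵐ z ∂(volume : Measure (Cm n)), z ∈ ov e e' V V' → P (e' (e.symm z)) := by
  set S : Set (Cm n) := {w | w ∈ ov e' e V' V ∧ ¬ P w} with hS
  have hS0 : volume S = 0 := by
    rw [ae_iff] at h
    refine measure_mono_null ?_ h
    rintro w ⟨hw, hP⟩
    exact fun hh => hP (hh hw.1)
  have h1 : volume ((fun w => e (e'.symm w)) '' S) = 0 := by
    refine addHaar_image_eq_zero_of_differentiableOn_of_addHaar_eq_zero volume ?_ hS0
    have h2 := trans_diff he' he (V := V') (V' := V) hVt'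
    refine DifferentiableOn.mono (t := ov e' e V' V) ?_ fun w hw => hw.1
    exact h2.restrictScalars ℝ
  rw [ae_iff]
  refine measure_mono_null ?_ h1
  intro z hz
  simp only [Set.mem_ofPred_eq, Classical.not_imp] at hz
  obtain ⟨⟨hz1, hz2, hz3⟩, hP⟩ := hz
  have h3 : e'.symm (e' (e.symm z)) = e.symm z := e'.left_inv hz2
  have h4 : e (e.symm z) = z := e.right_inv (hVt hz1)
  refine ⟨e' (e.symm z), ⟨⟨hz3, ?_, ?_⟩, hP⟩, ?_⟩
  · rw [h3]
    exact e.map_target (hVt hz1)
  · rw [h3, h4]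
    exact hz1
  · show e (e'.symm (e' (e.symm z))) = z
    rw [h3, h4]

/-- compatibility of the local limits -/
lemma compat {e e' : Chart n X} (he : e ∈ atlas (Cm n) X) (he' : e' ∈ atlas (Cm n) X)
    {V V' : Set (Cm n)} (hV : IsOpen V) (hV' : IsOpen V') (hVt : V ⊆ e.target)
    (hVt' : V' ⊆ e'.target) (m : ℕ) {sig : ℕ → Chart n X → Cm n → ℂ}
    (hch : ∀ k (e e' : Chart n X) x, At e x → At e' x →
      sig k e (e x) = sig k e' (e' x) * (jacM e e' x).det ^ m)
    {G G' : Cm n → ℂ} (hG : DifferentiableOn ℂ G V) (hG' : DifferentiableOn ℂ G' V')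
    (hl : ∀ᵐ z ∂(volume : Measure (Cm n)), z ∈ V → Tendsto (fun k => sig k e z) atTop (𝓝 (G z)))
    (hl' : ∀ᵐ z ∂(volume : Measure (Cm n)), z ∈ V' →
      Tendsto (fun k => sig k e' z) atTop (𝓝 (G' z)))
    {x : X} (hx : x ∈ e.source) (hxV : e x ∈ V) (hx' : x ∈ e'.source) (hxV' : e' x ∈ V') :
    G (e x) = G' (e' x) * (jacM e e' x).det ^ m := by
  have hO := isOpen_ov (e := e) (e' := e') hV hV' hVt
  have hτ := trans_diff he he' (V := V) (V' := V') hVt
  have hJ := jac_diff he he' (V := V) (V' := V') hVt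
  have h1 := ae_trans he he' hVt hVt' hl'
  have h2 : EqOn G (fun z => G' (e' (e.symm z)) * (jacM e e' (e.symm z)).det ^ m)
      (ov e e' V V') := by
    refine Measure.eqOn_open_of_ae_eq (μ := volume) ?_ hO (hG.continuousOn.mono fun z hz => hz.1) ?_
    · rw [EventuallyEq, ae_restrict_iff' hO.measurableSet]
      filter_upwards [hl, h1] with z hz1 hz2 hz
      have h3 := hz1 hz.1
      have h4 := (hz2 hz).mul_const ((jacM e e' (e.symm z)).det ^ m)
      refine tendsto_nhds_unique h3 (h4.congr fun k => ?_)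
      have h5 : At e (e.symm z) := At.of_target he (hVt hz.1)
      have h6 := hch k e e' (e.symm z) h5 ⟨he', hz.2.1⟩
      rw [e.right_inv (hVt hz.1)] at h6
      exact h6.symm
    · exact (hG'.continuousOn.comp hτ.continuousOn fun z hz => hz.2.2).mul (hJ.continuousOn.pow m)
  have h3 : e.symm (e x) = x := e.left_inv hx
  have h4 := h2 (show e x ∈ ov e e' V V' from ⟨hxV, by rw [h3]; exact hx', by rw [h3]; exact hxV'⟩)
  simp only [h3] at h4
  exact h4

/-- The limit of the iteration: a holomorphic section close to the initial smooth section. -/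
theorem lim_sec {ι : Type*} (e : ι → Chart n X) (he : ∀ i, e i ∈ atlas (Cm n) X)
    (V : ι → Set (Cm n)) (hV : ∀ i, IsOpen (V i)) (hVt : ∀ i, V i ⊆ (e i).target)
    (hcov : ∀ x : X, ∃ i, x ∈ (e i).source ∧ e i x ∈ V i)
    (ψ : ι → Cm n → ℝ) (hψ : ∀ i, ContinuousOn (ψ i) (V i))
    (hψB : ∀ i, ∃ B : ℝ, ∀ z ∈ V i, ψ i z ≤ B)
    (m : ℕ) (sig : ℕ → Chart n X → Cm n → ℂ)
    (hsc : ∀ k i, ContinuousOn (sig k (e i)) (V i))
    (hch : ∀ k (e e' : Chart n X) x, At e x → At e' x →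
      sig k e (e x) = sig k e' (e' x) * (jacM e e' x).det ^ m)
    (F : ℕ → ι → Cm n → ℂ) (hF : ∀ k i, DifferentiableOn ℂ (F k i) (V i))
    {a q : ℝ} (ha : 0 ≤ a) (hq0 : 0 ≤ q) (hq : q < 1)
    (h1 : ∀ k i, wn (V i) (ψ i) (fun z => F k i z - sig k (e i) z) ≤ ENNReal.ofReal (a * q ^ k))
    (h2 : ∀ k i, wn (V i) (ψ i) (fun z => sig (k + 1) (e i) z - sig k (e i) z) ≤
      ENNReal.ofReal (a * q ^ k)) :
    ∃ s : Chart n X → Cm n → ℂ,
      (∀ e ∈ atlas (Cm n) X, DifferentiableOn ℂ (s e) e.target) ∧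
      (∀ (e e' : Chart n X) x, At e x → At e' x →
        s e (e x) = s e' (e' x) * (jacM e e' x).det ^ m) ∧
      ∀ i, wn (V i) (ψ i) (fun z => s (e i) z - sig 0 (e i) z) ≤
        ENNReal.ofReal (2 * a / (1 - q)) := by
  have hq1 : 0 < 1 - q := by linarith
  -- the differences of the local approximations
  have h3 : ∀ k i, wn (V i) (ψ i) (fun z => F (k + 1) i z - F k i z) ≤
      ENNReal.ofReal (3 * a * q ^ k) := by
    intro k i
    have e1 : (fun z => F (k + 1) i z - F k i z) = fun z => (F (k + 1) i z - sig (k + 1) (e i) z) +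
        ((sig (k + 1) (e i) z - sig k (e i) z) + (sig k (e i) z - F k i z)) := by
      funext z
      ring
    rw [e1]
    have c1 := (hF (k + 1) i).continuousOn.sub (hsc (k + 1) i)
    have c2 := (hsc (k + 1) i).sub (hsc k i)
    have c3 := (hsc k i).sub (hF k i).continuousOn
    refine (wn_add_le (hV i) (hψ i) c1 (c2.add c3)).trans ?_
    have h4 : wn (V i) (ψ i) (fun z => F (k + 1) i z - sig (k + 1) (e i) z) ≤
        ENNReal.ofReal (a * q ^ k) := by
      refine (h1 (k + 1) i).trans (ENNReal.ofReal_le_ofReal ?_)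
      refine mul_le_mul_of_nonneg_left ?_ ha
      exact pow_le_pow_of_le_one hq0 hq.le (Nat.le_succ k)
    have h5 : wn (V i) (ψ i) (fun z => sig k (e i) z - F k i z) ≤ ENNReal.ofReal (a * q ^ k) := by
      rw [wn_sub_comm]
      exact h1 k i
    have h6 := wn_add_le (hV i) (hψ i) c2 c3
    refine (add_le_add h4 (h6.trans (add_le_add (h2 k i) h5))).trans (le_of_eq ?_)
    have h0 : 0 ≤ a * q ^ k := by positivity
    rw [← ENNReal.ofReal_add h0 h0, ← ENNReal.ofReal_add h0 (by positivity)]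
    congr 1
    ring
  -- the local limits
  have h4 : ∀ i, ∃ G : Cm n → ℂ, DifferentiableOn ℂ G (V i) ∧
      ∀ z ∈ V i, Tendsto (fun k => F k i z) atTop (𝓝 (G z)) := fun i =>
    local_limit (hV i) (hψB i) (fun k => hF k i) (by positivity) hq0 hq (fun k => h3 k i)
  choose G hG hGl using h4
  have hae : ∀ i, ∀ᵐ z ∂(volume : Measure (Cm n)), z ∈ V i →
      Tendsto (fun k => sig k (e i) z) atTop (𝓝 (G i z)) := by
    intro i
    have h5 := ae_tendsto (hV i) (hψ i) (fun k => (hF k i).continuousOn.sub (hsc k i)) hq0 hq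
      (fun k => h1 k i)
    filter_upwards [h5] with z hz hzV
    have h6 := (hGl i z hzV).sub (hz hzV)
    rw [sub_zero] at h6
    refine h6.congr fun k => ?_
    simp only [Pi.sub_apply]
    ring
  have hcomp : ∀ i j x, x ∈ (e i).source → e i x ∈ V i → x ∈ (e j).source → e j x ∈ V j →
      G i (e i x) = G j (e j x) * (jacM (e i) (e j) x).det ^ m := fun i j x a1 a2 a3 a4 =>
    compat (he i) (he j) (hV i) (hV j) (hVt i) (hVt j) m hch (hG i) (hG j) (hae i) (hae j)
      a1 a2 a3 a4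
  choose idx hidx1 hidx2 using hcov
  set s : Chart n X → Cm n → ℂ := fun e' z => G (idx (e'.symm z)) (e (idx (e'.symm z)) (e'.symm z)) *
    (jacM e' (e (idx (e'.symm z))) (e'.symm z)).det ^ m with hs
  have hsx : ∀ (e' : Chart n X) x, At e' x → ∀ i, x ∈ (e i).source → e i x ∈ V i →
      s e' (e' x) = G i (e i x) * (jacM e' (e i) x).det ^ m := by
    intro e' x hx i hxi hxV
    simp only [hs]
    rw [e'.left_inv hx.2, hcomp (idx x) i x (hidx1 x) (hidx2 x) hxi hxV,
      jacM_comp hx (⟨he _, hidx1 x⟩ : At (e (idx x)) x) (⟨he i, hxi⟩ : At (e i) x),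
      Matrix.det_mul, mul_pow]
    ring
  have hchange : ∀ (e' e'' : Chart n X) x, At e' x → At e'' x →
      s e' (e' x) = s e'' (e'' x) * (jacM e' e'' x).det ^ m := by
    intro e' e'' x hx hx'
    rw [hsx e' x hx (idx x) (hidx1 x) (hidx2 x), hsx e'' x hx' (idx x) (hidx1 x) (hidx2 x),
      jacM_comp hx hx' (⟨he _, hidx1 x⟩ : At (e (idx x)) x), Matrix.det_mul, mul_pow]
    ring
  refine ⟨s, ?_, hchange, ?_⟩
  · intro e' he' z hz
    set x := e'.symm z with hx
    have hAt : At e' x := At.of_target he' hz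
    have hzx : e' x = z := e'.right_inv hz
    have hAi : At (e (idx x)) x := ⟨he _, hidx1 x⟩
    have hτ := transition_differentiableAt hAt hAi
    have hJ := (jacM_det_holo hAt hAi).differentiableAt (by simp)
    rw [hzx] at hτ hJ
    have hGd : DifferentiableAt ℂ (fun z => G (idx x) (e (idx x) (e'.symm z))) z := by
      have h6 : DifferentiableAt ℂ (G (idx x)) (e (idx x) (e'.symm z)) := by
        rw [← hx]
        exact (hG _).differentiableAt ((hV _).mem_nhds (hidx2 x))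
      exact h6.comp z hτ
    have hd := hGd.mul (hJ.pow m)
    refine (hd.congr_of_eventuallyEq ?_).differentiableWithinAt
    have hcont : ContinuousAt e'.symm z := e'.continuousAt_symm hz
    have hn : (e (idx x)).source ∩ (e (idx x)) ⁻¹' (V (idx x)) ∈ 𝓝 (e'.symm z) := by
      rw [← hx]
      exact ((e (idx x)).isOpen_inter_preimage (hV _)).mem_nhds ⟨hidx1 x, hidx2 x⟩
    filter_upwards [hcont.preimage_mem_nhds hn, e'.open_target.mem_nhds hz] with w hw hw'
    have h7 := hsx e' (e'.symm w) (At.of_target he' hw') (idx x) hw.1 hw.2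
    rw [e'.right_inv hw'] at h7
    exact h7
  · intro i
    have h5 : ∀ z ∈ V i, s (e i) z = G i z := by
      intro z hz
      have h6 : At (e i) ((e i).symm z) := At.of_target (he i) (hVt i hz)
      have h7 := hsx (e i) ((e i).symm z) h6 i h6.2 (by rw [(e i).right_inv (hVt i hz)]; exact hz)
      rw [jacM_self h6, (e i).right_inv (hVt i hz)] at h7
      rw [h7]
      simp
    rw [wn_congr (hV i) (g := fun z => G i z - sig 0 (e i) z) fun z hz => by rw [h5 z hz]]
    refine wn_le_of_tendsto (hV i) (hψ i) (f := fun k z => F k i z - sig 0 (e i) z)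
      (fun k => (hF k i).continuousOn.sub (hsc 0 i)) (fun z hz => (hGl i z hz).sub_const _) ?_
    -- the bound for the partial sums
    have h6 : ∀ k, wn (V i) (ψ i) (fun z => sig k (e i) z - sig 0 (e i) z) ≤
        ENNReal.ofReal (a * (1 - q ^ k) / (1 - q)) := by
      intro k
      induction k with
      | zero =>
        have : wn (V i) (ψ i) (fun z => sig 0 (e i) z - sig 0 (e i) z) = 0 := by
          unfold wn
          simp
        rw [this]
        exact zero_le
      | succ k ih =>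
        have e1 : (fun z => sig (k + 1) (e i) z - sig 0 (e i) z) =
            fun z => (sig (k + 1) (e i) z - sig k (e i) z) + (sig k (e i) z - sig 0 (e i) z) := by
          funext z
          ring
        rw [e1]
        refine (wn_add_le (hV i) (hψ i) ((hsc (k + 1) i).sub (hsc k i))
          ((hsc k i).sub (hsc 0 i))).trans ((add_le_add (h2 k i) ih).trans (le_of_eq ?_))
        have hqk : q ^ k ≤ 1 := pow_le_one₀ hq0 hq.le
        rw [← ENNReal.ofReal_add (by positivity)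
          (div_nonneg (mul_nonneg ha (by linarith)) hq1.le)]
        congr 1
        field_simp
        ring
    intro k
    have e1 : (fun z => F k i z - sig 0 (e i) z) =
        fun z => (F k i z - sig k (e i) z) + (sig k (e i) z - sig 0 (e i) z) := by
      funext z
      ring
    rw [e1]
    refine (wn_add_le (hV i) (hψ i) ((hF k i).continuousOn.sub (hsc k i))
      ((hsc k i).sub (hsc 0 i))).trans ((add_le_add (h1 k i) (h6 k)).trans ?_)
    have hqk : q ^ k ≤ 1 := pow_le_one₀ hq0 hq.le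
    have hqk0 : 0 ≤ q ^ k := by positivity
    rw [← ENNReal.ofReal_add (by positivity) (div_nonneg (mul_nonneg ha (by linarith)) hq1.le)]
    refine ENNReal.ofReal_le_ofReal ?_
    rw [le_div_iff₀ hq1]
    have e2 : (a * q ^ k + a * (1 - q ^ k) / (1 - q)) * (1 - q) =
        a - a * q ^ k * q := by
      field_simp
      ring
    rw [e2]
    nlinarith [mul_nonneg (mul_nonneg ha hqk0) hq0]

end glob

/-! ### The form used in the iteration -/

section final

variable {X : Type} [TopologicalSpace X] [ChartedSpace (Cm n) X] [IsManifold 𝓘(ℂ, Cm n) ω X]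

lemma wn_sq_nrm (m : ℕ) (φ : Cm n → ℝ) (V : Set (Cm n)) (f : Cm n → ℂ) :
    wn V (fun z => (m : ℝ) * φ z) f ^ 2 = nrm n m φ V f := by
  rw [wn_sq]
  unfold nrm
  simp only [neg_mul]

lemma wn_le_of_nrm {m : ℕ} {φ : Cm n → ℝ} {V : Set (Cm n)} {f : Cm n → ℂ} {b : ℝ} (hb : 0 ≤ b)
    (h : nrm n m φ V f ≤ ENNReal.ofReal b) :
    wn V (fun z => (m : ℝ) * φ z) f ≤ ENNReal.ofReal (Real.sqrt b) := by
  rw [← wn_sq_nrm] at h
  have h1 : ENNReal.ofReal b = ENNReal.ofReal (Real.sqrt b) ^ 2 := by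
    rw [← ENNReal.ofReal_pow (Real.sqrt_nonneg _), Real.sq_sqrt hb]
  rw [h1] at h
  exact (ENNReal.pow_right_strictMono two_ne_zero).le_iff_le.1 h

/-- LIM: the limit of the iteration of almost holomorphic smooth sections is a holomorphic section
close to the initial one. -/
theorem lim_psec {ι : Type*} (e : ι → Chart n X) (he : ∀ i, e i ∈ atlas (Cm n) X)
    (V : ι → Set (Cm n)) (hV : ∀ i, IsOpen (V i)) (hVc : ∀ i, IsCompact (closure (V i)))
    (hVt : ∀ i, closure (V i) ⊆ (e i).target)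
    (hcov : ∀ x : X, ∃ i, x ∈ (e i).source ∧ e i x ∈ V i)
    {φ : Chart n X → Cm n → ℝ} (hφ : IsCanonicalMetric φ) (m : ℕ) (sig : ℕ → SSec n m X)
    (F : ℕ → ι → Cm n → ℂ) (hF : ∀ k i, DifferentiableOn ℂ (F k i) (V i))
    {A q : ℝ} (hA : 0 ≤ A) (hq0 : 0 ≤ q) (hq : q < 1)
    (h1 : ∀ k i, nrm n m (φ (e i)) (V i) (fun z => F k i z - (sig k).coeff (e i) z) ≤
      ENNReal.ofReal (A * q ^ k))
    (h2 : ∀ k i, nrm n m (φ (e i)) (V i)
      (fun z => (sig (k + 1)).coeff (e i) z - (sig k).coeff (e i) z) ≤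
      ENNReal.ofReal (A * q ^ k)) :
    ∃ s : PSec n m X, ∀ i, nrm n m (φ (e i)) (V i)
      (fun z => (sig 0).coeff (e i) z - s.coeff (e i) z) ≤
        ENNReal.ofReal ((2 / (1 - Real.sqrt q)) ^ 2 * A) := by
  set q' : ℝ := Real.sqrt q with hq'
  have hq'0 : 0 ≤ q' := Real.sqrt_nonneg _
  have hq'1 : q' < 1 := by
    rw [hq', Real.sqrt_lt' one_pos]
    simpa using hq
  have hsub : ∀ i, V i ⊆ (e i).target := fun i => subset_closure.trans (hVt i)
  have hφc : ∀ i, ContinuousOn (φ (e i)) (closure (V i)) := by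
    intro i z hz
    have h3 := hφ.smooth (e i) ((e i).symm z) (At.of_target (he i) (hVt i hz))
    rw [(e i).right_inv (hVt i hz)] at h3
    exact h3.continuousAt.continuousWithinAt
  have hsqrt : ∀ k : ℕ, Real.sqrt (A * q ^ k) = Real.sqrt A * q' ^ k := by
    intro k
    have h3 : q ^ k = (Real.sqrt q ^ k) ^ 2 := by
      rw [← pow_mul, mul_comm k 2, pow_mul, Real.sq_sqrt hq0]
    rw [Real.sqrt_mul hA, hq', h3, Real.sqrt_sq (by positivity)]
  obtain ⟨s, hs1, hs2, hs3⟩ := lim_sec e he V hV hsub hcov (fun i z => (m : ℝ) * φ (e i) z)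
    (fun i => continuousOn_const.mul ((hφc i).mono subset_closure))
    (fun i => by
      obtain ⟨B, hB⟩ := (hVc i).bddAbove_image (hφc i)
      exact ⟨m * B, fun z hz => mul_le_mul_of_nonneg_left (hB ⟨z, subset_closure hz, rfl⟩)
        (Nat.cast_nonneg m)⟩)
    m (fun k => (sig k).coeff)
    (fun k i z hz => by
      have h3 := (sig k).smooth (e i) ((e i).symm z) (At.of_target (he i) (hsub i hz))
      rw [(e i).right_inv (hsub i hz)] at h3
      exact h3.continuousAt.continuousWithinAt)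
    (fun k => (sig k).change) F hF (a := Real.sqrt A) (q := q') (Real.sqrt_nonneg _) hq'0 hq'1
    (fun k i => by
      rw [← hsqrt k]
      exact wn_le_of_nrm (by positivity) (h1 k i))
    (fun k i => by
      rw [← hsqrt k]
      exact wn_le_of_nrm (by positivity) (h2 k i))
  refine ⟨⟨s, fun e' x hx => Vale.Agent.P268.analyticAt_of_differentiableOn e'.open_target
    (hs1 e' hx.1) (e'.map_source hx.2), hs2⟩, fun i => ?_⟩
  rw [← wn_sq_nrm, wn_sub_comm]
  have hq1 : 0 < 1 - q' := by linarith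
  refine (pow_le_pow_left' (hs3 i) 2).trans (le_of_eq ?_)
  rw [← ENNReal.ofReal_pow (by positivity)]
  congr 1
  calc (2 * Real.sqrt A / (1 - q')) ^ 2 = (2 / (1 - q')) ^ 2 * Real.sqrt A ^ 2 := by ring
    _ = (2 / (1 - q')) ^ 2 * A := by rw [Real.sq_sqrt hA]

end final

end Vale.Agent.P272.KOD.Lim
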