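import Vale.Agent.P272.KOD.CovKD
import Vale.Agent.P272.KOD.Lim

/-!
P272, stage 4: the key estimate from one averaging step.
-/

open scoped Manifold ContDiff ENNReal NNReal
open MeasureTheory Filter Topology Metric Set

noncomputable section

namespace Vale.Agent.P272.KOD

open Vale.Agent.P272.K

/-- One averaging step, with a constant independent of `m`. -/
def StepStmt : Prop :=
  ∀ (n : ℕ) (X : Type) [TopologicalSpace X] [T2Space X] [CompactSpace X] [ChartedSpace (Cm n) X]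
    [IsManifold 𝓘(ℂ, Cm n) ω X] (φ : Chart n X → Cm n → ℝ) (C : PCov n X) (lam : ℝ),
    IsCanonicalMetric φ → C.Pos φ lam →
    ∃ B : ℝ, 0 ≤ B ∧ ∀ m : ℕ, 1 ≤ m → ∀ σ : SSec n m X, ∀ A : ℝ, 0 ≤ A →
      (∀ i, dnrm n m (φ (C.e i)) (C.V i) (σ.coeff (C.e i)) ≤ ENNReal.ofReal A) →
      ∃ (F : Fin C.N → Cm n → ℂ) (τ : SSec n m X),
        (∀ i, DifferentiableOn ℂ (F i) (C.V i)) ∧
        (∀ i, nrm n m (φ (C.e i)) (C.V i) (fun z => F i z - σ.coeff (C.e i) z) ≤
          ENNReal.ofReal (B / m * A)) ∧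
        (∀ i, nrm n m (φ (C.e i)) (C.V i) (fun z => τ.coeff (C.e i) z - σ.coeff (C.e i) z) ≤
          ENNReal.ofReal (B / m * A)) ∧
        (∀ i, dnrm n m (φ (C.e i)) (C.V i) (τ.coeff (C.e i)) ≤ ENNReal.ofReal (B / m * A))

section
variable {n : ℕ} {X : Type} [TopologicalSpace X] [ChartedSpace (Cm n) X]
  [IsManifold 𝓘(ℂ, Cm n) ω X]

omit [IsManifold 𝓘(ℂ, Cm n) ω X] in
/-- the norms of `∂̄σ` are finite for a smooth section -/
lemma dnrm_ne_top {φ : Chart n X → Cm n → ℝ} (hφ : IsCanonicalMetric φ) {m : ℕ} (σ : SSec n m X)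
    {e : Chart n X} (he : e ∈ atlas (Cm n) X) {c : Cm n} {r : ℝ} (hc : closedBall c r ⊆ e.target) :
    dnrm n m (φ e) (ball c r) (σ.coeff e) ≠ ⊤ := by
  have hφc : ContinuousOn (φ e) (closedBall c r) := by
    intro z hz
    have h3 := hφ.smooth e (e.symm z) (At.of_target he (hc hz))
    rw [e.right_inv (hc hz)] at h3
    exact h3.continuousAt.continuousWithinAt
  have hd : ∀ l, ContinuousOn (dzb l (σ.coeff e)) (closedBall c r) := by
    intro l z hz
    have h3 := σ.smooth e (e.symm z) (At.of_target he (hc hz))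
    rw [e.right_inv (hc hz)] at h3
    have h8 : ContDiffAt ℝ 1 (fderiv ℝ (σ.coeff e)) z :=
      (h3.of_le (m := 2) (by norm_cast)).fderiv_right (by norm_num)
    have h9 : ContinuousAt (fderiv ℝ (σ.coeff e)) z := h8.continuousAt
    have : ContinuousAt (dzb l (σ.coeff e)) z := by
      unfold dzb
      exact ((h9.clm_apply continuousAt_const).add
        ((h9.clm_apply continuousAt_const).const_mul _)).div_const _
    exact this.continuousWithinAt
  have hcont : ContinuousOn (fun z => (∑ l, ‖dzb l (σ.coeff e) z‖ ^ 2) *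
      Real.exp (-(m : ℝ) * φ e z)) (closedBall c r) :=
    (continuousOn_finsetSum _ fun l _ => (hd l).norm.pow 2).mul
      (Real.continuous_exp.comp_continuousOn (continuousOn_const.mul hφc))
  obtain ⟨b, hb⟩ := (isCompact_closedBall c r).exists_bound_of_continuousOn hcont
  unfold dnrm
  refine ne_top_of_le_ne_top (b := ∫⁻ _ in ball c r, ENNReal.ofReal b) ?_ ?_
  · rw [setLIntegral_const]
    exact ENNReal.mul_ne_top ENNReal.ofReal_ne_top measure_ball_lt_top.ne
  · refine setLIntegral_mono' isOpen_ball.measurableSet fun z hz => ENNReal.ofReal_le_ofReal ?_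
    exact (Real.le_norm_self _).trans (hb z (ball_subset_closedBall hz))

end

/-- The key estimate from the averaging step. -/
theorem key_of_step (hS : StepStmt) : KeyStmt := by
  intro n X _ _ _ _ _ φ hφ hpos
  obtain ⟨C, lam, hP⟩ := exists_pcov hφ hpos
  obtain ⟨B, hB, hstep⟩ := hS n X φ C lam hφ hP
  obtain ⟨m₁, hm₁⟩ := exists_nat_ge (4 * B)
  have hclos : ∀ i, closure (C.V i) ⊆ closedBall (C.c i) (C.r i) := fun i =>
    closure_ball_subset_closedBall
  refine ⟨C.N, C.e, C.V, 4, max m₁ 1, by norm_num, le_max_right _ _, C.mem,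
    fun i => isOpen_ball, fun i => ?_, fun i => (hclos i).trans (C.sub i), ?_, ?_⟩
  · exact (isCompact_closedBall _ _).of_isClosed_subset isClosed_closure (hclos i)
  · intro x
    have h1 : ∃ i, C.χ i x ≠ 0 := by
      by_contra h
      simp only [not_exists, not_not] at h
      have h2 := C.sum_one x
      simp [h] at h2
    obtain ⟨i, hi⟩ := h1
    exact ⟨i, (C.supp i x hi).1, C.K_sub i (C.supp i x hi).2⟩
  intro m hm σ
  have hm1 : 1 ≤ m := (le_max_right _ _).trans hm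
  have hm0 : (0 : ℝ) < m := by exact_mod_cast hm1
  have hBm : B / m ≤ 1 / 4 := by
    rw [div_le_iff₀ hm0]
    have h1 : (m₁ : ℝ) ≤ m := by exact_mod_cast (le_max_left _ _).trans hm
    linarith
  have hBm0 : 0 ≤ B / m := by positivity
  set A : ℝ := (∑ j, dnrm n m (φ (C.e j)) (C.V j) (σ.coeff (C.e j))).toReal with hA
  have hA0 : 0 ≤ A := ENNReal.toReal_nonneg
  have htop : (∑ j, dnrm n m (φ (C.e j)) (C.V j) (σ.coeff (C.e j))) ≠ ⊤ := by
    rw [ENNReal.sum_ne_top]
    exact fun j _ => dnrm_ne_top hφ σ (C.mem j) (C.sub j)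
  have hAe : ENNReal.ofReal A = ∑ j, dnrm n m (φ (C.e j)) (C.V j) (σ.coeff (C.e j)) :=
    ENNReal.ofReal_toReal htop
  -- the iteration
  have hstep' : ∀ (k : ℕ) (τ : SSec n m X),
      (∀ i, dnrm n m (φ (C.e i)) (C.V i) (τ.coeff (C.e i)) ≤
        ENNReal.ofReal (A * (1 / 4) ^ k)) →
      ∃ (F : Fin C.N → Cm n → ℂ) (τ' : SSec n m X),
        (∀ i, DifferentiableOn ℂ (F i) (C.V i)) ∧
        (∀ i, nrm n m (φ (C.e i)) (C.V i) (fun z => F i z - τ.coeff (C.e i) z) ≤
          ENNReal.ofReal (A / 4 * (1 / 4) ^ k)) ∧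
        (∀ i, nrm n m (φ (C.e i)) (C.V i) (fun z => τ'.coeff (C.e i) z - τ.coeff (C.e i) z) ≤
          ENNReal.ofReal (A / 4 * (1 / 4) ^ k)) ∧
        (∀ i, dnrm n m (φ (C.e i)) (C.V i) (τ'.coeff (C.e i)) ≤
          ENNReal.ofReal (A * (1 / 4) ^ (k + 1))) := by
    intro k τ hτ
    obtain ⟨F, τ', h1, h2, h3, h4⟩ := hstep m hm1 τ (A * (1 / 4) ^ k) (by positivity) hτ
    have h5 : B / m * (A * (1 / 4) ^ k) ≤ A / 4 * (1 / 4) ^ k := by
      have h6 : 0 ≤ A * (1 / 4 : ℝ) ^ k := by positivity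
      calc B / m * (A * (1 / 4) ^ k) ≤ 1 / 4 * (A * (1 / 4) ^ k) :=
            mul_le_mul_of_nonneg_right hBm h6
        _ = A / 4 * (1 / 4) ^ k := by ring
    have h7 : A / 4 * (1 / 4) ^ k = A * (1 / 4) ^ (k + 1) := by ring
    refine ⟨F, τ', h1, fun i => (h2 i).trans (ENNReal.ofReal_le_ofReal h5),
      fun i => (h3 i).trans (ENNReal.ofReal_le_ofReal h5), fun i => ?_⟩
    rw [← h7]
    exact (h4 i).trans (ENNReal.ofReal_le_ofReal h5)
  choose F τ' hF h1 h2 h3 using hstep'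
  let seq : (k : ℕ) → {τ : SSec n m X // ∀ i, dnrm n m (φ (C.e i)) (C.V i) (τ.coeff (C.e i)) ≤
      ENNReal.ofReal (A * (1 / 4) ^ k)} := fun k => Nat.rec
    ⟨σ, fun i => by
      rw [pow_zero, mul_one, hAe]
      exact Finset.single_le_sum (f := fun j => dnrm n m (φ (C.e j)) (C.V j) (σ.coeff (C.e j)))
        (fun _ _ => zero_le) (Finset.mem_univ i)⟩
    (fun k s => ⟨τ' k s.1 s.2, h3 k s.1 s.2⟩) k
  obtain ⟨s, hs⟩ := Lim.lim_psec C.e C.mem C.V (fun i => isOpen_ball)
    (fun i => (isCompact_closedBall _ _).of_isClosed_subset isClosed_closure (hclos i))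
    (fun i => (hclos i).trans (C.sub i))
    (by
      intro x
      have h1 : ∃ i, C.χ i x ≠ 0 := by
        by_contra h
        simp only [not_exists, not_not] at h
        have h2 := C.sum_one x
        simp [h] at h2
      obtain ⟨i, hi⟩ := h1
      exact ⟨i, (C.supp i x hi).1, C.K_sub i (C.supp i x hi).2⟩)
    hφ m (fun k => (seq k).1) (fun k => F k (seq k).1 (seq k).2)
    (fun k i => hF k _ _ i) (A := A / 4) (q := 1 / 4) (by positivity) (by norm_num) (by norm_num)
    (fun k i => h1 k _ _ i) (fun k i => h2 k (seq k).1 (seq k).2 i)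
  refine ⟨s, fun i => (hs i).trans ?_⟩
  rw [← hAe, ← ENNReal.ofReal_mul (by norm_num)]
  refine ENNReal.ofReal_le_ofReal (le_of_eq ?_)
  have h4 : Real.sqrt (1 / 4) = 1 / 2 := by
    rw [show (1 / 4 : ℝ) = (1 / 2) ^ 2 by norm_num, Real.sqrt_sq (by norm_num)]
  rw [h4]
  ring

end Vale.Agent.P272.KOD
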