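import Vale.Agent.P300.H435.L2.Weyl
import Vale.Agent.P272.K.Stmt

/-!
P272, Stage 4, block KOD-LIM (L1) (helper806): an `L²_loc` limit of smooth functions `u_j` with
`∂̄ u_j → 0` in `L²_loc` is holomorphic.
-/

set_option linter.all false

open MeasureTheory Filter Topology Metric
open scoped ENNReal NNReal ContDiff

namespace Vale.Agent.P272.KOD

open Vale.Agent.P272.K

variable {n : ℕ}

theorem dzb_eq_P300 (j : Fin n) (f : Cm n → ℂ) (z : Cm n) :
    dzb j f z = Vale.Agent.P300.L2.dzb j f z := rfl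

theorem dz_eq_P300 (j : Fin n) (f : Cm n → ℂ) (z : Cm n) :
    dz j f z = Vale.Agent.P300.L2.dz j f z := rfl

/-- Cauchy-Schwarz with lower integrals of squares. -/
theorem enorm_integral_mul_le {μ : Measure (Cm n)} {a b : Cm n → ℂ}
    (ha : AEStronglyMeasurable a μ) (hb : AEStronglyMeasurable b μ) :
    ‖∫ z, a z * b z ∂μ‖ₑ ≤ eLpNorm a 2 μ * eLpNorm b 2 μ := by
  refine (enorm_integral_le_lintegral_enorm _).trans ?_
  have h1 := eLpNorm_smul_le_mul_eLpNorm (p := 2) (q := 2) (r := 1) hb ha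
  rw [eLpNorm_one_eq_lintegral_enorm] at h1
  simpa [smul_eq_mul] using h1

theorem eLpNorm_two_sq {μ : Measure (Cm n)} (a : Cm n → ℂ) :
    eLpNorm a 2 μ ^ 2 = ∫⁻ z, ‖a z‖ₑ ^ 2 ∂μ := by
  rw [eLpNorm_eq_lintegral_rpow_enorm_toReal (by norm_num) (by norm_num)]
  simp only [ENNReal.toReal_ofNat, ENNReal.rpow_ofNat]
  rw [← ENNReal.rpow_natCast, ← ENNReal.rpow_mul]
  norm_num

/-- The product of a `C¹` function on `V` and of a test function supported in `V`. -/
theorem contDiff_mul_test {V : Set (Cm n)} (hV : IsOpen V) {u κ : Cm n → ℂ}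
    (hu : ContDiffOn ℝ 1 u V) (hκ : ContDiff ℝ ∞ κ) (hs : tsupport κ ⊆ V) :
    ContDiff ℝ 1 fun z => u z * κ z := by
  rw [contDiff_iff_contDiffAt]
  intro z
  by_cases hz : z ∈ tsupport κ
  · have h1 : ContDiffAt ℝ 1 u z := hu.contDiffAt (hV.mem_nhds (hs hz))
    exact h1.mul ((hκ.of_le (by norm_cast)).contDiffAt)
  · have h1 : (fun z => u z * κ z) =ᶠ[𝓝 z] fun _ => 0 := by
      have h2 : (tsupport κ)ᶜ ∈ 𝓝 z := (isClosed_tsupport κ).isOpen_compl.mem_nhds hz
      filter_upwards [h2] with w hw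
      rw [image_eq_zero_of_notMem_tsupport hw, mul_zero]
    exact contDiffAt_const.congr_of_eventuallyEq h1

theorem dzb_eq_zero_of_notMem_tsupport {κ : Cm n → ℂ} (l : Fin n) {z : Cm n}
    (hz : z ∉ tsupport κ) : dzb l κ z = 0 := by
  have h5 : κ =ᶠ[𝓝 z] fun _ => 0 := by
    have h6 : (tsupport κ)ᶜ ∈ 𝓝 z := (isClosed_tsupport κ).isOpen_compl.mem_nhds hz
    filter_upwards [h6] with w hw
    exact image_eq_zero_of_notMem_tsupport hw
  have := Vale.Agent.P300.L2.dzb_congr (j := l) h5
  rw [Vale.Agent.P300.L2.dzb_const] at this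
  exact this

theorem tsupport_dzb_subset (κ : Cm n → ℂ) (l : Fin n) : tsupport (dzb l κ) ⊆ tsupport κ := by
  refine closure_minimal ?_ (isClosed_tsupport κ)
  intro z hz
  by_contra h
  exact hz (dzb_eq_zero_of_notMem_tsupport l h)

theorem hasCompactSupport_dzb {κ : Cm n → ℂ} (hc : HasCompactSupport κ) (l : Fin n) :
    HasCompactSupport (dzb l κ) :=
  hc.of_isClosed_subset (isClosed_tsupport _) (tsupport_dzb_subset κ l)

theorem continuousOn_dzb {V : Set (Cm n)} (hV : IsOpen V) {u : Cm n → ℂ}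
    (hu : ContDiffOn ℝ 1 u V) (l : Fin n) : ContinuousOn (dzb l u) V := by
  have h1 : ContinuousOn (fun z => fderiv ℝ u z) V := hu.continuousOn_fderiv_of_isOpen hV le_rfl
  have h2 : ∀ v : Cm n, ContinuousOn (fun z => fderiv ℝ u z v) V := fun v =>
    h1.clm_apply continuousOn_const
  exact ((h2 _).add (continuousOn_const.mul (h2 _))).div_const _

theorem continuousOn_dz {V : Set (Cm n)} (hV : IsOpen V) {u : Cm n → ℂ}
    (hu : ContDiffOn ℝ 1 u V) (l : Fin n) : ContinuousOn (dz l u) V := by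
  have h1 : ContinuousOn (fun z => fderiv ℝ u z) V := hu.continuousOn_fderiv_of_isOpen hV le_rfl
  have h2 : ∀ v : Cm n, ContinuousOn (fun z => fderiv ℝ u z v) V := fun v =>
    h1.clm_apply continuousOn_const
  exact ((h2 _).sub (continuousOn_const.mul (h2 _))).div_const _

theorem continuous_dzb_test {κ : Cm n → ℂ} (hκ : ContDiff ℝ ∞ κ) (l : Fin n) :
    Continuous (dzb l κ) := by
  rw [← continuousOn_univ]
  exact continuousOn_dzb isOpen_univ (hκ.of_le (by norm_cast)).contDiffOn l

theorem integrable_mul_test {V : Set (Cm n)} (hV : IsOpen V) {g h : Cm n → ℂ}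
    (hg : ContinuousOn g V) (hh : Continuous h) (hc : HasCompactSupport h)
    (hs : tsupport h ⊆ V) : Integrable fun z => g z * h z := by
  have h1 : Continuous fun z => g z * h z := by
    rw [continuous_iff_continuousAt]
    intro z
    by_cases hz : z ∈ tsupport h
    · exact (hg.continuousAt (hV.mem_nhds (hs hz))).mul hh.continuousAt
    · have h1 : (fun z => g z * h z) =ᶠ[𝓝 z] fun _ => 0 := by
        have h2 : (tsupport h)ᶜ ∈ 𝓝 z := (isClosed_tsupport h).isOpen_compl.mem_nhds hz
        filter_upwards [h2] with w hw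
        rw [image_eq_zero_of_notMem_tsupport hw, mul_zero]
      exact continuousAt_const.congr h1.symm
  exact h1.integrable_of_hasCompactSupport hc.mul_left

/-- Integration by parts against a test function. -/
theorem integral_mul_dzb {V : Set (Cm n)} (hV : IsOpen V) {u κ : Cm n → ℂ}
    (hu : ContDiffOn ℝ 1 u V) (hκ : ContDiff ℝ ∞ κ) (hc : HasCompactSupport κ)
    (hs : tsupport κ ⊆ V) (l : Fin n) :
    ∫ z, u z * dzb l κ z = - ∫ z, dzb l u z * κ z := by
  have h1 := contDiff_mul_test hV hu hκ hs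
  have h2 : HasCompactSupport fun z => u z * κ z := hc.mul_left
  have h3 : ∫ z, dzb l (fun z => u z * κ z) z = 0 := Vale.Agent.P300.L2.integral_dzb h1 h2
  have h4 : ∀ z, dzb l (fun z => u z * κ z) z = dzb l u z * κ z + u z * dzb l κ z := by
    intro z
    by_cases hz : z ∈ tsupport κ
    · have hd : DifferentiableAt ℝ u z :=
        (hu.differentiableOn (by norm_num)).differentiableAt (hV.mem_nhds (hs hz))
      exact Vale.Agent.P300.L2.dzb_mul hd (hκ.differentiable (by simp) z)
    · have h5 : κ =ᶠ[𝓝 z] fun _ => 0 := by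
        have h6 : (tsupport κ)ᶜ ∈ 𝓝 z := (isClosed_tsupport κ).isOpen_compl.mem_nhds hz
        filter_upwards [h6] with w hw
        exact image_eq_zero_of_notMem_tsupport hw
      have h7 : dzb l κ z = 0 := by
        have := Vale.Agent.P300.L2.dzb_congr (j := l) h5
        rw [Vale.Agent.P300.L2.dzb_const] at this
        exact this
      have h8 : (fun z => u z * κ z) =ᶠ[𝓝 z] fun _ => 0 := by
        filter_upwards [h5] with w hw
        rw [hw, mul_zero]
      have h9 : dzb l (fun z => u z * κ z) z = 0 := by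
        have := Vale.Agent.P300.L2.dzb_congr (j := l) h8
        rw [Vale.Agent.P300.L2.dzb_const] at this
        exact this
      rw [h9, h7, h5.eq_of_nhds]
      simp
  have hi1 : Integrable fun z => u z * dzb l κ z :=
    integrable_mul_test hV hu.continuousOn (continuous_dzb_test hκ l)
      (hasCompactSupport_dzb hc l) ((tsupport_dzb_subset κ l).trans hs)
  have hi2 : Integrable fun z => dzb l u z * κ z :=
    integrable_mul_test hV (continuousOn_dzb hV hu l) hκ.continuous hc hs
  have h5 : ∫ z, (dzb l u z * κ z + u z * dzb l κ z) = 0 := by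
    rw [← h3]
    exact integral_congr_ae (Eventually.of_forall fun z => (h4 z).symm)
  rw [integral_add hi2 hi1] at h5
  exact eq_neg_of_add_eq_zero_right h5

/-- `L²` version on an open set, all functions in `L²`. -/
theorem lim_L2 {V : Set (Cm n)} (hV : IsOpen V) {u : ℕ → Cm n → ℂ}
    (hu : ∀ j, ContDiffOn ℝ 1 (u j) V) (hm : ∀ j, MemLp (u j) 2 (volume.restrict V))
    (hc : ∀ ε : ℝ≥0∞, 0 < ε → ∃ N, ∀ j, N ≤ j → ∀ k, N ≤ k →
      eLpNorm (u j - u k) 2 (volume.restrict V) < ε)
    (hd : ∀ l, Tendsto (fun j => eLpNorm (dzb l (u j)) 2 (volume.restrict V)) atTop (𝓝 0)) :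
    ∃ f : Cm n → ℂ, DifferentiableOn ℂ f V ∧
      Tendsto (fun j => eLpNorm (u j - f) 2 (volume.restrict V)) atTop (𝓝 0) := by
  -- the limit in `L²`
  have hcau : CauchySeq fun j => (hm j).toLp (u j) := by
    rw [EMetric.cauchySeq_iff]
    intro ε hε
    obtain ⟨N, hN⟩ := hc ε hε
    refine ⟨N, fun j hj k hk => ?_⟩
    rw [Lp.edist_toLp_toLp]
    exact hN j hj k hk
  obtain ⟨g', hg'⟩ := cauchySeq_tendsto_of_complete hcau
  obtain ⟨g, hgm, hlim⟩ : ∃ g : Cm n → ℂ, MemLp g 2 (volume.restrict V) ∧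
      Tendsto (fun j => eLpNorm (u j - g) 2 (volume.restrict V)) atTop (𝓝 0) := by
    refine ⟨g', Lp.memLp g', ?_⟩
    have h1 := (Lp.tendsto_Lp_iff_tendsto_eLpNorm'' u hm g' (Lp.memLp g')).1 (by
      rw [Lp.toLp_coeFn]; exact hg')
    exact h1
  -- weak holomorphy
  have hloc : LocallyIntegrableOn g V volume :=
    locallyIntegrableOn_of_locallyIntegrable_restrict (hgm.locallyIntegrable (by norm_num))
  have hw : ∀ κ : Cm n → ℂ, ContDiff ℝ ∞ κ → HasCompactSupport κ → tsupport κ ⊆ V → ∀ l,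
      ∫ z, g z * dzb l κ z = 0 := by
    intro κ hκ hκc hκs l
    -- restriction to `V`
    have hr1 : ∀ a : Cm n → ℂ, ∫ z, a z * dzb l κ z = ∫ z in V, a z * dzb l κ z := by
      intro a
      refine (setIntegral_eq_integral_of_forall_compl_eq_zero fun z hz => ?_).symm
      rw [dzb_eq_zero_of_notMem_tsupport l fun h => hz (hκs h), mul_zero]
    have hr2 : ∀ a : Cm n → ℂ, ∫ z, a z * κ z = ∫ z in V, a z * κ z := by
      intro a
      refine (setIntegral_eq_integral_of_forall_compl_eq_zero fun z hz => ?_).symm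
      rw [image_eq_zero_of_notMem_tsupport fun h => hz (hκs h), mul_zero]
    have hκm : MemLp κ 2 (volume.restrict V) :=
      (hκ.continuous.memLp_of_hasCompactSupport hκc).restrict V
    have hκm' : MemLp (dzb l κ) 2 (volume.restrict V) :=
      ((continuous_dzb_test hκ l).memLp_of_hasCompactSupport (hasCompactSupport_dzb hκc l)).restrict V
    have key : ∀ j, ‖∫ z in V, g z * dzb l κ z‖ₑ ≤
        eLpNorm (u j - g) 2 (volume.restrict V) * eLpNorm (dzb l κ) 2 (volume.restrict V) +
        eLpNorm (dzb l (u j)) 2 (volume.restrict V) * eLpNorm κ 2 (volume.restrict V) := by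
      intro j
      have h1 : ∫ z in V, g z * dzb l κ z =
          - (∫ z in V, (u j - g) z * dzb l κ z) + - ∫ z in V, dzb l (u j) z * κ z := by
        have h2 := integral_mul_dzb hV (hu j) hκ hκc hκs l
        rw [hr1, hr2] at h2
        have i1 : Integrable (fun z => u j z * dzb l κ z) (volume.restrict V) :=
          (integrable_mul_test hV (hu j).continuousOn (continuous_dzb_test hκ l)
            (hasCompactSupport_dzb hκc l) ((tsupport_dzb_subset κ l).trans hκs)).restrict
        have i2 : Integrable (fun z => g z * dzb l κ z) (volume.restrict V) :=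
          hgm.integrable_mul hκm'
        have h3 : ∫ z in V, (u j - g) z * dzb l κ z =
            (∫ z in V, u j z * dzb l κ z) - ∫ z in V, g z * dzb l κ z := by
          rw [← integral_sub i1 i2]
          apply integral_congr_ae
          filter_upwards with z
          simp only [Pi.sub_apply]; ring
        rw [h3, h2]; ring
      rw [h1]
      refine (enorm_add_le _ _).trans ?_
      rw [enorm_neg, enorm_neg]
      refine add_le_add (enorm_integral_mul_le ((hm j).1.sub hgm.1) hκm'.1)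
        (enorm_integral_mul_le ?_ hκm.1)
      exact (continuousOn_dzb hV (hu j) l).aestronglyMeasurable hV.measurableSet
    have hlim2 : Tendsto (fun j => eLpNorm (u j - g) 2 (volume.restrict V) *
        eLpNorm (dzb l κ) 2 (volume.restrict V) +
        eLpNorm (dzb l (u j)) 2 (volume.restrict V) * eLpNorm κ 2 (volume.restrict V))
        atTop (𝓝 0) := by
      have h1 := ENNReal.Tendsto.mul_const (b := eLpNorm (dzb l κ) 2 (volume.restrict V)) hlim
        (Or.inr hκm'.2.ne)
      have h2 := ENNReal.Tendsto.mul_const (b := eLpNorm κ 2 (volume.restrict V)) (hd l)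
        (Or.inr hκm.2.ne)
      simpa using h1.add h2
    have h0 : ‖∫ z in V, g z * dzb l κ z‖ₑ ≤ 0 := ge_of_tendsto' hlim2 key
    rw [hr1]
    simpa using h0
  obtain ⟨f, hf, hfe⟩ := Vale.Agent.P300.L2.weyl_local hV hloc hw
  refine ⟨f, hf, ?_⟩
  refine hlim.congr fun j => ?_
  apply eLpNorm_congr_ae
  filter_upwards [hfe] with z hz
  simp [hz]

theorem tendsto_eLpNorm_two_iff {ι : Type*} {l : Filter ι} {μ : Measure (Cm n)}
    (f : ι → Cm n → ℂ) :
    Tendsto (fun j => eLpNorm (f j) 2 μ) l (𝓝 0) ↔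
      Tendsto (fun j => ∫⁻ z, ‖f j z‖ₑ ^ 2 ∂μ) l (𝓝 0) := by
  constructor
  · intro h
    have h1 := ENNReal.Tendsto.pow (n := 2) h
    simp only [eLpNorm_two_sq] at h1
    simpa using h1
  · intro h
    have h1 := (ENNReal.continuous_rpow_const (y := (1 / 2 : ℝ))).tendsto 0 |>.comp h
    rw [ENNReal.zero_rpow_of_pos (by norm_num)] at h1
    refine h1.congr fun j => ?_
    rw [Function.comp_apply, ← eLpNorm_two_sq, ← ENNReal.rpow_natCast, ← ENNReal.rpow_mul]
    norm_num

theorem lintegral_finset_biUnion_le {ι : Type*} (t : Finset ι) (s : ι → Set (Cm n))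
    (f : Cm n → ℝ≥0∞) :
    ∫⁻ z in ⋃ i ∈ t, s i, f z ≤ ∑ i ∈ t, ∫⁻ z in s i, f z := by
  classical
  induction t using Finset.induction_on with
  | empty => simp
  | insert a t ha ih =>
    rw [Finset.set_biUnion_insert, Finset.sum_insert ha]
    exact (lintegral_union_le _ _ _).trans (add_le_add le_rfl ih)

theorem memLp_two_of_isCompact {K : Set (Cm n)} (hK : IsCompact K) {f : Cm n → ℂ}
    (hf : ContinuousOn f K) : MemLp f 2 (volume.restrict K) := by
  obtain ⟨C, hC⟩ := hK.exists_bound_of_continuousOn hf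
  haveI : IsFiniteMeasure (volume.restrict K) := ⟨by
    rw [Measure.restrict_apply_univ]; exact hK.measure_lt_top⟩
  refine MemLp.of_bound (hf.aestronglyMeasurable hK.measurableSet) C ?_
  rw [ae_restrict_iff' hK.measurableSet]
  exact Eventually.of_forall hC

/-- **(L1)**: an `L²_loc` Cauchy sequence of `C¹` functions with `∂̄ u_j → 0` in `L²_loc` converges
in `L²_loc` to a holomorphic function. -/
theorem lim_loc {U : Set (Cm n)} (hU : IsOpen U) {u : ℕ → Cm n → ℂ}
    (hu : ∀ j, ContDiffOn ℝ 1 (u j) U)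
    (hc : ∀ K ⊆ U, IsCompact K → ∀ ε : ℝ≥0∞, 0 < ε → ∃ N, ∀ j, N ≤ j → ∀ k, N ≤ k →
      ∫⁻ z in K, ‖u j z - u k z‖ₑ ^ 2 ≤ ε)
    (hd : ∀ l, ∀ K ⊆ U, IsCompact K →
      Tendsto (fun j => ∫⁻ z in K, ‖dzb l (u j) z‖ₑ ^ 2) atTop (𝓝 0)) :
    ∃ f : Cm n → ℂ, DifferentiableOn ℂ f U ∧ ∀ K ⊆ U, IsCompact K →
      Tendsto (fun j => ∫⁻ z in K, ‖u j z - f z‖ₑ ^ 2) atTop (𝓝 0) := by
  have h1 : ∀ z₀ : U, ∃ (R : ℝ) (f : Cm n → ℂ), 0 < R ∧ ball (z₀ : Cm n) R ⊆ U ∧
      DifferentiableOn ℂ f (ball (z₀ : Cm n) R) ∧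
      Tendsto (fun j => eLpNorm (u j - f) 2 (volume.restrict (ball (z₀ : Cm n) R)))
        atTop (𝓝 0) := by
    rintro ⟨z₀, hz₀⟩
    obtain ⟨r, hr, hrU⟩ := Metric.isOpen_iff.1 hU z₀ hz₀
    have hR : 0 < r / 2 := by positivity
    have h3 : closedBall z₀ (r / 2) ⊆ U := (closedBall_subset_ball (by linarith)).trans hrU
    have h3' : ball z₀ (r / 2) ⊆ U := ball_subset_closedBall.trans h3
    have hK : IsCompact (closedBall z₀ (r / 2)) := isCompact_closedBall _ _
    obtain ⟨f, hf, hfe⟩ := lim_L2 (V := ball z₀ (r / 2)) isOpen_ball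
      (u := u) (fun j => (hu j).mono h3') (fun j => by
        have h4 : MemLp (u j) 2 (volume.restrict (closedBall z₀ (r / 2))) :=
          memLp_two_of_isCompact hK ((hu j).continuousOn.mono h3)
        exact h4.mono_measure (Measure.restrict_mono ball_subset_closedBall le_rfl)) (by
        intro ε hε
        obtain ⟨ε', hε', hεε⟩ := exists_between hε
        have hε2 : 0 < ε' ^ 2 := by positivity
        obtain ⟨N, hN⟩ := hc _ h3 hK (ε' ^ 2) hε2
        refine ⟨N, fun j hj k hk => lt_of_le_of_lt ?_ hεε⟩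
        have h5 : eLpNorm (u j - u k) 2 (volume.restrict (ball z₀ (r / 2))) ^ 2 ≤ ε' ^ 2 := by
          rw [eLpNorm_two_sq]
          refine le_trans ?_ (hN j hj k hk)
          exact lintegral_mono_set ball_subset_closedBall
        exact (ENNReal.pow_le_pow_left_iff (by norm_num)).1 h5) (by
        intro l
        rw [tendsto_eLpNorm_two_iff]
        refine tendsto_of_tendsto_of_tendsto_of_le_of_le tendsto_const_nhds (hd l _ h3 hK)
          (fun _ => zero_le) fun j => ?_
        exact lintegral_mono_set ball_subset_closedBall)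
    exact ⟨r / 2, f, hR, h3', hf, hfe⟩
  choose R f hR hRU hf hfe using h1
  have hagree : ∀ a b : U, Set.EqOn (f a) (f b) (ball (a : Cm n) (R a) ∩ ball (b : Cm n) (R b)) := by
    intro a b
    have hO : IsOpen (ball (a : Cm n) (R a) ∩ ball (b : Cm n) (R b)) :=
      isOpen_ball.inter isOpen_ball
    have ha := (hf a).continuousOn.mono
      (Set.inter_subset_left : ball (a : Cm n) (R a) ∩ ball (b : Cm n) (R b) ⊆ _)
    have hb := (hf b).continuousOn.mono
      (Set.inter_subset_right : ball (a : Cm n) (R a) ∩ ball (b : Cm n) (R b) ⊆ _)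
    refine Vale.Agent.P300.L2.eqOn_of_ae (μ := (volume : Measure (Cm n))) hO ha hb ?_
    set W := ball (a : Cm n) (R a) ∩ ball (b : Cm n) (R b) with hW
    have h2 : ∀ j, eLpNorm (f a - f b) 2 (volume.restrict W) ≤
        eLpNorm (u j - f a) 2 (volume.restrict (ball (a : Cm n) (R a))) +
        eLpNorm (u j - f b) 2 (volume.restrict (ball (b : Cm n) (R b))) := by
      intro j
      have huj : AEStronglyMeasurable (u j) (volume.restrict W) :=
        ((hu j).continuousOn.mono (Set.inter_subset_left.trans (hRU a))).aestronglyMeasurable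
          hO.measurableSet
      have hfa := ha.aestronglyMeasurable (μ := volume) hO.measurableSet
      have hfb := hb.aestronglyMeasurable (μ := volume) hO.measurableSet
      have h3 : f a - f b = -(u j - f a) + (u j - f b) := by ring
      rw [h3]
      refine (eLpNorm_add_le (huj.sub hfa).neg (huj.sub hfb) (by norm_num)).trans ?_
      rw [eLpNorm_neg]
      exact add_le_add (eLpNorm_mono_measure _ (Measure.restrict_mono Set.inter_subset_left le_rfl))
        (eLpNorm_mono_measure _ (Measure.restrict_mono Set.inter_subset_right le_rfl))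
    have h3 : eLpNorm (f a - f b) 2 (volume.restrict W) ≤ 0 := by
      have h5 := (hfe a).add (hfe b)
      rw [add_zero] at h5
      exact ge_of_tendsto' h5 h2
    have hfa := ha.aestronglyMeasurable (μ := volume) hO.measurableSet
    have hfb := hb.aestronglyMeasurable (μ := volume) hO.measurableSet
    have h4 := (eLpNorm_eq_zero_iff (hfa.sub hfb) (by norm_num)).1 (le_antisymm h3 zero_le)
    rw [Filter.EventuallyEq, ae_restrict_iff' hO.measurableSet] at h4
    filter_upwards [h4] with z hz hzW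
    exact sub_eq_zero.1 (hz hzW)
  classical
  let F : Cm n → ℂ := fun z => if hz : z ∈ U then f ⟨z, hz⟩ z else 0
  have hFe : ∀ z₀ : U, Set.EqOn F (f z₀) (ball (z₀ : Cm n) (R z₀)) := by
    intro z₀ z hz
    have hzU : z ∈ U := hRU z₀ hz
    have hF : F z = f ⟨z, hzU⟩ z := by
      simp only [F, hzU, dif_pos]
    rw [hF]
    exact hagree ⟨z, hzU⟩ z₀ ⟨mem_ball_self (hR ⟨z, hzU⟩), hz⟩
  refine ⟨F, ?_, ?_⟩
  · intro z hz
    have h2 : DifferentiableAt ℂ (f ⟨z, hz⟩) z :=
      (hf ⟨z, hz⟩).differentiableAt (isOpen_ball.mem_nhds (mem_ball_self (hR ⟨z, hz⟩)))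
    refine (h2.congr_of_eventuallyEq ?_).differentiableWithinAt
    filter_upwards [isOpen_ball.mem_nhds (mem_ball_self (hR ⟨z, hz⟩))] with w hw
    exact hFe ⟨z, hz⟩ hw
  · intro K hKU hK
    obtain ⟨t, ht⟩ := hK.elim_finite_subcover (fun z₀ : U => ball (z₀ : Cm n) (R z₀))
      (fun _ => isOpen_ball) (fun z hz => Set.mem_iUnion.2 ⟨⟨z, hKU hz⟩, mem_ball_self (hR _)⟩)
    have h2 : ∀ j, ∫⁻ z in K, ‖u j z - F z‖ₑ ^ 2 ≤
        ∑ z₀ ∈ t, ∫⁻ z in ball (z₀ : Cm n) (R z₀), ‖u j z - f z₀ z‖ₑ ^ 2 := by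
      intro j
      refine (lintegral_mono_set ht).trans ?_
      refine (lintegral_finset_biUnion_le _ _ _).trans (le_of_eq ?_)
      refine Finset.sum_congr rfl fun z₀ _ => ?_
      refine setLIntegral_congr_fun measurableSet_ball fun z hz => ?_
      simp only [hFe z₀ hz]
    refine tendsto_of_tendsto_of_tendsto_of_le_of_le tendsto_const_nhds ?_
      (fun _ => zero_le) h2
    have h3 : ∀ z₀ ∈ t, Tendsto
        (fun j => ∫⁻ z in ball (z₀ : Cm n) (R z₀), ‖u j z - f z₀ z‖ₑ ^ 2) atTop (𝓝 0) := by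
      intro z₀ _
      exact (tendsto_eLpNorm_two_iff (fun j => u j - f z₀)).1 (hfe z₀)
    simpa using tendsto_finset_sum t h3

end Vale.Agent.P272.KOD
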