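import Vale.Agent.P272.KOD.LimL1

/-!
P272, Stage 4, block KOD-LIM (L2) (helper806): values and first derivatives of holomorphic
functions are controlled by local `L²` norms, with explicit constants.
-/

set_option linter.all false

open MeasureTheory Filter Topology Metric
open scoped ENNReal NNReal ContDiff

namespace Vale.Agent.P272.KOD

open Vale.Agent.P272.K

variable {n : ℕ}

/-- Volume of the polydisc (ball of the sup norm). -/
theorem volume_ball_Cm (a : Cm n) {r : ℝ} (hr : 0 < r) :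
    volume (ball a r) = ENNReal.ofReal ((Real.pi * r ^ 2) ^ n) := by
  rw [MeasureTheory.volume_pi_ball _ hr]
  simp only [Complex.volume_ball, Finset.prod_const, Finset.card_univ, Fintype.card_fin]
  rw [ENNReal.ofReal_pow (by positivity), ENNReal.ofReal_mul (by positivity),
    ENNReal.ofReal_pow hr.le, mul_comm]
  congr 2
  rw [ENNReal.ofReal]
  congr 1
  exact (Real.toNNReal_of_nonneg Real.pi_pos.le).symm ▸ rfl

/-- **(L2), values.** -/
theorem enorm_sq_le_L2 {f : Cm n → ℂ} {a : Cm n} {r : ℝ} (hr : 0 < r)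
    (hf : DifferentiableOn ℂ f (ball a r)) :
    ‖f a‖ₑ ^ 2 ≤ ENNReal.ofReal (((Real.pi * r ^ 2) ^ n)⁻¹) * ∫⁻ w in ball a r, ‖f w‖ₑ ^ 2 := by
  have h1 := Vale.Agent.P271.H408.enorm_sq_mul_volume_le hf
  rw [volume_ball_Cm a hr] at h1
  have hpos : 0 < (Real.pi * r ^ 2) ^ n := by positivity
  calc ‖f a‖ₑ ^ 2 = ENNReal.ofReal (((Real.pi * r ^ 2) ^ n)⁻¹) *
        (‖f a‖ₑ ^ 2 * ENNReal.ofReal ((Real.pi * r ^ 2) ^ n)) := by
        rw [mul_left_comm, ← ENNReal.ofReal_mul (by positivity), inv_mul_cancel₀ hpos.ne',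
          ENNReal.ofReal_one, mul_one]
    _ ≤ _ := by gcongr

/-- The same bound with real integrals. -/
theorem norm_sq_le_L2 {f : Cm n → ℂ} {a : Cm n} {r : ℝ} (hr : 0 < r)
    (hf : DifferentiableOn ℂ f (ball a r))
    (hi : IntegrableOn (fun w => ‖f w‖ ^ 2) (ball a r)) :
    ‖f a‖ ^ 2 ≤ ((Real.pi * r ^ 2) ^ n)⁻¹ * ∫ w in ball a r, ‖f w‖ ^ 2 := by
  have h1 := enorm_sq_le_L2 hr hf
  have h2 : ∫⁻ w in ball a r, ‖f w‖ₑ ^ 2 = ENNReal.ofReal (∫ w in ball a r, ‖f w‖ ^ 2) := by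
    rw [ofReal_integral_eq_lintegral_ofReal hi (Eventually.of_forall fun w => by positivity)]
    refine lintegral_congr fun w => ?_
    rw [ENNReal.ofReal_pow (norm_nonneg _), ofReal_norm_eq_enorm]
  rw [h2, ← ofReal_norm_eq_enorm, ← ENNReal.ofReal_pow (norm_nonneg _),
    ← ENNReal.ofReal_mul (by positivity)] at h1
  refine (ENNReal.ofReal_le_ofReal_iff ?_).1 h1
  exact mul_nonneg (by positivity) (integral_nonneg fun w => by positivity)

/-- The complex partial derivative as a derivative along a complex line. -/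
theorem hasDerivAt_line {f : Cm n → ℂ} {a : Cm n} (hf : DifferentiableAt ℂ f a) (k : Fin n) :
    HasDerivAt (fun t : ℂ => f (a + t • Pi.single k (1 : ℂ))) (dz k f a) 0 := by
  have h1 : HasDerivAt (fun t : ℂ => a + t • (Pi.single k (1 : ℂ) : Cm n)) (Pi.single k 1) 0 := by
    simpa using ((hasDerivAt_id (0 : ℂ)).smul_const (Pi.single k (1 : ℂ) : Cm n)).const_add a
  have h2 : HasFDerivAt f (fderiv ℂ f a) (a + (0 : ℂ) • (Pi.single k (1 : ℂ) : Cm n)) := by
    rw [zero_smul, add_zero]; exact hf.hasFDerivAt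
  have h3 := h2.comp_hasDerivAt (0 : ℂ) h1
  have h4 : dz k f a = fderiv ℂ f a (Pi.single k 1) := Vale.Agent.P300.L2.dz_holo hf
  rw [h4]
  exact h3

/-- **(L2), first derivatives.** -/
theorem enorm_dz_sq_le_L2 {f : Cm n → ℂ} {a : Cm n} {r : ℝ} (hr : 0 < r)
    (hf : DifferentiableOn ℂ f (ball a r)) (k : Fin n) :
    ‖dz k f a‖ₑ ^ 2 ≤ ENNReal.ofReal ((2 / r) ^ 2 * ((Real.pi * (r / 2) ^ 2) ^ n)⁻¹) *
      ∫⁻ w in ball a r, ‖f w‖ₑ ^ 2 := by
  set I := ∫⁻ w in ball a r, ‖f w‖ₑ ^ 2 with hI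
  have hc : 0 < (2 / r) ^ 2 * ((Real.pi * (r / 2) ^ 2) ^ n)⁻¹ := by positivity
  rcases eq_or_ne I ⊤ with hT | hT
  · rw [hT, ENNReal.mul_top (by simpa using hc)]
    exact le_top
  set c := ((Real.pi * (r / 2) ^ 2) ^ n)⁻¹ with hcdef
  have hc0 : 0 < c := by positivity
  have hnorm : ∀ t ∈ sphere (0 : ℂ) (r / 2),
      ‖f (a + t • Pi.single k (1 : ℂ))‖ ≤ Real.sqrt (c * I.toReal) := by
    intro t ht
    have ht' : ‖t‖ = r / 2 := by simpa using ht
    set b : Cm n := a + t • Pi.single k (1 : ℂ) with hb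
    have hsub : ball b (r / 2) ⊆ ball a r := by
      apply ball_subset_ball'
      have : dist b a ≤ r / 2 := by
        rw [hb, dist_eq_norm, add_sub_cancel_left, norm_smul, ht', Pi.norm_single]
        simp
      linarith
    have h1 := enorm_sq_le_L2 (half_pos hr) (hf.mono hsub)
    have h2 : ‖f b‖ₑ ^ 2 ≤ ENNReal.ofReal c * I :=
      h1.trans (mul_le_mul_right (lintegral_mono_set hsub) _)
    rw [← ofReal_norm_eq_enorm, ← ENNReal.ofReal_pow (norm_nonneg _), ← ENNReal.ofReal_toReal hT,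
      ← ENNReal.ofReal_mul hc0.le] at h2
    have h3 := (ENNReal.ofReal_le_ofReal_iff (by positivity)).1 h2
    exact Real.le_sqrt_of_sq_le h3
  have hsub2 : closedBall (0 : ℂ) (r / 2) ⊆
      (fun t : ℂ => a + t • (Pi.single k (1 : ℂ) : Cm n)) ⁻¹' ball a r := by
    intro t ht
    have ht' : ‖t‖ ≤ r / 2 := by simpa using ht
    rw [Set.mem_preimage, mem_ball, dist_eq_norm, add_sub_cancel_left, norm_smul, Pi.norm_single]
    simp only [norm_one, mul_one]
    linarith
  have hd : DifferentiableOn ℂ (fun t : ℂ => f (a + t • (Pi.single k (1 : ℂ) : Cm n)))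
      (closedBall 0 (r / 2)) := by
    refine hf.comp ?_ hsub2
    exact ((differentiable_id.smul_const _).const_add a).differentiableOn
  have h4 := Complex.norm_deriv_le_of_forall_mem_sphere_norm_le (half_pos hr)
    (DifferentiableOn.diffContOnCl (by rwa [closure_ball _ (half_pos hr).ne'])) hnorm
  rw [(hasDerivAt_line (hf.differentiableAt (isOpen_ball.mem_nhds (mem_ball_self hr))) k).deriv]
    at h4
  have h5 : ‖dz k f a‖ ^ 2 ≤ (2 / r) ^ 2 * c * I.toReal := by
    have h6 : ‖dz k f a‖ ^ 2 ≤ (Real.sqrt (c * I.toReal) / (r / 2)) ^ 2 := by gcongr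
    refine h6.trans (le_of_eq ?_)
    rw [div_pow, Real.sq_sqrt (by positivity)]
    field_simp
  rw [← ofReal_norm_eq_enorm, ← ENNReal.ofReal_pow (norm_nonneg _), ← ENNReal.ofReal_toReal hT,
    ← ENNReal.ofReal_mul hc.le]
  exact ENNReal.ofReal_le_ofReal h5

end Vale.Agent.P272.KOD
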