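import Mathlib.LinearAlgebra.Projectivization.Basic
import Vale.Agent.P272.KOD.Soft2

/-! Stage 4 of P272, soft part 3: from the pointwise properties to one exponent and finitely
many forms, and the literal definition of ampleness of the canonical bundle. -/

open scoped Manifold ContDiff Topology
open Set Vale.Agent.P272.K

noncomputable section

namespace Vale.Agent.P272.KOD

variable {n m : ℕ} {X : Type*} [TopologicalSpace X] [ChartedSpace (Cm n) X]

section level
variable [CompactSpace X] [IsManifold 𝓘(ℂ, Cm n) ω X]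

lemma exists_jet_level (hJ : ∀ x : X, ∃ m, 1 ≤ m ∧ JetP n m x) :
    ∃ m, 1 ≤ m ∧ ∀ x : X, JetP n m x := by
  have key : ∃ m, 1 ≤ m ∧ ∀ x ∈ (univ : Set X), JetP n m x := by
    refine isCompact_univ.induction_on (p := fun W : Set X => ∃ m, 1 ≤ m ∧ ∀ x ∈ W, JetP n m x)
      ⟨1, le_rfl, by simp⟩ ?_ ?_ ?_
    · rintro s t hst ⟨m, hm, h⟩
      exact ⟨m, hm, fun x hx => h x (hst hx)⟩
    · rintro s t ⟨a, ha, hs⟩ ⟨b, hb, ht⟩
      refine ⟨a * b, Nat.mul_pos ha hb, ?_⟩
      rintro x (hx | hx)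
      · exact (hs x hx).pow hb
      · rw [mul_comm]
        exact (ht x hx).pow ha
    · intro x _
      obtain ⟨m, hm, s0, s, hj⟩ := hJ x
      refine ⟨{y | At (cht n x) y ∧ Jet s0 s (cht n x) y}, ?_, m, hm, ?_⟩
      · exact mem_nhdsWithin_of_mem_nhds (jet_nhds (at_cht x) hj)
      · rintro y ⟨h1, h2⟩
        exact (jetP_iff h1).mpr ⟨s0, s, h2⟩
  obtain ⟨m, hm, h⟩ := key
  exact ⟨m, hm, fun x => h x (mem_univ x)⟩

omit [IsManifold 𝓘(ℂ, Cm n) ω X] in
lemma exists_sep_level (hJ : ∀ x : X, ∃ m, 1 ≤ m ∧ JetP n m x)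
    (hS : ∀ x y : X, x ≠ y → ∃ m, 1 ≤ m ∧ SepP n m x y) :
    ∃ m, 1 ≤ m ∧ ∀ x y : X, x ≠ y → SepP n m x y := by
  have key : ∃ m, 1 ≤ m ∧ ∀ p ∈ (univ : Set (X × X)), p.1 ≠ p.2 → SepP n m p.1 p.2 := by
    refine isCompact_univ.induction_on
      (p := fun W : Set (X × X) => ∃ m, 1 ≤ m ∧ ∀ p ∈ W, p.1 ≠ p.2 → SepP n m p.1 p.2)
      ⟨1, le_rfl, by simp⟩ ?_ ?_ ?_
    · rintro s t hst ⟨m, hm, h⟩
      exact ⟨m, hm, fun x hx => h x (hst hx)⟩
    · rintro s t ⟨a, ha, hs⟩ ⟨b, hb, ht⟩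
      refine ⟨a * b, Nat.mul_pos ha hb, ?_⟩
      rintro p (hp | hp) hne
      · exact (hs p hp hne).pow hb
      · rw [mul_comm]
        exact (ht p hp hne).pow ha
    · rintro ⟨x, y⟩ _
      by_cases hxy : x = y
      · subst hxy
        obtain ⟨m, hm, s0, s, hj⟩ := hJ x
        refine ⟨_, mem_nhdsWithin_of_mem_nhds (jet_sep (at_cht x) hj), m, hm, ?_⟩
        intro p hp hne
        obtain ⟨i, hi⟩ := hp hne
        exact ⟨_, _, hi⟩
      · obtain ⟨m, hm, s, t, hst⟩ := hS x y hxy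
        refine ⟨_, mem_nhdsWithin_of_mem_nhds (sep_nhds s t hst), m, hm, ?_⟩
        intro p hp _
        exact ⟨s, t, hp⟩
  obtain ⟨m, hm, h⟩ := key
  exact ⟨m, hm, fun x y hxy => h (x, y) (mem_univ _) hxy⟩

lemma exists_level (hJ : ∀ x : X, ∃ m, 1 ≤ m ∧ JetP n m x)
    (hS : ∀ x y : X, x ≠ y → ∃ m, 1 ≤ m ∧ SepP n m x y) :
    ∃ m, 1 ≤ m ∧ (∀ x : X, JetP n m x) ∧ ∀ x y : X, x ≠ y → SepP n m x y := by
  obtain ⟨a, ha, h1⟩ := exists_jet_level hJ
  obtain ⟨b, hb, h2⟩ := exists_sep_level hJ hS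
  refine ⟨a * b, Nat.mul_pos ha hb, fun x => (h1 x).pow hb, fun x y hxy => ?_⟩
  rw [mul_comm]
  exact (h2 x y hxy).pow ha

/-- Finitely many forms with the jets at all points. -/
lemma exists_jet_finite (hJ : ∀ x : X, JetP n m x) :
    ∃ F : Set (PSec n m X), F.Finite ∧ ∀ x : X, ∃ s0 ∈ F, ∃ s : Fin n → PSec n m X,
      (∀ i, s i ∈ F) ∧ Jet s0 s (cht n x) x := by
  have key : ∃ F : Set (PSec n m X), F.Finite ∧ ∀ x ∈ (univ : Set X), ∃ s0 ∈ F,
      ∃ s : Fin n → PSec n m X, (∀ i, s i ∈ F) ∧ Jet s0 s (cht n x) x := by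
    refine isCompact_univ.induction_on
      (p := fun W : Set X => ∃ F : Set (PSec n m X), F.Finite ∧ ∀ x ∈ W, ∃ s0 ∈ F,
      ∃ s : Fin n → PSec n m X, (∀ i, s i ∈ F) ∧ Jet s0 s (cht n x) x)
      ⟨∅, finite_empty, by simp⟩ ?_ ?_ ?_
    · rintro s t hst ⟨F, hF, h⟩
      exact ⟨F, hF, fun x hx => h x (hst hx)⟩
    · rintro s t ⟨F, hF, hs⟩ ⟨G, hG, ht⟩
      refine ⟨F ∪ G, hF.union hG, ?_⟩
      rintro x (hx | hx)
      · obtain ⟨s0, h0, s, h1, h2⟩ := hs x hx
        exact ⟨s0, Or.inl h0, s, fun i => Or.inl (h1 i), h2⟩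
      · obtain ⟨s0, h0, s, h1, h2⟩ := ht x hx
        exact ⟨s0, Or.inr h0, s, fun i => Or.inr (h1 i), h2⟩
    · intro x _
      obtain ⟨s0, s, hj⟩ := hJ x
      refine ⟨{y | At (cht n x) y ∧ Jet s0 s (cht n x) y}, ?_, insert s0 (range s),
        (finite_range s).insert s0, ?_⟩
      · exact mem_nhdsWithin_of_mem_nhds (jet_nhds (at_cht x) hj)
      · rintro y ⟨h1, h2⟩
        exact ⟨s0, mem_insert _ _, s, fun i => mem_insert_of_mem _ (mem_range_self i),
          h2.change h1 (at_cht y)⟩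
  obtain ⟨F, hF, h⟩ := key
  exact ⟨F, hF, fun x => h x (mem_univ x)⟩

omit [IsManifold 𝓘(ℂ, Cm n) ω X] in
/-- Finitely many forms separating all pairs of points. -/
lemma exists_sep_finite (hJ : ∀ x : X, JetP n m x) (hS : ∀ x y : X, x ≠ y → SepP n m x y) :
    ∃ F : Set (PSec n m X), F.Finite ∧ ∀ x y : X, x ≠ y → ∃ s ∈ F, ∃ t ∈ F,
      s.val x * t.val y - s.val y * t.val x ≠ 0 := by
  have key : ∃ F : Set (PSec n m X), F.Finite ∧ ∀ p ∈ (univ : Set (X × X)), p.1 ≠ p.2 →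
      ∃ s ∈ F, ∃ t ∈ F, s.val p.1 * t.val p.2 - s.val p.2 * t.val p.1 ≠ 0 := by
    refine isCompact_univ.induction_on
      (p := fun W : Set (X × X) => ∃ F : Set (PSec n m X), F.Finite ∧ ∀ p ∈ W, p.1 ≠ p.2 →
      ∃ s ∈ F, ∃ t ∈ F, s.val p.1 * t.val p.2 - s.val p.2 * t.val p.1 ≠ 0)
      ⟨∅, finite_empty, by simp⟩ ?_ ?_ ?_
    · rintro s t hst ⟨F, hF, h⟩
      exact ⟨F, hF, fun x hx => h x (hst hx)⟩
    · rintro s t ⟨F, hF, hs⟩ ⟨G, hG, ht⟩
      refine ⟨F ∪ G, hF.union hG, ?_⟩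
      rintro x (hx | hx) hne
      · obtain ⟨s0, h0, s, h1, h2⟩ := hs x hx hne
        exact ⟨s0, Or.inl h0, s, Or.inl h1, h2⟩
      · obtain ⟨s0, h0, s, h1, h2⟩ := ht x hx hne
        exact ⟨s0, Or.inr h0, s, Or.inr h1, h2⟩
    · rintro ⟨x, y⟩ _
      by_cases hxy : x = y
      · subst hxy
        obtain ⟨s0, s, hj⟩ := hJ x
        refine ⟨_, mem_nhdsWithin_of_mem_nhds (jet_sep (at_cht x) hj), insert s0 (range s),
          (finite_range s).insert s0, ?_⟩
        intro p hp hne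
        obtain ⟨i, hi⟩ := hp hne
        exact ⟨s i, mem_insert_of_mem _ (mem_range_self i), s0, mem_insert _ _, hi⟩
      · obtain ⟨s, t, hst⟩ := hS x y hxy
        refine ⟨_, mem_nhdsWithin_of_mem_nhds (sep_nhds s t hst), {s, t},
          (finite_singleton t).insert s, ?_⟩
        intro p hp _
        exact ⟨s, mem_insert _ _, t, mem_insert_of_mem _ (mem_singleton _), hp⟩
  obtain ⟨F, hF, h⟩ := key
  exact ⟨F, hF, fun x y hxy => h (x, y) (mem_univ _) hxy⟩

end level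

/-- Injectivity of the derivative of the ratios passes to a family containing the given one. -/
lemma Jet.mono {ι κ : Type*} [Fintype ι] [Fintype κ] {s0 : PSec n m X}
    {s : ι → PSec n m X} {t : κ → PSec n m X} {e : Chart n X} {x : X}
    (h : At e x) (hj : Jet s0 s e x) (g : ι → κ) (hg : ∀ i, t (g i) = s i) :
    Jet s0 t e x := by
  refine ⟨hj.1, ?_⟩
  have ht := (ratio_analyticAt (s := t) h hj.1).differentiableAt.hasFDerivAt
  rw [hasFDerivAt_pi'] at ht
  have hs : HasFDerivAt (ratio s0 s e) (ContinuousLinearMap.pi fun i =>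
      (ContinuousLinearMap.proj (g i)).comp (fderiv ℂ (ratio s0 t e) (e x))) (e x) := by
    rw [hasFDerivAt_pi']
    intro i
    have := ht (g i)
    change HasFDerivAt (fun w => (s i).coeff e w / s0.coeff e w) _ _
    rw [← hg i]
    exact this
  have h2 := hj.2
  rw [hs.fderiv] at h2
  intro v w hvw
  apply h2
  funext i
  exact congrFun hvw (g i)

/-- The form in the denominator may be changed. -/
lemma Jet.denom {ι : Type*} [Fintype ι] {s : ι → PSec n m X} {e : Chart n X} {x : X}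
    (h : At e x) {i0 i1 : ι} (hj : Jet (s i0) s e x) (h1 : (s i1).coeff e (e x) ≠ 0) :
    Jet (s i1) s e x := by
  refine ⟨h1, ?_⟩
  have d1 := (ratio_analyticAt (s := s) h h1).differentiableAt.hasFDerivAt
  set A := fderiv ℂ (ratio (s i1) s e) (e x) with hA
  rw [hasFDerivAt_pi'] at d1
  have hne : ratio (s i1) s e (e x) i0 ≠ 0 := div_ne_zero hj.1 h1
  have h3 := ((s i1).holo e x h).continuousAt.eventually_ne h1
  have hs : HasFDerivAt (ratio (s i0) s e) (ContinuousLinearMap.pi fun j =>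
      ratio (s i1) s e (e x) j • (-(ratio (s i1) s e (e x) i0 ^ 2)⁻¹ •
        ((ContinuousLinearMap.proj i0).comp A : Cm n →L[ℂ] ℂ)) +
      (ratio (s i1) s e (e x) i0)⁻¹ • ((ContinuousLinearMap.proj j).comp A : Cm n →L[ℂ] ℂ))
      (e x) := by
    rw [hasFDerivAt_pi]
    intro j
    have h4 := (hasDerivAt_inv hne).comp_hasFDerivAt (e x) (d1 i0)
    have h5 := (d1 j).mul h4
    refine h5.congr_of_eventuallyEq ?_
    filter_upwards [h3] with w hw
    change (s j).coeff e w / (s i0).coeff e w = (s j).coeff e w / (s i1).coeff e w *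
      ((s i0).coeff e w / (s i1).coeff e w)⁻¹
    rw [inv_div, div_mul_div_cancel₀ hw]
  have hinj := hj.2
  rw [hs.fderiv] at hinj
  intro v w hvw
  apply hinj
  funext j
  have e1 := congrFun hvw j
  have e2 := congrFun hvw i0
  simp only [ContinuousLinearMap.coe_pi', add_apply,
    smul_apply, ContinuousLinearMap.coe_comp, Function.comp_apply,
    ContinuousLinearMap.proj_apply, e1, e2]

/-- The Wirtinger derivative of a holomorphic function. -/
lemma dz_of_diff {f : Cm n → ℂ} {z : Cm n} (h : DifferentiableAt ℂ f z) (j : Fin n) :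
    dz j f z = fderiv ℂ f z (Pi.single j 1) := by
  have h1 : fderiv ℝ f z = (fderiv ℂ f z).restrictScalars ℝ := h.fderiv_restrictScalars ℝ
  have h2 : (Pi.single j Complex.I : Cm n) = Complex.I • Pi.single j (1 : ℂ) := by
    rw [← Pi.single_smul]
    simp
  unfold dz
  rw [h1]
  simp only [ContinuousLinearMap.coe_restrictScalars']
  rw [h2, map_smul, smul_eq_mul]
  linear_combination (-(fderiv ℂ f z (Pi.single j 1)) / 2) * Complex.I_mul_I

/-- The frozen form of the condition on the one-jets implies the form used here. -/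
lemma jetP_of_jetAt [IsManifold 𝓘(ℂ, Cm n) ω X] {x : X} (h : JetAt n m x) : JetP n m x := by
  obtain ⟨s, e, he, h0, hd⟩ := h
  rw [jetP_iff he]
  refine ⟨s 0, fun i => s i.succ, h0, ?_⟩
  have ha := (ratio_analyticAt (s := fun i : Fin n => s i.succ) he h0).differentiableAt.hasFDerivAt
  set L := fderiv ℂ (ratio (s 0) (fun i : Fin n => s i.succ) e) (e x) with hL
  rw [hasFDerivAt_pi'] at ha
  set M : Matrix (Fin n) (Fin n) ℂ := Matrix.of fun i j : Fin n =>
    dz j (fun z => (s i.succ).coeff e z / (s 0).coeff e z) (e x) with hM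
  have hMij : ∀ i j, M i j = L (Pi.single j 1) i := by
    intro i j
    have h3 : fderiv ℂ (fun z => (s i.succ).coeff e z / (s 0).coeff e z) (e x) =
      (ContinuousLinearMap.proj i).comp L := (ha i).fderiv
    have h4 : dz j (fun z => (s i.succ).coeff e z / (s 0).coeff e z) (e x) =
      fderiv ℂ (fun z => (s i.succ).coeff e z / (s 0).coeff e z) (e x) (Pi.single j 1) :=
      dz_of_diff (ha i).differentiableAt j
    rw [hM, Matrix.of_apply, h4, h3]
    rfl
  have hMv : ∀ v : Cm n, M.mulVec v = L v := by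
    intro v
    funext i
    have h5 := congrFun (LinearMap.pi_apply_eq_sum_univ (L : Cm n →ₗ[ℂ] (Fin n → ℂ)) v) i
    have h6 : ∀ j : Fin n, (fun k : Fin n => if j = k then (1 : ℂ) else 0) = Pi.single j 1 := by
      intro j
      funext k
      rw [Pi.single_apply]
      exact if_congr eq_comm rfl rfl
    simp only [h6, Finset.sum_apply, Pi.smul_apply, smul_eq_mul] at h5
    change _ = (L : Cm n →ₗ[ℂ] (Fin n → ℂ)) v i
    rw [h5, Matrix.mulVec, dotProduct]
    refine Finset.sum_congr rfl fun j _ => ?_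
    rw [hMij, mul_comm]
    rfl
  have hu : IsUnit M := (Matrix.isUnit_iff_isUnit_det _).mpr (isUnit_iff_ne_zero.mpr hd)
  have hinj := Matrix.mulVec_injective_of_isUnit hu
  intro v w hvw
  apply hinj
  rw [hMv, hMv]
  exact hvw

lemma sepP_of_sepAt {x y : X} (h : SepAt n m x y) : SepP n m x y := by
  obtain ⟨s, t, e, e', he, he', hst⟩ := h
  exact ⟨s, t, (minor_ne_iff s t he he').mp hst⟩

/-- **Soft part of Stage 4**: pointwise one-jets and pointwise separation of pairs, with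
exponents depending on the points, give ampleness. -/
theorem soft [CompactSpace X] [IsManifold 𝓘(ℂ, Cm n) ω X]
    (hJ : ∀ x : X, ∃ m, 1 ≤ m ∧ JetP n m x)
    (hS : ∀ x y : X, x ≠ y → ∃ m, 1 ≤ m ∧ SepP n m x y) : AmpleCanonical n X := by
  obtain ⟨m, hm, hJ', hS'⟩ := exists_level hJ hS
  obtain ⟨F, hF, hF'⟩ := exists_jet_finite hJ'
  obtain ⟨G, hG, hG'⟩ := exists_sep_finite hJ' hS'
  obtain ⟨k, f, -, hf⟩ := ((hF.union hG).insert (pfZero n m X)).fin_param
  obtain ⟨i00, _⟩ : pfZero n m X ∈ range f := by rw [hf]; exact mem_insert _ _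
  obtain ⟨N, rfl⟩ : ∃ N, k = N + 1 := ⟨k - 1, by have := i00.2; omega⟩
  have hFf : ∀ s ∈ F, ∃ i, f i = s := by
    intro s hs
    have : s ∈ range f := by rw [hf]; exact mem_insert_of_mem _ (Or.inl hs)
    exact this
  have hGf : ∀ s ∈ G, ∃ i, f i = s := by
    intro s hs
    have : s ∈ range f := by rw [hf]; exact mem_insert_of_mem _ (Or.inr hs)
    exact this
  have hjet : ∀ x : X, ∃ i0, Jet (f i0) f (cht n x) x := by
    intro x
    obtain ⟨s0, h0, s, h1, h2⟩ := hF' x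
    obtain ⟨i0, rfl⟩ := hFf s0 h0
    choose g hg using fun i => hFf (s i) (h1 i)
    exact ⟨i0, h2.mono (at_cht x) g hg⟩
  have h0 : ∀ x : X, (fun i => (f i).val x) ≠ 0 := by
    intro x h
    obtain ⟨i0, hi0⟩ := hjet x
    exact (val_ne_iff (f i0) (at_cht x)).mpr hi0.1 (congrFun h i0)
  refine ⟨m, hm, N, f, h0, ?_, ?_⟩
  · intro x y hxy
    by_contra hne
    obtain ⟨s, hs, t, ht, hst⟩ := hG' x y hne
    obtain ⟨i, rfl⟩ := hGf s hs
    obtain ⟨j, rfl⟩ := hGf t ht
    have h1 := (Projectivization.mk_eq_mk_iff' ℂ _ _ (h0 x) (h0 y)).mp hxy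
    obtain ⟨a, ha⟩ := h1
    have hi := congrFun ha i
    have hj := congrFun ha j
    simp only [Pi.smul_apply, smul_eq_mul] at hi hj
    apply hst
    rw [← hi, ← hj]
    ring
  · intro x i hi v hv
    obtain ⟨i0, hi0⟩ := hjet x
    have h1 := hi0.denom (at_cht x) ((val_ne_iff (f i) (at_cht x)).mp hi)
    have ha := (ratio_analyticAt (s := f) (at_cht x) h1.1).differentiableAt.hasFDerivAt
    rw [hasFDerivAt_pi'] at ha
    apply h1.2
    rw [map_zero]
    funext j
    have h3 := (ha j).fderiv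
    have h4 := hv j
    unfold dratio at h4
    change fderiv ℂ (fun z => ratio (f i) f (cht n x) z j) ((cht n x) x) v = 0 at h4
    rw [h3] at h4
    exact h4

/-- Block K5 of Stage 4. -/
theorem softStmt : SoftStmt := by
  intro n X _ _ _ _ _ _ hJ hS
  refine soft (fun x => ?_) (fun x y hxy => ?_)
  · obtain ⟨m, hm, h⟩ := hJ x
    exact ⟨m, hm, jetP_of_jetAt h⟩
  · obtain ⟨m, hm, h⟩ := hS x y hxy
    exact ⟨m, hm, sepP_of_sepAt h⟩

end Vale.Agent.P272.KOD
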