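import Vale.Agent.P272.KOD.StepA
import Vale.Agent.P272.KOD.Loc
import Vale.Agent.P272.KOD.KeyOf

/-! Stage 4: one averaging step, and the key estimate. -/

open scoped Manifold ContDiff ComplexOrder Topology ENNReal ComplexConjugate
open MeasureTheory Filter

set_option linter.all false

noncomputable section

namespace Vale.Agent.P272.KOD

open Vale.Agent.P272.K

/-- One averaging step. -/
theorem step : StepStmt := by
  intro n X _ _ _ _ _ φ C lam hφ hP
  obtain ⟨hlam, hpos⟩ := hP
  obtain ⟨B, hB, hstep⟩ := step_glue C hφ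
  refine ⟨2 / lam + B * (2 / lam), by positivity, fun m hm σ A hA hd => ?_⟩
  have hm0 : (0 : ℝ) < m := by exact_mod_cast hm
  have hφ2 : ∀ i, ∀ z ∈ Metric.closedBall (C.c i) (C.r i), ContDiffAt ℝ 2 (φ (C.e i)) z := by
    intro i z hz
    have h := hφ.smooth _ _ (At.of_target (C.mem i) (C.sub i hz))
    rw [(C.e i).right_inv (C.sub i hz)] at h
    exact h.of_le (by norm_cast)
  have hs2 : ∀ i, ∀ z ∈ Metric.closedBall (C.c i) (C.r i),
      ContDiffAt ℝ 2 (σ.coeff (C.e i)) z := by
    intro i z hz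
    have h := σ.smooth _ _ (At.of_target (C.mem i) (C.sub i hz))
    rw [(C.e i).right_inv (C.sub i hz)] at h
    exact h.of_le (by norm_cast)
  have hex : ∀ i, ∃ F : Cm n → ℂ, DifferentiableOn ℂ F (C.V i) ∧
      nrm n m (φ (C.e i)) (C.V i) (fun z => F z - σ.coeff (C.e i) z) ≤
        ENNReal.ofReal (2 / ((m : ℝ) * lam) * A) := fun i =>
    loc_nrm (C.pos i) (hφ2 i) hlam (hpos i) hm (hs2 i) hA (hd i)
  choose F hF hn using hex
  have hA' : 0 ≤ 2 / ((m : ℝ) * lam) * A := by positivity
  obtain ⟨h1, h2⟩ := hstep m σ F hF _ hA' hn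
  have e1 : 2 / ((m : ℝ) * lam) * A ≤ (2 / lam + B * (2 / lam)) / m * A := by
    have : (2 / lam + B * (2 / lam)) / m * A =
        2 / ((m : ℝ) * lam) * A + B * (2 / ((m : ℝ) * lam) * A) := by
      field_simp
    rw [this]
    have : 0 ≤ B * (2 / ((m : ℝ) * lam) * A) := by positivity
    linarith
  have e2 : B * (2 / ((m : ℝ) * lam) * A) ≤ (2 / lam + B * (2 / lam)) / m * A := by
    have : (2 / lam + B * (2 / lam)) / m * A =
        2 / ((m : ℝ) * lam) * A + B * (2 / ((m : ℝ) * lam) * A) := by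
      field_simp
    rw [this]
    linarith
  exact ⟨F, glue m C F hF, hF, fun i => (hn i).trans (ENNReal.ofReal_le_ofReal e1),
    fun i => (h1 i).trans (ENNReal.ofReal_le_ofReal e2),
    fun i => (h2 i).trans (ENNReal.ofReal_le_ofReal e2)⟩

/-- **The key estimate.** -/
theorem keyStmt : KeyStmt := key_of_step step

end Vale.Agent.P272.KOD
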