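import Vale.Agent.P272.KOD.Peak
import Vale.Agent.P272.KOD.Soft3
import Vale.Agent.P272.KOD.Step

/-!
# P272, stage 4: Kodaira's embedding theorem for the canonical bundle

If `K_X` carries a metric of positive curvature, then sections of some power of `K_X` define a
holomorphic embedding of `X` into a projective space.
-/

open scoped Manifold ContDiff ComplexOrder

noncomputable section

namespace Vale.Agent.P272.KOD

open Vale.Agent.P272.K

/-- **Kodaira's embedding theorem** for the canonical bundle: a compact complex manifold whose
canonical bundle carries a metric of positive curvature has ample canonical bundle. -/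
theorem kodaira (n : ℕ) (X : Type) [TopologicalSpace X] [T2Space X] [CompactSpace X] [Nonempty X]
    [ChartedSpace (Cm n) X] [IsManifold 𝓘(ℂ, Cm n) ω X]
    (hpos : ∃ φ : Chart n X → Cm n → ℝ, IsCanonicalMetric φ ∧
      ∀ e x, At e x → (cHess (φ e) (e x)).PosDef) : AmpleCanonical n X :=
  kodaira_of keyStmt peakStmt softStmt n X hpos

end Vale.Agent.P272.KOD
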