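import Mathlib.LinearAlgebra.Matrix.Gershgorin
import Vale.Agent.P272.KOD.Soft3

/-! Stage 4 of P272: approximately prescribed one-jets and values are enough. -/

open scoped Manifold ContDiff Topology
open Set Vale.Agent.P272.K

noncomputable section

namespace Vale.Agent.P272.KOD

variable {n m : ℕ} {X : Type*} [TopologicalSpace X] [ChartedSpace (Cm n) X]

lemma pi_single_expand (L : Cm n →L[ℂ] (Fin n → ℂ)) (v : Cm n) (i : Fin n) :
    L v i = ∑ j, v j * L (Pi.single j 1) i := by
  have h5 := congrFun (LinearMap.pi_apply_eq_sum_univ (L : Cm n →ₗ[ℂ] (Fin n → ℂ)) v) i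
  have h6 : ∀ j : Fin n, (fun k : Fin n => if j = k then (1 : ℂ) else 0) = Pi.single j 1 := by
    intro j
    funext k
    rw [Pi.single_apply]
    exact if_congr eq_comm rfl rfl
  simp only [h6, Finset.sum_apply, Pi.smul_apply, smul_eq_mul] at h5
  exact h5

lemma pi_single_expand' (L : Cm n →L[ℂ] ℂ) (v : Cm n) :
    L v = ∑ j, v j * L (Pi.single j 1) := by
  have h5 := LinearMap.pi_apply_eq_sum_univ (L : Cm n →ₗ[ℂ] ℂ) v
  have h6 : ∀ j : Fin n, (fun k : Fin n => if j = k then (1 : ℂ) else 0) = Pi.single j 1 := by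
    intro j
    funext k
    rw [Pi.single_apply]
    exact if_congr eq_comm rfl rfl
  simp only [h6, smul_eq_mul] at h5
  exact h5

/-- The internal form of the jet condition implies the frozen one. -/
lemma jetAt_of_jetP {x : X} (h : JetP n m x) : JetAt n m x := by
  obtain ⟨s0, s, h0, hinj⟩ := h
  refine ⟨Fin.cons s0 s, cht n x, at_cht x, h0, ?_⟩
  have ha := (ratio_analyticAt (s := s) (at_cht x) h0).differentiableAt.hasFDerivAt
  set L := fderiv ℂ (ratio s0 s (cht n x)) (cht n x x) with hL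
  rw [hasFDerivAt_pi'] at ha
  set M : Matrix (Fin n) (Fin n) ℂ := Matrix.of fun i j : Fin n =>
    dz j (fun z => ((Fin.cons s0 s : Fin (n + 1) → PSec n m X) i.succ).coeff (cht n x) z /
      ((Fin.cons s0 s : Fin (n + 1) → PSec n m X) 0).coeff (cht n x) z) (cht n x x) with hM
  have hMij : ∀ i j, M i j = L (Pi.single j 1) i := by
    intro i j
    have h3 : fderiv ℂ (fun z => (s i).coeff (cht n x) z / s0.coeff (cht n x) z) (cht n x x) =
      (ContinuousLinearMap.proj i).comp L := (ha i).fderiv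
    have h4 : dz j (fun z => (s i).coeff (cht n x) z / s0.coeff (cht n x) z) (cht n x x) =
      fderiv ℂ (fun z => (s i).coeff (cht n x) z / s0.coeff (cht n x) z) (cht n x x)
        (Pi.single j 1) := dz_of_diff (ha i).differentiableAt j
    change dz j (fun z => (s i).coeff (cht n x) z / s0.coeff (cht n x) z) (cht n x x) = _
    rw [h4, h3]
    rfl
  have hMv : ∀ v : Cm n, M.mulVec v = L v := by
    intro v
    funext i
    rw [pi_single_expand, Matrix.mulVec, dotProduct]
    refine Finset.sum_congr rfl fun j _ => ?_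
    rw [hMij, mul_comm]
  have hi : Function.Injective M.mulVec := by
    intro v w hvw
    apply hinj
    rw [← hMv, ← hMv]
    exact hvw
  have hu : IsUnit M := Matrix.mulVec_injective_iff_isUnit.mp hi
  exact ((Matrix.isUnit_iff_isUnit_det _).mp hu).ne_zero

lemma sepAt_of_sepP {x y : X} (h : SepP n m x y) : SepAt n m x y := by
  obtain ⟨s, t, hst⟩ := h
  exact ⟨s, t, cht n x, cht n y, at_cht x, at_cht y, hst⟩

/-- The matrix of the one-jets at `x`, in the chart `e`, of `n + 1` sections: the entries of the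
row `i` are the value and the derivatives of the section `s i`. -/
def jetMat (s : Fin (n + 1) → PSec n m X) (e : Chart n X) (x : X) :
    Matrix (Fin (n + 1)) (Fin (n + 1)) ℂ :=
  Matrix.of fun i => Fin.cons ((s i).coeff e (e x)) fun j => dz j ((s i).coeff e) (e x)

/-- Linearly independent one-jets. -/
theorem jetAt_of_det [IsManifold 𝓘(ℂ, Cm n) ω X] {s : Fin (n + 1) → PSec n m X} {e : Chart n X}
    {x : X} (h : At e x) (hd : (jetMat s e x).det ≠ 0) : JetAt n m x := by
  apply jetAt_of_jetP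
  apply jetP_of_surj h
  intro a l
  set J := jetMat s e x with hJ
  have hu : IsUnit J.det := isUnit_iff_ne_zero.mpr hd
  set b : Fin (n + 1) → ℂ := Fin.cons a fun j => l (Pi.single j 1) with hb
  set c := Matrix.vecMul b J⁻¹ with hc
  have hcJ : Matrix.vecMul c J = b := by
    rw [hc, Matrix.vecMul_vecMul, Matrix.nonsing_inv_mul _ hu, Matrix.vecMul_one]
  refine ⟨pfSum c s, ?_, ?_⟩
  · have h0 := congrFun hcJ 0
    rw [Matrix.vecMul, dotProduct] at h0
    exact h0
  · have hd1 : ∀ i, HasFDerivAt ((s i).coeff e) (fderiv ℂ ((s i).coeff e) (e x)) (e x) :=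
      fun i => ((s i).holo e x h).differentiableAt.hasFDerivAt
    have hd2 : HasFDerivAt ((pfSum c s).coeff e)
        (∑ i, c i • fderiv ℂ ((s i).coeff e) (e x)) (e x) := by
      have := HasFDerivAt.fun_sum (u := Finset.univ) fun i _ => (hd1 i).const_mul (c i)
      exact this
    rw [hd2.fderiv]
    ext v
    rw [pi_single_expand' l, pi_single_expand']
    refine Finset.sum_congr rfl fun j _ => ?_
    congr 1
    have h0 := congrFun hcJ j.succ
    rw [Matrix.vecMul, dotProduct] at h0
    have h1 : b j.succ = l (Pi.single j 1) := by rw [hb]; simp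
    rw [← h1, ← h0]
    simp only [sum_apply, smul_apply, smul_eq_mul]
    refine Finset.sum_congr rfl fun i _ => ?_
    congr 1
    change _ = dz j ((s i).coeff e) (e x)
    rw [dz_of_diff ((s i).holo e x h).differentiableAt]

/-- Approximately standard one-jets: if the jet matrix is close to the identity matrix. -/
theorem jetAt_of_near [IsManifold 𝓘(ℂ, Cm n) ω X] {s : Fin (n + 1) → PSec n m X} {e : Chart n X}
    {x : X} (h : At e x)
    (hn : ∀ i j, ‖jetMat s e x i j - (1 : Matrix (Fin (n + 1)) (Fin (n + 1)) ℂ) i j‖ <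
      1 / (n + 1 : ℝ)) : JetAt n m x := by
  apply jetAt_of_det h
  apply det_ne_zero_of_sum_row_lt_diag
  intro k
  have hpos : (0 : ℝ) < n + 1 := by positivity
  have hk : 1 - 1 / (n + 1 : ℝ) < ‖jetMat s e x k k‖ := by
    have h1 := hn k k
    rw [Matrix.one_apply_eq] at h1
    have h2 := norm_sub_norm_le (1 : ℂ) (jetMat s e x k k)
    rw [norm_one, norm_sub_rev] at h2
    linarith
  have h3 : ∑ j ∈ Finset.univ.erase k, ‖jetMat s e x k j‖ ≤
      ∑ _j ∈ Finset.univ.erase k, 1 / (n + 1 : ℝ) := by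
    refine Finset.sum_le_sum fun j hj => ?_
    have h1 := hn k j
    rw [Matrix.one_apply_ne (Finset.ne_of_mem_erase hj).symm, sub_zero] at h1
    exact h1.le
  rw [Finset.sum_const, Finset.card_erase_of_mem (Finset.mem_univ k), Finset.card_univ,
    Fintype.card_fin, Nat.add_sub_cancel, nsmul_eq_mul] at h3
  have h4 : (n : ℝ) * (1 / (n + 1 : ℝ)) = 1 - 1 / (n + 1 : ℝ) := by
    field_simp
    ring
  rw [h4] at h3
  linarith

/-- Approximately standard values at two points. -/
theorem sepAt_of_near {s t : PSec n m X} {e e' : Chart n X} {x y : X} (h : At e x) (h' : At e' y)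
    (h1 : ‖s.coeff e (e x) - 1‖ < 1 / 2) (h2 : ‖s.coeff e' (e' y)‖ < 1 / 2)
    (h3 : ‖t.coeff e (e x)‖ < 1 / 2) (h4 : ‖t.coeff e' (e' y) - 1‖ < 1 / 2) :
    SepAt n m x y := by
  refine ⟨s, t, e, e', h, h', ?_⟩
  intro h0
  have a1 : 1 / 2 < ‖s.coeff e (e x)‖ := by
    have := norm_sub_norm_le (1 : ℂ) (s.coeff e (e x))
    rw [norm_one, norm_sub_rev] at this
    linarith
  have a4 : 1 / 2 < ‖t.coeff e' (e' y)‖ := by
    have := norm_sub_norm_le (1 : ℂ) (t.coeff e' (e' y))
    rw [norm_one, norm_sub_rev] at this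
    linarith
  have h5 : ‖s.coeff e (e x)‖ * ‖t.coeff e' (e' y)‖ =
      ‖s.coeff e' (e' y)‖ * ‖t.coeff e (e x)‖ := by
    rw [← norm_mul, ← norm_mul, sub_eq_zero.mp h0]
  have h6 : (1 / 2 : ℝ) * (1 / 2) < ‖s.coeff e (e x)‖ * ‖t.coeff e' (e' y)‖ :=
    mul_lt_mul'' a1 a4 (by norm_num) (by norm_num)
  have h7 : ‖s.coeff e' (e' y)‖ * ‖t.coeff e (e x)‖ ≤ (1 / 2 : ℝ) * (1 / 2) :=
    mul_le_mul h2.le h3.le (norm_nonneg _) (by norm_num)
  linarith

end Vale.Agent.P272.KOD
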