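import Vale.Agent.P272.KOD.LimL2
import Vale.Agent.P272.KOD.Defs

/-!
P272, Stage 4, block K4a (PL3) (helper806): the `1`-jet at `c`, in the gauge `exp (-k h / 2)`, of a
holomorphic function with exponentially small weighted norm is small, if `φ ≤ Re h + A |z - c|²`.
-/

open scoped ContDiff Topology ENNReal
open MeasureTheory Filter Metric

set_option linter.all false

noncomputable section

namespace Vale.Agent.P272.KOD

open Vale.Agent.P272.K

variable {n : ℕ}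

theorem le_of_sq_le_sq_pos {a b : ℝ} (h : a ^ 2 ≤ b ^ 2) (hb : 0 < b) : a ≤ b :=
  abs_le_of_sq_le_sq' h hb.le |>.2

theorem peak_eval_lint {φ : Cm n → ℝ} {h : Cm n → ℂ} {c : Cm n} {δ A b : ℝ}
    (hAδ : A * δ ^ 2 ≤ b / 2) (hA : 0 ≤ A)
    (hup : ∀ z ∈ ball c δ, φ z - (h z).re ≤ A * ‖z - c‖ ^ 2) (k : ℕ) (u : Cm n → ℂ) :
    ∫⁻ z in ball c δ, ‖u z * Complex.exp (-(k * h z / 2))‖ₑ ^ 2 ≤
      ENNReal.ofReal (Real.exp (b / 2 * k)) * nrm n k φ (ball c δ) u := by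
  unfold nrm
  rw [← lintegral_const_mul' _ _ ENNReal.ofReal_ne_top]
  refine setLIntegral_mono_ae' measurableSet_ball (Eventually.of_forall fun z hz => ?_)
  rw [← ofReal_norm_eq_enorm, ← ENNReal.ofReal_pow (norm_nonneg _),
    ← ENNReal.ofReal_mul (Real.exp_nonneg _)]
  refine ENNReal.ofReal_le_ofReal ?_
  rw [norm_mul, Complex.norm_exp, mul_pow, ← Real.exp_nat_mul]
  have h1 : ((2 : ℕ) : ℝ) * (-((k : ℂ) * h z / 2)).re = -(k : ℝ) * (h z).re := by
    have : ((k : ℂ) * h z / 2).re = (k : ℝ) * (h z).re / 2 := by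
      rw [Complex.div_ofNat_re]
      simp
    rw [Complex.neg_re, this]
    push_cast
    ring
  rw [h1]
  have h2 : -(k : ℝ) * (h z).re ≤ b / 2 * k + -(k : ℝ) * φ z := by
    have h3 : φ z - (h z).re ≤ b / 2 := by
      refine (hup z hz).trans (le_trans ?_ hAδ)
      have h4 : ‖z - c‖ ≤ δ := by
        have := mem_ball.1 hz
        rw [dist_eq_norm] at this
        exact this.le
      gcongr
    have hk : (0 : ℝ) ≤ k := Nat.cast_nonneg k
    nlinarith [mul_le_mul_of_nonneg_left h3 hk]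
  calc ‖u z‖ ^ 2 * Real.exp (-(k : ℝ) * (h z).re)
      ≤ ‖u z‖ ^ 2 * Real.exp (b / 2 * k + -(k : ℝ) * φ z) := by gcongr
    _ = _ := by rw [Real.exp_add]; ring

/-- **(PL3)** -/
theorem peak_eval {φ : Cm n → ℝ} {h : Cm n → ℂ} {c : Cm n} {r A B b eps : ℝ} (hr : 0 < r)
    (hA : 0 ≤ A) (hb : 0 < b) (he : 0 < eps) (hh : Differentiable ℂ h)
    (hup : ∀ z ∈ ball c r, φ z - (h z).re ≤ A * ‖z - c‖ ^ 2) :
    ∃ k0 : ℕ, ∀ k : ℕ, k0 ≤ k → ∀ u : Cm n → ℂ, DifferentiableOn ℂ u (ball c r) →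
      nrm n k φ (ball c r) u ≤ ENNReal.ofReal (B * Real.exp (-b * k)) →
      ‖u c * Complex.exp (-(k * h c / 2))‖ ≤ eps ∧
      ∀ j, ‖dz j (fun z => u z * Complex.exp (-(k * h z / 2))) c‖ ≤ eps := by
  -- a smaller radius
  obtain ⟨δ, hδ0, hδr, hAδ⟩ : ∃ δ : ℝ, 0 < δ ∧ δ ≤ r ∧ A * δ ^ 2 ≤ b / 2 := by
    have ht : Tendsto (fun δ : ℝ => A * δ ^ 2) (𝓝[>] 0) (𝓝 0) := by
      have : Continuous fun δ : ℝ => A * δ ^ 2 := by fun_prop
      have := this.tendsto 0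
      simp only [ne_eq, OfNat.ofNat_ne_zero, not_false_eq_true, zero_pow, mul_zero] at this
      exact this.mono_left nhdsWithin_le_nhds
    have h1 : ∀ᶠ δ in 𝓝[>] (0 : ℝ), A * δ ^ 2 ≤ b / 2 :=
      (ht.eventually (gt_mem_nhds (half_pos hb))).mono fun _ h => le_of_lt h
    have h2 : ∀ᶠ δ in 𝓝[>] (0 : ℝ), δ < r := nhdsWithin_le_nhds (gt_mem_nhds hr)
    have h3 : ∀ᶠ δ in 𝓝[>] (0 : ℝ), 0 < δ := self_mem_nhdsWithin
    obtain ⟨δ, a, b', c'⟩ := (h1.and (h2.and h3)).exists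
    exact ⟨δ, c', b'.le, a⟩
  have hsub : ball c δ ⊆ ball c r := ball_subset_ball hδr
  set C1 : ℝ := ((Real.pi * δ ^ 2) ^ n)⁻¹ with hC1
  set C2 : ℝ := (2 / δ) ^ 2 * ((Real.pi * (δ / 2) ^ 2) ^ n)⁻¹ with hC2
  have hC1p : 0 < C1 := by positivity
  have hC2p : 0 < C2 := by positivity
  set D : ℝ := (C1 + C2) * max B 0 with hD
  have hD0 : 0 ≤ D := by positivity
  -- the choice of `k0`
  obtain ⟨k0, hk0⟩ : ∃ k0 : ℕ, ∀ k : ℕ, k0 ≤ k → D * Real.exp (-(b / 2) * k) ≤ eps ^ 2 := by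
    have ht : Tendsto (fun k : ℕ => D * Real.exp (-(b / 2) * k)) atTop (𝓝 0) := by
      have h1 : Tendsto (fun k : ℕ => b / 2 * (k : ℝ)) atTop atTop :=
        (tendsto_natCast_atTop_atTop).const_mul_atTop (half_pos hb)
      have h2 := (Real.tendsto_exp_neg_atTop_nhds_zero.comp h1).const_mul D
      rw [mul_zero] at h2
      refine h2.congr fun k => ?_
      simp only [Function.comp, neg_mul]
    have := ht.eventually (gt_mem_nhds (show (0 : ℝ) < eps ^ 2 by positivity))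
    obtain ⟨k0, hk0⟩ := eventually_atTop.1 this
    exact ⟨k0, fun k hk => (hk0 k hk).le⟩
  refine ⟨k0, fun k hk u hu hn => ?_⟩
  set v : Cm n → ℂ := fun z => u z * Complex.exp (-(k * h z / 2)) with hv
  have hvd : DifferentiableOn ℂ v (ball c δ) := by
    refine (hu.mono hsub).mul ?_
    apply Differentiable.differentiableOn
    have h1 : Differentiable ℂ fun z => (k : ℂ) * h z / 2 := by
      have h2 : (fun z => (k : ℂ) * h z / 2) = fun z => ((k : ℂ) / 2) * h z := by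
        funext z; ring
      rw [h2]
      exact hh.const_mul _
    exact h1.neg.cexp
  have hI : ∫⁻ z in ball c δ, ‖v z‖ₑ ^ 2 ≤
      ENNReal.ofReal (max B 0 * Real.exp (-(b / 2) * k)) := by
    refine (peak_eval_lint hAδ hA (fun z hz => hup z (hsub hz)) k u).trans ?_
    have h1 : nrm n k φ (ball c δ) u ≤ ENNReal.ofReal (max B 0 * Real.exp (-b * k)) := by
      refine (lintegral_mono_set hsub).trans (hn.trans (ENNReal.ofReal_le_ofReal ?_))
      gcongr
      exact le_max_left _ _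
    calc ENNReal.ofReal (Real.exp (b / 2 * k)) * nrm n k φ (ball c δ) u
        ≤ ENNReal.ofReal (Real.exp (b / 2 * k)) *
          ENNReal.ofReal (max B 0 * Real.exp (-b * k)) := by gcongr
      _ = ENNReal.ofReal (max B 0 * Real.exp (-(b / 2) * k)) := by
          rw [← ENNReal.ofReal_mul (Real.exp_nonneg _)]
          congr 1
          rw [mul_left_comm, ← Real.exp_add]
          congr 2
          ring
  have hE : 0 ≤ Real.exp (-(b / 2) * k) := Real.exp_nonneg _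
  have key : ∀ (w : ℂ) (C : ℝ), 0 ≤ C → C ≤ C1 + C2 →
      ‖w‖ₑ ^ 2 ≤ ENNReal.ofReal C * ∫⁻ z in ball c δ, ‖v z‖ₑ ^ 2 → ‖w‖ ≤ eps := by
    intro w C hC hCC hw
    have h1 : ‖w‖ₑ ^ 2 ≤ ENNReal.ofReal (C * (max B 0 * Real.exp (-(b / 2) * k))) := by
      rw [ENNReal.ofReal_mul hC]
      exact hw.trans (mul_le_mul_right hI _)
    rw [← ofReal_norm_eq_enorm, ← ENNReal.ofReal_pow (norm_nonneg _)] at h1
    have h2 := (ENNReal.ofReal_le_ofReal_iff (by positivity)).1 h1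
    have h3 : ‖w‖ ^ 2 ≤ eps ^ 2 := by
      refine h2.trans (le_trans ?_ (hk0 k hk))
      rw [hD, ← mul_assoc]
      gcongr
    exact le_of_sq_le_sq_pos h3 he
  constructor
  · exact key (v c) C1 hC1p.le (by linarith) (enorm_sq_le_L2 hδ0 hvd)
  · intro j
    exact key (dz j v c) C2 hC2p.le (by linarith) (enorm_dz_sq_le_L2 hδ0 hvd j)

end Vale.Agent.P272.KOD
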