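import Vale.Agent.P272.K.Inv.Chart
import Vale.Agent.P272.KOD.Defs

/-!
P272, Stage 4, block K4b, chart-change half (PX1) (helper806): the weighted pointwise norm of `∂̄σ`
of a smooth section of `K_X^m` supported in a compact subset of a chart, computed in another chart.
The constant does not depend on `m` nor on the section.
-/

open scoped Manifold ContDiff ComplexOrder Topology
open MeasureTheory Filter

set_option linter.all false

noncomputable section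

namespace Vale.Agent.P272.KOD

open Vale.Agent.P272.K

variable {n m : ℕ} {X : Type*} [TopologicalSpace X] [ChartedSpace (Cm n) X]

/-- `e.symm '' K` is compact. -/
theorem isCompact_symm_image {e : Chart n X} {K : Set (Cm n)} (hK : IsCompact K)
    (hs : K ⊆ e.target) : IsCompact (e.symm '' K) :=
  hK.image_of_continuousOn (e.continuousOn_symm.mono hs)

/-- A section which vanishes off a closed set `S` has zero `∂̄` at points off `S`. -/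
theorem dzb_coeff_eq_zero {σ : SSec n m X} {S : Set X} (hS : IsClosed S)
    (hσ : ∀ e x, At e x → x ∉ S → σ.coeff e (e x) = 0) {e : Chart n X} {x : X} (h : At e x)
    (hx : x ∉ S) (l : Fin n) : dzb l (σ.coeff e) (e x) = 0 := by
  have h1 : σ.coeff e =ᶠ[𝓝 (e x)] fun _ => 0 := by
    have h2 : ∀ᶠ z in 𝓝 (e x), e.symm z ∈ Sᶜ := by
      have := (e.continuousAt_symm h.mem_target).eventually
        (hS.isOpen_compl.mem_nhds (by rw [h.left_inv]; exact hx))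
      exact this
    filter_upwards [h2, h.nhds_target] with z hz hzt
    have h3 := hσ e (e.symm z) (At.of_target h.1 hzt) hz
    rwa [e.right_inv hzt] at h3
  rw [dzb_congr h1, dzb_const]

variable [IsManifold 𝓘(ℂ, Cm n) ω X]

theorem jacM_contAt {e e' : Chart n X} {x : X} (h : At e x) (h' : At e' x) (p i : Fin n) :
    ContinuousAt (fun y => jacM e e' y p i) x := by
  have h1 : ContinuousAt (fun w : Cm n => jacM e e' (e.symm w) p i) (e x) :=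
    (jacM_holo h h' p i).continuousAt
  have h2 : ContinuousAt (fun y => jacM e e' (e.symm (e y)) p i) x :=
    ContinuousAt.comp (f := e) (g := fun w : Cm n => jacM e e' (e.symm w) p i) h1
      (e.continuousAt h.2)
  refine h2.congr ?_
  filter_upwards [e.open_source.mem_nhds h.2] with y hy
  rw [e.left_inv hy]

/-- The Jacobian matrices of a change of charts are bounded on compact sets. -/
theorem exists_jac_bound [T2Space X] {e₀ e₁ : Chart n X} (h₀ : e₀ ∈ atlas (Cm n) X)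
    (h₁ : e₁ ∈ atlas (Cm n) X) {K₀ K₁ : Set (Cm n)} (hK₀ : IsCompact K₀) (hs₀ : K₀ ⊆ e₀.target)
    (hK₁ : IsCompact K₁) (hs₁ : K₁ ⊆ e₁.target) :
    ∃ C : ℝ, 0 ≤ C ∧ ∀ x ∈ e₁.symm '' K₁ ∩ e₀.symm '' K₀,
      ∑ l, ∑ p, ‖jacM e₁ e₀ x p l‖ ^ 2 ≤ C := by
  have hS : IsCompact (e₁.symm '' K₁ ∩ e₀.symm '' K₀) :=
    (isCompact_symm_image hK₁ hs₁).inter (isCompact_symm_image hK₀ hs₀)
  have hc : ContinuousOn (fun x => ∑ l, ∑ p, ‖jacM e₁ e₀ x p l‖ ^ 2)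
      (e₁.symm '' K₁ ∩ e₀.symm '' K₀) := by
    rintro x ⟨⟨a, ha, rfl⟩, ⟨b, hb, hbx⟩⟩
    have hx1 : At e₁ (e₁.symm a) := At.of_target h₁ (hs₁ ha)
    have hx0 : At e₀ (e₁.symm a) := by
      rw [← hbx]; exact At.of_target h₀ (hs₀ hb)
    refine ContinuousAt.continuousWithinAt ?_
    refine tendsto_finset_sum _ fun l _ => tendsto_finset_sum _ fun p _ => ?_
    exact ((jacM_contAt hx1 hx0 p l).norm.pow 2)
  obtain ⟨C, hC⟩ := hS.exists_bound_of_continuousOn hc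
  refine ⟨max C 0, le_max_right _ _, fun x hx => ?_⟩
  exact (le_abs_self _).trans ((hC x hx).trans (le_max_left _ _))

/-- `∂̄` of the coefficient of a section in two charts. -/
theorem dzb_coeff_change {σ : SSec n m X} {e₀ e₁ : Chart n X} {x : X} (h₁ : At e₁ x)
    (h₀ : At e₀ x) (l : Fin n) :
    dzb l (σ.coeff e₁) (e₁ x) =
      (∑ p, dzb p (σ.coeff e₀) (e₀ x) * (starRingEnd ℂ) (jacM e₁ e₀ x p l)) *
        (jacM e₁ e₀ x).det ^ m := by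
  have h2 : σ.coeff e₁ =ᶠ[𝓝 (e₁ x)] fun z =>
      σ.coeff e₀ (e₀ (e₁.symm z)) * (jacM e₁ e₀ (e₁.symm z)).det ^ m := by
    filter_upwards [h₁.nhds_at h₀] with z hz
    have := σ.change e₁ e₀ (e₁.symm z) hz.2.1 hz.2.2
    rwa [e₁.right_inv hz.1] at this
  have hτ : DifferentiableAt ℂ (fun z => e₀ (e₁.symm z)) (e₁ x) :=
    transition_differentiableAt h₁ h₀
  have hτx : e₀ (e₁.symm (e₁ x)) = e₀ x := by rw [h₁.left_inv]
  have hf : DifferentiableAt ℝ (σ.coeff e₀) (e₀ (e₁.symm (e₁ x))) := by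
    rw [hτx]; exact (σ.smooth e₀ x h₀).differentiableAt (by simp)
  have hJ : DifferentiableAt ℂ (fun z => (jacM e₁ e₀ (e₁.symm z)).det ^ m) (e₁ x) :=
    ((jacM_det_holo h₁ h₀).differentiableAt (by simp)).pow m
  have hfτ : DifferentiableAt ℝ (fun z => σ.coeff e₀ (e₀ (e₁.symm z))) (e₁ x) :=
    hf.comp (e₁ x) (hτ.restrictScalars ℝ)
  rw [dzb_congr h2, dzb_mul hfτ (hJ.restrictScalars ℝ), dzb_of_holo hJ, mul_zero, add_zero,
    dzb_comp_holo hf hτ]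
  simp only [hτx, h₁.left_inv]
  rfl

/-- Cauchy-Schwarz for the matrix-vector product. -/
theorem sum_sq_mulVec_le (a : Fin n → ℂ) (M : Fin n → Fin n → ℂ) :
    ∑ l, ‖∑ p, a p * (starRingEnd ℂ) (M p l)‖ ^ 2 ≤ (∑ l, ∑ p, ‖M p l‖ ^ 2) * ∑ p, ‖a p‖ ^ 2 := by
  rw [Finset.sum_mul]
  refine Finset.sum_le_sum fun l _ => ?_
  have h1 : ‖∑ p, a p * (starRingEnd ℂ) (M p l)‖ ≤ ∑ p, ‖a p‖ * ‖M p l‖ := by
    refine (norm_sum_le _ _).trans (Finset.sum_le_sum fun p _ => ?_)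
    rw [norm_mul, RCLike.norm_conj]
  calc ‖∑ p, a p * (starRingEnd ℂ) (M p l)‖ ^ 2 ≤ (∑ p, ‖a p‖ * ‖M p l‖) ^ 2 := by gcongr
    _ ≤ (∑ p, ‖a p‖ ^ 2) * ∑ p, ‖M p l‖ ^ 2 := Finset.sum_mul_sq_le_sq_mul_sq _ _ _
    _ = _ := mul_comm _ _

/-- The weights cancel the determinants. -/
theorem exp_weight_change {φ : Chart n X → Cm n → ℝ} (hφ : IsCanonicalMetric φ)
    {e₀ e₁ : Chart n X} {x : X} (h₁ : At e₁ x) (h₀ : At e₀ x) (m : ℕ) :
    ‖(jacM e₁ e₀ x).det ^ m‖ ^ 2 * Real.exp (-(m : ℝ) * φ e₁ (e₁ x)) =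
      Real.exp (-(m : ℝ) * φ e₀ (e₀ x)) := by
  have hd : 0 < ‖(jacM e₁ e₀ x).det‖ ^ 2 := by
    have := norm_pos_iff.2 (jacM_det_ne_zero h₁ h₀)
    positivity
  rw [hφ.change e₁ e₀ x h₁ h₀, mul_add, Real.exp_add, norm_pow, ← pow_mul, mul_comm m 2, pow_mul]
  have h2 : Real.exp (-(m : ℝ) * Real.log (‖(jacM e₁ e₀ x).det‖ ^ 2)) =
      ((‖(jacM e₁ e₀ x).det‖ ^ 2) ^ m)⁻¹ := by
    rw [neg_mul, Real.exp_neg, ← Real.log_pow, Real.exp_log (by positivity)]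
  rw [h2]
  field_simp

/-- The weighted squared norm of the value of a section does not depend on the chart. -/
theorem weight_val_change {φ : Chart n X → Cm n → ℝ} (hφ : IsCanonicalMetric φ)
    {c : Chart n X → Cm n → ℂ} {e₀ e₁ : Chart n X} {x : X} (h₁ : At e₁ x) (h₀ : At e₀ x) {m : ℕ}
    (hc : c e₁ (e₁ x) = c e₀ (e₀ x) * (jacM e₁ e₀ x).det ^ m) :
    ‖c e₁ (e₁ x)‖ ^ 2 * Real.exp (-(m : ℝ) * φ e₁ (e₁ x)) =
      ‖c e₀ (e₀ x)‖ ^ 2 * Real.exp (-(m : ℝ) * φ e₀ (e₀ x)) := by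
  rw [hc, norm_mul, mul_pow, mul_assoc, exp_weight_change hφ h₁ h₀]

/-- Pointwise comparison of the weighted norms of `∂̄σ` in two charts. -/
theorem dbar_change_le {φ : Chart n X → Cm n → ℝ} (hφ : IsCanonicalMetric φ)
    {σ : SSec n m X} {e₀ e₁ : Chart n X} {x : X} (h₁ : At e₁ x) (h₀ : At e₀ x) :
    (∑ l, ‖dzb l (σ.coeff e₁) (e₁ x)‖ ^ 2) * Real.exp (-(m : ℝ) * φ e₁ (e₁ x)) ≤
      (∑ l, ∑ p, ‖jacM e₁ e₀ x p l‖ ^ 2) *
        ((∑ p, ‖dzb p (σ.coeff e₀) (e₀ x)‖ ^ 2) * Real.exp (-(m : ℝ) * φ e₀ (e₀ x))) := by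
  have h2 : ∑ l, ‖dzb l (σ.coeff e₁) (e₁ x)‖ ^ 2 =
      (∑ l, ‖∑ p, dzb p (σ.coeff e₀) (e₀ x) * (starRingEnd ℂ) (jacM e₁ e₀ x p l)‖ ^ 2) *
        ‖(jacM e₁ e₀ x).det ^ m‖ ^ 2 := by
    rw [Finset.sum_mul]
    refine Finset.sum_congr rfl fun l _ => ?_
    rw [dzb_coeff_change h₁ h₀, norm_mul, mul_pow]
  rw [h2, mul_assoc, exp_weight_change hφ h₁ h₀, ← mul_assoc]
  gcongr
  exact sum_sq_mulVec_le _ _

/-- **(PX1), pointwise**: a section supported in a compact subset of the chart `e₀`, with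
`|∂̄σ|² exp (-mφ) ≤ B` in this chart, satisfies such a bound in every other chart. -/
theorem dbar_le [T2Space X] {φ : Chart n X → Cm n → ℝ} (hφ : IsCanonicalMetric φ)
    {e₀ e₁ : Chart n X} (h₀ : e₀ ∈ atlas (Cm n) X) (h₁ : e₁ ∈ atlas (Cm n) X)
    {K₀ K₁ : Set (Cm n)} (hK₀ : IsCompact K₀) (hs₀ : K₀ ⊆ e₀.target)
    (hK₁ : IsCompact K₁) (hs₁ : K₁ ⊆ e₁.target) :
    ∃ C : ℝ, 0 ≤ C ∧ ∀ (m : ℕ) (σ : SSec n m X) (B : ℝ), 0 ≤ B →
      (∀ e x, At e x → x ∉ e₀.symm '' K₀ → σ.coeff e (e x) = 0) →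
      (∀ z ∈ K₀, (∑ l, ‖dzb l (σ.coeff e₀) z‖ ^ 2) * Real.exp (-(m : ℝ) * φ e₀ z) ≤ B) →
      ∀ z ∈ K₁, (∑ l, ‖dzb l (σ.coeff e₁) z‖ ^ 2) * Real.exp (-(m : ℝ) * φ e₁ z) ≤ C * B := by
  obtain ⟨C, hC0, hC⟩ := exists_jac_bound h₀ h₁ hK₀ hs₀ hK₁ hs₁
  refine ⟨C, hC0, fun m σ B hB hσ hb z hz => ?_⟩
  have hx1 : At e₁ (e₁.symm z) := At.of_target h₁ (hs₁ hz)
  have hzz : e₁ (e₁.symm z) = z := e₁.right_inv (hs₁ hz)
  by_cases hx : e₁.symm z ∈ e₀.symm '' K₀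
  · obtain ⟨w, hw, hwx⟩ := hx
    have hx0 : At e₀ (e₁.symm z) := by
      rw [← hwx]; exact At.of_target h₀ (hs₀ hw)
    have hw' : e₀ (e₁.symm z) = w := by rw [← hwx, e₀.right_inv (hs₀ hw)]
    have h2 := dbar_change_le (m := m) hφ (σ := σ) hx1 hx0
    rw [hzz] at h2
    refine h2.trans ?_
    have h3 := hC _ ⟨⟨z, hz, rfl⟩, ⟨w, hw, hwx⟩⟩
    have h4 := hb w hw
    rw [hw']
    exact mul_le_mul h3 h4 (by positivity) hC0
  · have h2 : ∀ l, dzb l (σ.coeff e₁) z = 0 := by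
      intro l
      have := dzb_coeff_eq_zero (isCompact_symm_image hK₀ hs₀).isClosed hσ hx1 hx l
      rwa [hzz] at this
    simp only [h2, norm_zero, ne_eq, OfNat.ofNat_ne_zero, not_false_eq_true, zero_pow,
      Finset.sum_const_zero, zero_mul]
    positivity

/-- **(PX1)**: the flat norm of `∂̄σ` over a relatively compact subset of another chart. -/
theorem dnrm_le [T2Space X] {φ : Chart n X → Cm n → ℝ} (hφ : IsCanonicalMetric φ)
    {e₀ e₁ : Chart n X} (h₀ : e₀ ∈ atlas (Cm n) X) (h₁ : e₁ ∈ atlas (Cm n) X)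
    {K₀ V₁ : Set (Cm n)} (hK₀ : IsCompact K₀) (hs₀ : K₀ ⊆ e₀.target)
    (hV₁ : IsCompact (closure V₁)) (hs₁ : closure V₁ ⊆ e₁.target) :
    ∃ C : ℝ, 0 ≤ C ∧ ∀ (m : ℕ) (σ : SSec n m X) (B : ℝ), 0 ≤ B →
      (∀ e x, At e x → x ∉ e₀.symm '' K₀ → σ.coeff e (e x) = 0) →
      (∀ z ∈ K₀, (∑ l, ‖dzb l (σ.coeff e₀) z‖ ^ 2) * Real.exp (-(m : ℝ) * φ e₀ z) ≤ B) →
      dnrm n m (φ e₁) V₁ (σ.coeff e₁) ≤ ENNReal.ofReal (C * B) := by
  obtain ⟨C, hC0, hC⟩ := dbar_le hφ h₀ h₁ hK₀ hs₀ hV₁ hs₁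
  have hfin : volume (closure V₁) ≠ ⊤ := hV₁.measure_lt_top.ne
  refine ⟨C * (volume (closure V₁)).toReal, by positivity, fun m σ B hB hσ hb => ?_⟩
  have h2 := hC m σ B hB hσ hb
  calc dnrm n m (φ e₁) V₁ (σ.coeff e₁) ≤ dnrm n m (φ e₁) (closure V₁) (σ.coeff e₁) :=
        lintegral_mono_set subset_closure
    _ ≤ ∫⁻ z in closure V₁, ENNReal.ofReal (C * B) := by
        refine setLIntegral_mono_ae' isClosed_closure.measurableSet ?_
        exact Eventually.of_forall fun z hz => ENNReal.ofReal_le_ofReal (h2 z hz)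
    _ = ENNReal.ofReal (C * B) * volume (closure V₁) := by
        rw [setLIntegral_const]
    _ = ENNReal.ofReal (C * (volume (closure V₁)).toReal * B) := by
        rw [← ENNReal.ofReal_toReal hfin, ← ENNReal.ofReal_mul (by positivity),
          ENNReal.toReal_ofReal ENNReal.toReal_nonneg]
        congr 1; ring

/-- **(PX1), all domains of a finite family at once.** -/
theorem sum_dnrm_le [T2Space X] {φ : Chart n X → Cm n → ℝ} (hφ : IsCanonicalMetric φ)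
    {N : ℕ} {e : Fin N → Chart n X} {V : Fin N → Set (Cm n)} (he : ∀ i, e i ∈ atlas (Cm n) X)
    (hV : ∀ i, IsCompact (closure (V i))) (hVt : ∀ i, closure (V i) ⊆ (e i).target)
    {e₀ : Chart n X} (h₀ : e₀ ∈ atlas (Cm n) X) {K₀ : Set (Cm n)} (hK₀ : IsCompact K₀)
    (hs₀ : K₀ ⊆ e₀.target) :
    ∃ C : ℝ, 0 ≤ C ∧ ∀ (m : ℕ) (σ : SSec n m X) (B : ℝ), 0 ≤ B →
      (∀ e x, At e x → x ∉ e₀.symm '' K₀ → σ.coeff e (e x) = 0) →
      (∀ z ∈ K₀, (∑ l, ‖dzb l (σ.coeff e₀) z‖ ^ 2) * Real.exp (-(m : ℝ) * φ e₀ z) ≤ B) →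
      ∑ j, dnrm n m (φ (e j)) (V j) (σ.coeff (e j)) ≤ ENNReal.ofReal (C * B) := by
  choose C hC0 hC using fun j => dnrm_le hφ h₀ (he j) hK₀ hs₀ (hV j) (hVt j)
  refine ⟨∑ j, C j, Finset.sum_nonneg fun j _ => hC0 j, fun m σ B hB hσ hb => ?_⟩
  rw [Finset.sum_mul, ENNReal.ofReal_sum_of_nonneg fun j _ => mul_nonneg (hC0 j) hB]
  exact Finset.sum_le_sum fun j _ => hC j m σ B hB hσ hb

end Vale.Agent.P272.KOD
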