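import Vale.Agent.P272.KOD.PeakC
import Mathlib.LinearAlgebra.Matrix.Gershgorin

/-!
# P272, stage 4 (Kodaira embedding), peak sections IV: the `1`-jets of holomorphic sections close
to the peak functions
-/

open scoped Manifold ContDiff ComplexOrder Topology Matrix ENNReal
open Complex Set Filter Metric MeasureTheory

noncomputable section

namespace Vale.Agent.P272.KOD

open Vale.Agent.P272.K

variable {n : ℕ}

theorem dz_eq_fderiv {f : Cm n → ℂ} {c : Cm n} (hf : DifferentiableAt ℂ f c) (j : Fin n) :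
    dz j f c = fderiv ℂ f c (Pi.single j 1) := by
  have h1 : fderiv ℝ f c = (fderiv ℂ f c).restrictScalars ℝ :=
    (hf.hasFDerivAt.restrictScalars ℝ).fderiv
  have e1 : (Pi.single j I : Cm n) = I • Pi.single j (1 : ℂ) := by
    rw [← Pi.single_smul, smul_eq_mul, mul_one]
  unfold dz
  rw [h1]
  simp only [ContinuousLinearMap.coe_restrictScalars', e1, map_smul, smul_eq_mul]
  have := I_mul_I
  linear_combination (-(fderiv ℂ f c) (Pi.single j 1) / 2) * this

theorem diff_div {f g : Cm n → ℂ} {c : Cm n} (hf : DifferentiableAt ℂ f c)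
    (hg : DifferentiableAt ℂ g c) (h0 : g c ≠ 0) : DifferentiableAt ℂ (fun z => f z / g z) c := by
  simp only [div_eq_mul_inv]
  exact hf.mul (hg.inv h0)

theorem fderiv_div_apply {f g : Cm n → ℂ} {c : Cm n} (hf : DifferentiableAt ℂ f c)
    (hg : DifferentiableAt ℂ g c) (h0 : g c ≠ 0) (v : Cm n) :
    fderiv ℂ (fun z => f z / g z) c v =
      (fderiv ℂ f c v * g c - f c * fderiv ℂ g c v) / g c ^ 2 := by
  have hline : HasDerivAt (fun t : ℂ => c + t • v) v 0 := by
    have := ((hasDerivAt_id (0 : ℂ)).smul_const v).const_add c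
    simpa using this
  have key : ∀ F : Cm n → ℂ, DifferentiableAt ℂ F c →
      HasDerivAt (fun t : ℂ => F (c + t • v)) (fderiv ℂ F c v) 0 := by
    intro F hF
    have h1 : HasFDerivAt F (fderiv ℂ F c) (c + (0 : ℂ) • v) := by
      rw [zero_smul, add_zero]
      exact hF.hasFDerivAt
    exact HasFDerivAt.comp_hasDerivAt (0 : ℂ) h1 hline
  have h1 := key f hf
  have h2 := key g hg
  have h3 := key (fun z => f z / g z) (diff_div hf hg h0)
  have h4 := h1.fun_div h2 (by simpa using h0)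
  have h5 := h3.unique h4
  simpa using h5

theorem fderiv_qf (c z : Cm n) (i : Fin (n + 1)) (j : Fin n) :
    fderiv ℂ (qf c i) z (Pi.single j 1) = if i = j.succ then 1 else 0 := by
  refine Fin.cases ?_ (fun k => ?_) i
  · have : qf c 0 = fun _ => (1 : ℂ) := rfl
    rw [this, fderiv_const_apply]
    simp [(Fin.succ_ne_zero j).symm]
  · have : qf c k.succ = fun z => z k - c k := rfl
    rw [this]
    have h1 : HasFDerivAt (fun z : Cm n => z k - c k)
        (ContinuousLinearMap.proj (R := ℂ) (φ := fun _ : Fin n => ℂ) k) z :=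
      (hasFDerivAt_apply k z).sub_const _
    rw [h1.fderiv]
    simp only [ContinuousLinearMap.proj_apply, Fin.succ_inj]
    rw [Pi.single_apply]

/-- If functions `s_i` are, in the frame `E⁻¹`, `C¹`-close at `c` to `1, z_1 - c_1, …, z_n - c_n`,
then `s_0(c) ≠ 0` and the ratios `s_i/s_0` have invertible Jacobian matrix at `c`. -/
theorem jet_of_close {c : Cm n} {E : Cm n → ℂ} (hE : DifferentiableAt ℂ E c) (hE0 : ∀ z, E z ≠ 0)
    {s : Fin (n + 1) → Cm n → ℂ} (hs : ∀ i, DifferentiableAt ℂ (s i) c) {ε : ℝ}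
    (hε : ε = 1 / (8 * ((n : ℝ) + 1)))
    (h0 : ∀ i, ‖qf c i c - s i c * E c‖ ≤ ε)
    (h1 : ∀ i (j : Fin n), ‖fderiv ℂ (fun z => qf c i z - s i z * E z) c (Pi.single j 1)‖ ≤ ε) :
    s 0 c ≠ 0 ∧ (Matrix.of fun i j : Fin n => dz j (fun z => s i.succ z / s 0 z) c).det ≠ 0 := by
  have hn : (0 : ℝ) ≤ n := Nat.cast_nonneg n
  have hε0 : 0 < ε := by rw [hε]; positivity
  have hε1 : ε ≤ 1 / 8 := by
    rw [hε]
    apply one_div_le_one_div_of_le (by norm_num)
    linarith
  set S : Fin (n + 1) → Cm n → ℂ := fun i z => s i z * E z with hS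
  have hSd : ∀ i, DifferentiableAt ℂ (S i) c := fun i => (hs i).mul hE
  set v : Fin (n + 1) → ℂ := fun i => qf c i c - S i c with hv
  set w : Fin (n + 1) → Fin n → ℂ := fun i j =>
    fderiv ℂ (fun z => qf c i z - S i z) c (Pi.single j 1) with hw
  have hvb : ∀ i, ‖v i‖ ≤ ε := h0
  have hwb : ∀ i j, ‖w i j‖ ≤ ε := h1
  have hSv : ∀ i, S i c = qf c i c - v i := fun i => by simp [hv]
  have hSw : ∀ i j, fderiv ℂ (S i) c (Pi.single j 1) = (if i = j.succ then 1 else 0) - w i j := by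
    intro i j
    have h2 : fderiv ℂ (fun z => qf c i z - S i z) c = fderiv ℂ (qf c i) c - fderiv ℂ (S i) c :=
      fderiv_fun_sub (differentiable_qf c i c) (hSd i)
    have h3 : w i j = (if i = j.succ then 1 else 0) - fderiv ℂ (S i) c (Pi.single j 1) := by
      simp only [hw]
      rw [h2, _root_.sub_apply, fderiv_qf]
    rw [h3]
    ring
  have hS0 : S 0 c = 1 - v 0 := by rw [hSv, qf_zero]
  have hv1 : ‖v 0‖ < 1 := by linarith [hvb 0]
  have hS0ne : S 0 c ≠ 0 := by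
    rw [hS0]
    intro h
    have : v 0 = 1 := (sub_eq_zero.1 h).symm
    rw [this, norm_one] at hv1
    exact lt_irrefl _ hv1
  have hs0 : s 0 c ≠ 0 := fun h => hS0ne (by simp [hS, h])
  refine ⟨hs0, ?_⟩
  -- the Jacobian matrix
  have hent : ∀ i j : Fin n, dz j (fun z => s i.succ z / s 0 z) c =
      (((if i = j then 1 else 0) - w i.succ j) * (1 - v 0) - v i.succ * w 0 j) /
        (1 - v 0) ^ 2 := by
    intro i j
    have e1 : (fun z => s i.succ z / s 0 z) = fun z => S i.succ z / S 0 z := by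
      ext z
      simp only [hS]
      rw [mul_div_mul_right _ _ (hE0 z)]
    rw [e1, dz_eq_fderiv (diff_div (hSd i.succ) (hSd 0) hS0ne),
      fderiv_div_apply (hSd i.succ) (hSd 0) hS0ne, hSw, hSw, hSv i.succ, hS0, qf_succ]
    simp only [Fin.succ_inj, sub_self, (Fin.succ_ne_zero j).symm, if_false]
    ring
  set J : Matrix (Fin n) (Fin n) ℂ := Matrix.of fun i j =>
    (((if i = j then 1 else 0) - w i.succ j) * (1 - v 0) - v i.succ * w 0 j) with hJ
  have hmat : (Matrix.of fun i j : Fin n => dz j (fun z => s i.succ z / s 0 z) c) =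
      ((1 - v 0) ^ 2)⁻¹ • J := by
    ext i j
    simp only [Matrix.of_apply, Matrix.smul_apply, hJ, smul_eq_mul]
    rw [hent i j, div_eq_inv_mul]
  rw [hmat, Matrix.det_smul]
  have h1v : (1 - v 0) ≠ 0 := by rw [← hS0]; exact hS0ne
  refine mul_ne_zero (pow_ne_zero _ (inv_ne_zero (pow_ne_zero _ h1v))) ?_
  apply det_ne_zero_of_sum_row_lt_diag
  have hb1 : ‖1 - v 0‖ ≤ 1 + ε := by
    calc ‖1 - v 0‖ ≤ ‖(1 : ℂ)‖ + ‖v 0‖ := norm_sub_le _ _
      _ ≤ 1 + ε := by rw [norm_one]; linarith [hvb 0]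
  have hoff : ∀ i j : Fin n, i ≠ j → ‖J i j‖ ≤ 3 * ε := by
    intro i j hij
    simp only [hJ, Matrix.of_apply, if_neg hij, zero_sub]
    calc ‖-w i.succ j * (1 - v 0) - v i.succ * w 0 j‖
        ≤ ‖-w i.succ j * (1 - v 0)‖ + ‖v i.succ * w 0 j‖ := norm_sub_le _ _
      _ = ‖w i.succ j‖ * ‖1 - v 0‖ + ‖v i.succ‖ * ‖w 0 j‖ := by
          rw [norm_mul, norm_neg, norm_mul]
      _ ≤ ε * (1 + ε) + ε * ε := by
          gcongr
          · exact hwb _ _
          · exact hvb _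
          · exact hwb _ _
      _ ≤ 3 * ε := by nlinarith
  have hdiag : ∀ i : Fin n, 1 - 4 * ε ≤ ‖J i i‖ := by
    intro i
    have e1 : J i i = 1 - (v 0 + w i.succ i * (1 - v 0) + v i.succ * w 0 i) := by
      simp only [hJ, Matrix.of_apply, if_true]
      ring
    have e2 : ‖v 0 + w i.succ i * (1 - v 0) + v i.succ * w 0 i‖ ≤ 4 * ε := by
      calc ‖v 0 + w i.succ i * (1 - v 0) + v i.succ * w 0 i‖
          ≤ ‖v 0‖ + ‖w i.succ i * (1 - v 0)‖ + ‖v i.succ * w 0 i‖ := norm_add₃_le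
        _ = ‖v 0‖ + ‖w i.succ i‖ * ‖1 - v 0‖ + ‖v i.succ‖ * ‖w 0 i‖ := by
            rw [norm_mul, norm_mul]
        _ ≤ ε + ε * (1 + ε) + ε * ε := by
            gcongr
            · exact hvb _
            · exact hwb _ _
            · exact hvb _
            · exact hwb _ _
        _ ≤ 4 * ε := by nlinarith
    rw [e1]
    have e3 := norm_sub_norm_le (1 : ℂ) (v 0 + w i.succ i * (1 - v 0) + v i.succ * w 0 i)
    rw [norm_one] at e3
    linarith
  intro k
  have hsum : ∑ j ∈ Finset.univ.erase k, ‖J k j‖ ≤ (n : ℝ) * (3 * ε) := by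
    calc ∑ j ∈ Finset.univ.erase k, ‖J k j‖ ≤ ∑ j ∈ Finset.univ.erase k, 3 * ε :=
          Finset.sum_le_sum fun j hj => hoff k j (Finset.ne_of_mem_erase hj).symm
      _ = ((Finset.univ.erase k).card : ℝ) * (3 * ε) := by rw [Finset.sum_const, nsmul_eq_mul]
      _ ≤ (n : ℝ) * (3 * ε) := by
          gcongr
          calc (Finset.univ.erase k).card ≤ (Finset.univ : Finset (Fin n)).card :=
                Finset.card_le_card (Finset.erase_subset _ _)
            _ = n := by simp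
  have hk := hdiag k
  have hnε : (n : ℝ) * ε ≤ 1 / 8 := by
    rw [hε]
    rw [mul_one_div, div_le_div_iff₀ (by positivity) (by norm_num)]
    linarith
  linarith

/-- **Jets**: holomorphic functions which are exponentially `L²`-close to the peak functions have
the `1`-jets of a local coordinate system, for large `m`. -/
theorem NF.jet {φ : Cm n → ℝ} {c : Cm n} {h : Cm n → ℂ} {a A R : ℝ}
    (N : NF φ c h a A R) {δ ρ₀ : ℝ} (hδ : 0 < δ) (hρ₀ : 0 < ρ₀) :
    ∃ ρ : ℝ, 0 < ρ ∧ ρ ≤ ρ₀ ∧ ρ ≤ R ∧ ∀ K : ℝ, 0 ≤ K → ∃ m₀ : ℕ, ∀ m : ℕ, m₀ ≤ m →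
      ∀ s : Fin (n + 1) → Cm n → ℂ, (∀ i, DifferentiableOn ℂ (s i) (ball c ρ)) →
        (∀ i, nrm n m φ (ball c ρ) (fun z => qf c i z * frm h m z - s i z) ≤
          ENNReal.ofReal (K * Real.exp (-δ * m))) →
        s 0 c ≠ 0 ∧
          (Matrix.of fun i j : Fin n => dz j (fun z => s i.succ z / s 0 z) c).det ≠ 0 := by
  obtain ⟨ρ, hρ, hρ1, hρ2, hmain⟩ := N.eventually_small hδ hρ₀
  refine ⟨ρ, hρ, hρ1, hρ2, fun K hK => ?_⟩
  set ε : ℝ := 1 / (8 * ((n : ℝ) + 1)) with hε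
  have hε0 : 0 < ε := by positivity
  obtain ⟨m₀, hm₀⟩ := hmain K ε hK hε0
  refine ⟨m₀, fun m hm s hs hn => ?_⟩
  have hc : c ∈ ball c ρ := mem_ball_self hρ
  have hEd : Differentiable ℂ fun z => exp (-(m : ℂ) * h z / 2) := by
    have := N.diff
    fun_prop
  have hmul : ∀ i z, (qf c i z * frm h m z - s i z) * exp (-(m : ℂ) * h z / 2) =
      qf c i z - s i z * exp (-(m : ℂ) * h z / 2) := by
    intro i z
    have := exp_neg_mul_frm h m z
    linear_combination (qf c i z) * this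
  have hall : ∀ i, ‖(qf c i c * frm h m c - s i c) * exp (-(m : ℂ) * h c / 2)‖ ≤ ε ∧
      ∀ j : Fin n, ‖fderiv ℂ (fun z => (qf c i z * frm h m z - s i z) *
        exp (-(m : ℂ) * h z / 2)) c (Pi.single j 1)‖ ≤ ε := by
    intro i
    refine hm₀ m hm (fun z => qf c i z * frm h m z - s i z) ?_ (hn i)
    exact (((differentiable_qf c i).mul (differentiable_frm N.diff m)).differentiableOn).sub (hs i)
  refine jet_of_close (E := fun z => exp (-(m : ℂ) * h z / 2)) (hEd c) (fun z => exp_ne_zero _)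
    (fun i => (hs i).differentiableAt (isOpen_ball.mem_nhds hc)) hε ?_ ?_
  · intro i
    rw [← hmul]
    exact (hall i).1
  · intro i j
    have := (hall i).2 j
    simp only [hmul] at this
    exact this

/-- **Values**: holomorphic functions which are exponentially `L²`-close to `q exp (m h / 2)` have
value close to `q c` at `c`, in the frame `exp (m h / 2)`. -/
theorem NF.value {φ : Cm n → ℝ} {c : Cm n} {h : Cm n → ℂ} {a A R : ℝ}
    (N : NF φ c h a A R) {δ ρ₀ : ℝ} (hδ : 0 < δ) (hρ₀ : 0 < ρ₀) :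
    ∃ ρ : ℝ, 0 < ρ ∧ ρ ≤ ρ₀ ∧ ρ ≤ R ∧ ∀ K ε : ℝ, 0 ≤ K → 0 < ε → ∃ m₀ : ℕ, ∀ m : ℕ, m₀ ≤ m →
      ∀ (q : ℂ) (s : Cm n → ℂ), DifferentiableOn ℂ s (ball c ρ) →
        nrm n m φ (ball c ρ) (fun z => q * frm h m z - s z) ≤
          ENNReal.ofReal (K * Real.exp (-δ * m)) →
        ‖q - s c * exp (-(m : ℂ) * h c / 2)‖ ≤ ε := by
  obtain ⟨ρ, hρ, hρ1, hρ2, hmain⟩ := N.eventually_small hδ hρ₀
  refine ⟨ρ, hρ, hρ1, hρ2, fun K ε hK hε => ?_⟩
  obtain ⟨m₀, hm₀⟩ := hmain K ε hK hε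
  refine ⟨m₀, fun m hm q s hs hn => ?_⟩
  have h1 := (hm₀ m hm (fun z => q * frm h m z - s z)
    (((differentiable_frm N.diff m).const_mul q).differentiableOn.sub hs) hn).1
  have h2 : (q * frm h m c - s c) * exp (-(m : ℂ) * h c / 2) =
      q - s c * exp (-(m : ℂ) * h c / 2) := by
    have := exp_neg_mul_frm h m c
    linear_combination q * this
  rwa [h2] at h1

/-- the `2 × 2` determinant of two sections, one peaked at each of two points -/
theorem det_ne_zero_of_close {E E' a b c d : ℂ} (ha : ‖1 - a * E‖ ≤ 1 / 4)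
    (hb : ‖0 - b * E'‖ ≤ 1 / 4) (hc : ‖0 - c * E‖ ≤ 1 / 4) (hd : ‖1 - d * E'‖ ≤ 1 / 4) :
    a * d - b * c ≠ 0 := by
  intro h0
  have h1 : (a * E) * (d * E') = (b * E') * (c * E) := by
    linear_combination (E * E') * h0
  set x := 1 - a * E with hx
  set y := 1 - d * E' with hy
  have e1 : a * E = 1 - x := by simp [hx]
  have e2 : d * E' = 1 - y := by simp [hy]
  rw [zero_sub, norm_neg] at hb hc
  have h2 : ‖(1 - x) * (1 - y)‖ ≤ 1 / 16 := by
    rw [← e1, ← e2, h1, norm_mul]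
    calc ‖b * E'‖ * ‖c * E‖ ≤ (1 / 4) * (1 / 4) := by gcongr
      _ = 1 / 16 := by norm_num
  have h3 : 3 / 4 ≤ ‖1 - x‖ := by
    have := norm_sub_norm_le (1 : ℂ) x
    rw [norm_one] at this
    linarith
  have h4 : 3 / 4 ≤ ‖1 - y‖ := by
    have := norm_sub_norm_le (1 : ℂ) y
    rw [norm_one] at this
    linarith
  rw [norm_mul] at h2
  nlinarith

end Vale.Agent.P272.KOD
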