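import Vale.Agent.P272.K.N.Hess
import Mathlib.Analysis.Calculus.MeanValue

/-!
# P272, stage 4 (Kodaira embedding), peak sections I: normal form of a strictly psh weight
-/

open scoped Manifold ContDiff ComplexOrder Topology Matrix
open Complex Set Filter Metric

noncomputable section

namespace Vale.Agent.P272.KOD

open Vale.Agent.P272.K

variable {n : ℕ}

/-- second order Taylor estimate -/
theorem taylor2 {E : Type*} [NormedAddCommGroup E] [NormedSpace ℝ E]
    {q : E → ℝ} {p : E} (hq : ContDiffAt ℝ 2 q p) {ε : ℝ} (hε : 0 < ε) :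
    ∃ r : ℝ, 0 < r ∧ ∀ v : E, ‖v‖ < r →
      |q (p + v) - q p - fderiv ℝ q p v - (1 / 2) * fderiv ℝ (fderiv ℝ q) p v v| ≤ ε * ‖v‖ ^ 2 := by
  have h1 : ∀ᶠ y in 𝓝 p, DifferentiableAt ℝ q y := by
    filter_upwards [hq.eventually (by simp)] with y hy
    exact hy.differentiableAt (by simp)
  have h2 : DifferentiableAt ℝ (fderiv ℝ q) p :=
    (hq.fderiv_right (m := 1) (by norm_num)).differentiableAt (by simp)
  have h3 := h2.hasFDerivAt.isLittleO.def hε
  obtain ⟨r, hr, hball⟩ := Metric.eventually_nhds_iff_ball.1 (h1.and h3)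
  refine ⟨r, hr, fun v hv => ?_⟩
  set B := fderiv ℝ (fderiv ℝ q) p with hB
  have hsymm : ∀ a b : E, B a b = B b a := fun a b => (hq.isSymmSndFDerivAt (by simp)) a b
  set F : E → ℝ := fun u => q (p + u) - q p - fderiv ℝ q p u - (1 / 2) * B u u with hF
  have hder : ∀ u : E, ‖u‖ < r → HasFDerivAt F (fderiv ℝ q (p + u) - fderiv ℝ q p - B u) u := by
    intro u hu
    have hu' : p + u ∈ ball p r := by simpa [mem_ball, dist_eq_norm] using hu
    have d1 : HasFDerivAt (fun u => q (p + u)) (fderiv ℝ q (p + u)) u := by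
      have h6 : HasFDerivAt (fun u : E => p + u) (ContinuousLinearMap.id ℝ E) u :=
        (hasFDerivAt_id u).const_add p
      exact HasFDerivAt.comp (g := q) (f := fun u : E => p + u) u (hball _ hu').1.hasFDerivAt h6
    have d2 : HasFDerivAt (fun u => fderiv ℝ q p u) (fderiv ℝ q p) u :=
      (fderiv ℝ q p).hasFDerivAt
    have d3 : HasFDerivAt (fun u => B u u) (B u + B.flip u) u := by
      have := B.hasFDerivAt (x := u)
      have h5 := this.clm_apply (hasFDerivAt_id u)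
      refine h5.congr_fderiv ?_
      ext a
      simp
    have d4 := ((d1.sub_const (q p)).sub d2).sub (d3.const_mul (1 / 2 : ℝ))
    refine d4.congr_fderiv ?_
    ext a
    simp [hsymm a u]
    ring
  have hbound : ∀ u ∈ closedBall (0 : E) ‖v‖, ‖fderiv ℝ q (p + u) - fderiv ℝ q p - B u‖ ≤
      ε * ‖v‖ := by
    intro u hu
    have hu1 : ‖u‖ ≤ ‖v‖ := by simpa using hu
    have hu' : p + u ∈ ball p r := by
      simpa [mem_ball, dist_eq_norm] using lt_of_le_of_lt hu1 hv
    have := (hball _ hu').2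
    simp only [add_sub_cancel_left] at this
    exact this.trans (mul_le_mul_of_nonneg_left hu1 hε.le)
  have key := (convex_closedBall (0 : E) ‖v‖).norm_image_sub_le_of_norm_hasFDerivWithin_le
    (f := F) (f' := fun u => fderiv ℝ q (p + u) - fderiv ℝ q p - B u) (C := ε * ‖v‖)
    (fun u hu => (hder u (lt_of_le_of_lt (by simpa using hu) hv)).hasFDerivWithinAt) hbound
    (x := 0) (y := v) (by simp) (by simp)
  have hF0 : F 0 = 0 := by simp [hF]
  rw [hF0, sub_zero, sub_zero, Real.norm_eq_abs] at key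
  calc |q (p + v) - q p - fderiv ℝ q p v - 1 / 2 * B v v| = |F v| := rfl
    _ ≤ ε * ‖v‖ * ‖v‖ := key
    _ = ε * ‖v‖ ^ 2 := by ring

/-- the `ℂ`-linear form with real part `D` -/
def hol1 (D : Cm n →L[ℝ] ℝ) (u : Cm n) : ℂ := (D u : ℂ) - I * (D (I • u) : ℝ)

theorem hol1_eq (D : Cm n →L[ℝ] ℝ) (u : Cm n) :
    hol1 D u = ∑ j, ((D (Pi.single j 1) : ℂ) - I * (D (Pi.single j I) : ℝ)) * u j := by
  have h1 : D u = ∑ j, ((u j).re * D (Pi.single j 1) + (u j).im * D (Pi.single j I)) := by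
    conv_lhs => rw [N.decomp u]
    simp [map_sum, map_add, map_smul]
  have h2 : D (I • u) = ∑ j, (-(u j).im * D (Pi.single j 1) + (u j).re * D (Pi.single j I)) := by
    conv_lhs => rw [N.decompI u]
    simp [map_sum, map_add, map_smul]
  unfold hol1
  rw [h1, h2]
  push_cast
  rw [Finset.mul_sum, ← Finset.sum_sub_distrib]
  refine Finset.sum_congr rfl fun j _ => ?_
  apply Complex.ext <;> simp <;> ring

theorem re_hol1 (D : Cm n →L[ℝ] ℝ) (u : Cm n) : (hol1 D u).re = D u := by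
  simp [hol1]

theorem differentiable_hol1 (D : Cm n →L[ℝ] ℝ) : Differentiable ℂ (hol1 D) := by
  have : hol1 D = fun u => ∑ j, ((D (Pi.single j 1) : ℂ) - I * (D (Pi.single j I) : ℝ)) * u j := by
    ext u; exact hol1_eq D u
  rw [this]
  fun_prop

/-- the holomorphic quadratic form with real part `(B(u,u) - B(iu,iu))/4` -/
def hol2 (B : N.Bil n) (u : Cm n) : ℂ :=
  (((B u u - B (I • u) (I • u)) / 4 : ℝ) : ℂ) - I * ((B u (I • u) / 2 : ℝ) : ℂ)

theorem re_hol2 (B : N.Bil n) (u : Cm n) : (hol2 B u).re = (B u u - B (I • u) (I • u)) / 4 := by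
  simp [hol2]

/-- the real-linear form `v ↦ (B(u,v) - B(iu,iv))/4` -/
def quarter (B : N.Bil n) (u : Cm n) : Cm n →L[ℝ] ℝ :=
  (4⁻¹ : ℝ) • (B u - (B (I • u)).comp ((I : ℂ) • (ContinuousLinearMap.id ℝ (Cm n))))

theorem quarter_apply (B : N.Bil n) (u v : Cm n) :
    quarter B u v = (B u v - B (I • u) (I • v)) / 4 := by
  simp [quarter]
  ring

theorem hol2_eq {B : N.Bil n} (hB : ∀ v w, B v w = B w v) (u : Cm n) :
    hol2 B u = ∑ j, hol1 (quarter B (Pi.single j 1)) u * u j := by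
  have hII : ∀ v : Cm n, I • I • v = -v := by
    intro v
    rw [smul_smul, I_mul_I, neg_smul, one_smul]
  have h1 : hol2 B u = hol1 (quarter B u) u := by
    unfold hol1 hol2
    rw [quarter_apply, quarter_apply, hII, map_neg, hB (I • u) u]
    push_cast
    ring
  rw [h1, hol1_eq]
  refine Finset.sum_congr rfl fun j _ => ?_
  congr 1
  unfold hol1
  have e1 : (I • Pi.single j (1 : ℂ) : Cm n) = Pi.single j I := by
    rw [← Pi.single_smul, smul_eq_mul, mul_one]
  simp only [quarter_apply]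
  rw [← e1, hII, hII, e1, map_neg, map_neg, hB u (Pi.single j 1), hB (I • u) (Pi.single j I),
    hB u (Pi.single j I), hB (I • u) (Pi.single j 1)]
  push_cast
  ring

theorem differentiable_hol2 {B : N.Bil n} (hB : ∀ v w, B v w = B w v) :
    Differentiable ℂ (hol2 B) := by
  have : hol2 B = fun u => ∑ j, hol1 (quarter B (Pi.single j 1)) u * u j := by
    ext u; exact hol2_eq hB u
  rw [this]
  have h := fun j => differentiable_hol1 (quarter B (Pi.single j (1 : ℂ)))
  fun_prop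

/-- lower bound for a positive definite Hermitian form -/
theorem exists_lower {H : Matrix (Fin n) (Fin n) ℂ} (hH : H.PosDef) :
    ∃ c : ℝ, 0 < c ∧ ∀ u : Cm n, c * ‖u‖ ^ 2 ≤ (star u ⬝ᵥ H.mulVec u).re := by
  rcases isEmpty_or_nonempty (Fin n) with hn | hn
  · refine ⟨1, one_pos, fun u => ?_⟩
    have : u = 0 := Subsingleton.elim _ _
    simp [this]
  have hcont : Continuous fun u : Cm n => (star u ⬝ᵥ H.mulVec u).re := by
    unfold dotProduct Matrix.mulVec dotProduct
    fun_prop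
  have hne : (sphere (0 : Cm n) 1).Nonempty := by
    refine ⟨fun _ => 1, ?_⟩
    rw [mem_sphere_zero_iff_norm]
    exact (pi_norm_const (1 : ℂ)).trans (by simp)
  obtain ⟨u0, hu0, hmin⟩ := (isCompact_sphere (0 : Cm n) 1).exists_isMinOn hne hcont.continuousOn
  have hu0' : u0 ≠ 0 := by
    intro h
    rw [h] at hu0
    simp at hu0
  have hpos : 0 < (star u0 ⬝ᵥ H.mulVec u0).re := by
    have := hH.dotProduct_mulVec_pos hu0'
    exact (Complex.pos_iff.1 this).1
  refine ⟨_, hpos, fun u => ?_⟩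
  rcases eq_or_ne u 0 with rfl | hu
  · simp
  have hnu : 0 < ‖u‖ := norm_pos_iff.2 hu
  set v : Cm n := (‖u‖⁻¹ : ℝ) • u with hv
  have hvs : v ∈ sphere (0 : Cm n) 1 := by
    rw [mem_sphere_zero_iff_norm, hv, norm_smul, norm_inv, norm_norm, inv_mul_cancel₀ hnu.ne']
  have h1 : (star u0 ⬝ᵥ H.mulVec u0).re ≤ (star v ⬝ᵥ H.mulVec v).re := hmin hvs
  have h2 : u = (‖u‖ : ℝ) • v := by
    rw [hv, smul_smul, mul_inv_cancel₀ hnu.ne', one_smul]
  have h3 : (star u ⬝ᵥ H.mulVec u).re = ‖u‖ ^ 2 * (star v ⬝ᵥ H.mulVec v).re := by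
    conv_lhs => rw [h2]
    rw [← Complex.coe_smul, star_smul, Matrix.mulVec_smul, smul_dotProduct, dotProduct_smul]
    have : star ((‖u‖ : ℝ) : ℂ) = ((‖u‖ : ℝ) : ℂ) := Complex.conj_ofReal _
    rw [this, smul_eq_mul, smul_eq_mul, ← mul_assoc, ← Complex.ofReal_mul, Complex.re_ofReal_mul]
    ring
  rw [h3, mul_comm]
  exact mul_le_mul_of_nonneg_left h1 (by positivity)

/-- **Normal form** of a strictly plurisubharmonic weight: up to the real part of a holomorphic
polynomial it is comparable to `|z - c|²`. -/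
theorem normal_form {φ : Cm n → ℝ} {c : Cm n} (hφ : ContDiffAt ℝ 2 φ c)
    (hpos : (cHess φ c).PosDef) :
    ∃ (h : Cm n → ℂ) (a A : ℝ), Differentiable ℂ h ∧ 0 < a ∧ 0 < A ∧
      ∀ᶠ z in 𝓝 c, a * ‖z - c‖ ^ 2 ≤ φ z - (h z).re ∧ φ z - (h z).re ≤ A * ‖z - c‖ ^ 2 := by
  set D := fderiv ℝ φ c with hD
  set B : N.Bil n := fderiv ℝ (fderiv ℝ φ) c with hB
  have hsymm : ∀ v w : Cm n, B v w = B w v := fun v w => (hφ.isSymmSndFDerivAt (by simp)) v w
  have hd2 : DifferentiableAt ℝ (fderiv ℝ φ) c :=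
    (hφ.fderiv_right (m := 1) (by norm_num)).differentiableAt (by simp)
  have hlev : cHess φ c = N.lev B := N.cHess_eq_lev hd2
  rw [hlev] at hpos
  obtain ⟨a, ha, hlow⟩ := exists_lower hpos
  have hquad : ∀ u : Cm n, a * ‖u‖ ^ 2 ≤ (B u u + B (I • u) (I • u)) / 4 := by
    intro u
    have h1 := hlow (star u)
    rw [N.lev_quadratic hsymm, star_star, norm_star] at h1
    simpa using h1
  have hup : ∀ u : Cm n, (B u u + B (I • u) (I • u)) / 4 ≤ ‖B‖ * ‖u‖ ^ 2 := by
    intro u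
    have h1 : B u u ≤ ‖B‖ * ‖u‖ * ‖u‖ := (le_abs_self _).trans (B.le_opNorm₂ u u)
    have h2 : B (I • u) (I • u) ≤ ‖B‖ * ‖I • u‖ * ‖I • u‖ :=
      (le_abs_self _).trans (B.le_opNorm₂ _ _)
    rw [norm_smul, norm_I, one_mul] at h2
    nlinarith [norm_nonneg B, sq_nonneg ‖u‖, mul_nonneg (norm_nonneg B) (sq_nonneg ‖u‖)]
  obtain ⟨r, hr, htay⟩ := taylor2 hφ (ε := a / 2) (by positivity)
  refine ⟨fun z => (φ c : ℂ) + hol1 D (z - c) + hol2 B (z - c), a / 2, ‖B‖ + a, ?_, by positivity,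
    by positivity, ?_⟩
  · have h1 := differentiable_hol1 D
    have h2 := differentiable_hol2 hsymm
    fun_prop
  · filter_upwards [ball_mem_nhds c hr] with z hz
    have hz' : ‖z - c‖ < r := by rwa [mem_ball, dist_eq_norm] at hz
    have h1 := htay (z - c) hz'
    rw [add_sub_cancel] at h1
    have h2 : φ z - ((φ c : ℂ) + hol1 D (z - c) + hol2 B (z - c)).re =
        (φ z - φ c - D (z - c) - (1 / 2) * B (z - c) (z - c)) +
          (B (z - c) (z - c) + B (I • (z - c)) (I • (z - c))) / 4 := by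
      rw [add_re, add_re, re_hol1, re_hol2, ofReal_re]
      ring
    have h3 := hquad (z - c)
    have h4 := hup (z - c)
    rw [abs_le] at h1
    constructor
    · rw [h2]; linarith [h1.1]
    · rw [h2]
      nlinarith [h1.2, sq_nonneg ‖z - c‖]

end Vale.Agent.P272.KOD
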