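import Vale.Agent.P272.KOD.PeakA
import Vale.Agent.P272.KOD.Defs
import Vale.Agent.P271.H408.Mean
import Mathlib.Analysis.Calculus.BumpFunction.FiniteDimension
import Mathlib.Analysis.Complex.Liouville

/-!
# P272, stage 4 (Kodaira embedding), peak sections II: estimates
-/

open scoped Manifold ContDiff ComplexOrder Topology Matrix ENNReal
open Complex Set Filter Metric MeasureTheory

noncomputable section

namespace Vale.Agent.P272.KOD

open Vale.Agent.P272.K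

variable {n : ℕ}

/-- The derivative of a bounded holomorphic function along a direction (Cauchy estimate). -/
theorem fderiv_bound {v : Cm n → ℂ} {c : Cm n} {ρ S : ℝ} (hρ : 0 < ρ)
    (hv : DifferentiableOn ℂ v (ball c ρ)) (hS : ∀ z ∈ ball c ρ, ‖v z‖ ≤ S) (j : Fin n) :
    ‖fderiv ℂ v c (Pi.single j 1)‖ ≤ S / (ρ / 2) := by
  have h0 : DifferentiableAt ℂ v c := hv.differentiableAt (ball_mem_nhds c hρ)
  set g : ℂ → ℂ := fun t => v (c + t • (Pi.single j (1 : ℂ) : Cm n)) with hg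
  have hmem : ∀ t : ℂ, ‖t‖ < ρ → c + t • (Pi.single j (1 : ℂ) : Cm n) ∈ ball c ρ := by
    intro t ht
    rw [mem_ball, dist_eq_norm, add_sub_cancel_left, norm_smul]
    have : ‖(Pi.single j (1 : ℂ) : Cm n)‖ = 1 := by
      have := Pi.norm_single (G := fun _ : Fin n => ℂ) (i := j) (1 : ℂ)
      rw [norm_one] at this
      exact this
    rw [this, mul_one]
    exact ht
  have hline : HasDerivAt (fun t : ℂ => c + t • (Pi.single j (1 : ℂ) : Cm n))
      (Pi.single j (1 : ℂ) : Cm n) 0 := by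
    have := ((hasDerivAt_id (0 : ℂ)).smul_const (Pi.single j (1 : ℂ) : Cm n)).const_add c
    simpa using this
  have hder : deriv g 0 = fderiv ℂ v c (Pi.single j 1) := by
    have h1 : HasFDerivAt v (fderiv ℂ v c) (c + (0 : ℂ) • (Pi.single j (1 : ℂ) : Cm n)) := by
      rw [zero_smul, add_zero]
      exact h0.hasFDerivAt
    exact (HasFDerivAt.comp_hasDerivAt (0 : ℂ) h1 hline).deriv
  rw [← hder]
  refine Complex.norm_deriv_le_of_forall_mem_sphere_norm_le (by positivity) ?_ ?_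
  · apply DifferentiableOn.diffContOnCl
    rw [closure_ball _ (by positivity)]
    intro t ht
    have ht' : ‖t‖ < ρ := by
      have : ‖t‖ ≤ ρ / 2 := by simpa using ht
      linarith
    have h2 : DifferentiableAt ℂ v (c + t • (Pi.single j (1 : ℂ) : Cm n)) :=
      hv.differentiableAt (isOpen_ball.mem_nhds (hmem t ht'))
    have h3 : DifferentiableAt ℂ (fun t : ℂ => c + t • (Pi.single j (1 : ℂ) : Cm n)) t := by
      fun_prop
    exact (DifferentiableAt.comp t h2 h3).differentiableWithinAt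
  · intro t ht
    have ht' : ‖t‖ < ρ := by
      have : ‖t‖ = ρ / 2 := by simpa using ht
      linarith
    exact hS _ (hmem t ht')

/-- `L²` smallness with the weight `exp(-kφ)` gives pointwise smallness in the frame
`exp(kh/2)`. -/
theorem sup_bound₀ {φ : Cm n → ℝ} {h u : Cm n → ℂ} {c : Cm n} {ρ A M : ℝ} {k : ℝ} (hk : 0 ≤ k)
    (hA : ∀ z ∈ ball c ρ, φ z - (h z).re ≤ A) (hh : Differentiable ℂ h)
    (hu : DifferentiableOn ℂ u (ball c ρ))
    (hM : ∫⁻ z in ball c ρ, ENNReal.ofReal (‖u z‖ ^ 2 * Real.exp (-k * φ z)) ≤ ENNReal.ofReal M) :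
    ∀ z ∈ ball c (ρ / 2), ENNReal.ofReal (‖u z * exp (-(k : ℂ) * h z / 2)‖ ^ 2) *
      volume (ball (0 : Cm n) (ρ / 2)) ≤ ENNReal.ofReal (Real.exp (k * A) * M) := by
  intro z hz
  set v : Cm n → ℂ := fun z => u z * exp (-(k : ℂ) * h z / 2) with hv
  have hvd : DifferentiableOn ℂ v (ball c ρ) := by
    refine hu.mul ?_
    have : Differentiable ℂ fun z => exp (-(k : ℂ) * h z / 2) := by fun_prop
    exact this.differentiableOn
  have hsub : ball z (ρ / 2) ⊆ ball c ρ := by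
    intro y hy
    rw [mem_ball] at hy hz ⊢
    calc dist y c ≤ dist y z + dist z c := dist_triangle _ _ _
      _ < ρ / 2 + ρ / 2 := add_lt_add hy hz
      _ = ρ := by ring
  have h1 := Vale.Agent.P271.H408.enorm_sq_mul_volume_le (f := v) (z := z) (r := ρ / 2)
    (hvd.mono hsub)
  have hvol : volume (ball z (ρ / 2)) = volume (ball (0 : Cm n) (ρ / 2)) :=
    Measure.addHaar_ball_center _ _ _
  rw [hvol] at h1
  have h2 : ENNReal.ofReal (‖v z‖ ^ 2) = ‖v z‖ₑ ^ 2 := by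
    rw [ENNReal.ofReal_pow (norm_nonneg _), ofReal_norm]
  rw [h2]
  refine h1.trans ?_
  calc ∫⁻ w in ball z (ρ / 2), ‖v w‖ₑ ^ 2 ≤ ∫⁻ w in ball c ρ, ‖v w‖ₑ ^ 2 :=
        lintegral_mono_set hsub
    _ ≤ ∫⁻ w in ball c ρ, ENNReal.ofReal (Real.exp (k * A)) *
          ENNReal.ofReal (‖u w‖ ^ 2 * Real.exp (-k * φ w)) := by
        refine setLIntegral_mono' measurableSet_ball fun w hw => ?_
        rw [← ENNReal.ofReal_mul (Real.exp_pos _).le, ← ofReal_norm,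
          ← ENNReal.ofReal_pow (norm_nonneg _)]
        refine ENNReal.ofReal_le_ofReal ?_
        have e1 : ‖v w‖ ^ 2 = ‖u w‖ ^ 2 * Real.exp (-k * (h w).re) := by
          rw [hv]
          simp only
          rw [norm_mul, mul_pow, Complex.norm_exp, ← Real.exp_nat_mul]
          congr 2
          have : (-(k : ℂ) * h w / 2).re = -k * (h w).re / 2 := by
            simp
          rw [this]
          push_cast
          ring
        rw [e1]
        have e2 : Real.exp (k * A) * (‖u w‖ ^ 2 * Real.exp (-k * φ w)) =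
            ‖u w‖ ^ 2 * Real.exp (k * A - k * φ w) := by
          rw [sub_eq_add_neg, Real.exp_add, neg_mul]
          ring
        rw [e2]
        refine mul_le_mul_of_nonneg_left (Real.exp_le_exp.2 ?_) (by positivity)
        have := hA w hw
        nlinarith
    _ = ENNReal.ofReal (Real.exp (k * A)) *
          ∫⁻ w in ball c ρ, ENNReal.ofReal (‖u w‖ ^ 2 * Real.exp (-k * φ w)) :=
        lintegral_const_mul' _ _ ENNReal.ofReal_ne_top
    _ ≤ ENNReal.ofReal (Real.exp (k * A)) * ENNReal.ofReal M := by gcongr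
    _ = ENNReal.ofReal (Real.exp (k * A) * M) := by
        rw [← ENNReal.ofReal_mul (Real.exp_pos _).le]

/-- real form of `sup_bound₀` -/
theorem sup_bound {φ : Cm n → ℝ} {h u : Cm n → ℂ} {c : Cm n} {ρ A M : ℝ} {k : ℝ} (hk : 0 ≤ k)
    (hρ : 0 < ρ) (hA : ∀ z ∈ ball c ρ, φ z - (h z).re ≤ A) (hh : Differentiable ℂ h)
    (hu : DifferentiableOn ℂ u (ball c ρ)) (hM0 : 0 ≤ M)
    (hM : ∫⁻ z in ball c ρ, ENNReal.ofReal (‖u z‖ ^ 2 * Real.exp (-k * φ z)) ≤ ENNReal.ofReal M) :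
    ∀ z ∈ ball c (ρ / 2), ‖u z * exp (-(k : ℂ) * h z / 2)‖ ≤
      Real.sqrt (Real.exp (k * A) * M / (volume (ball (0 : Cm n) (ρ / 2))).toReal) := by
  intro z hz
  have h1 := sup_bound₀ hk hA hh hu hM z hz
  have hv0 : volume (ball (0 : Cm n) (ρ / 2)) ≠ 0 := (measure_ball_pos _ _ (by positivity)).ne'
  have hvt : volume (ball (0 : Cm n) (ρ / 2)) ≠ ⊤ := measure_ball_lt_top.ne
  have hvp : 0 < (volume (ball (0 : Cm n) (ρ / 2))).toReal := ENNReal.toReal_pos hv0 hvt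
  apply Real.le_sqrt_of_sq_le
  rw [le_div_iff₀ hvp]
  have h2 : ENNReal.ofReal (‖u z * exp (-(k : ℂ) * h z / 2)‖ ^ 2 *
      (volume (ball (0 : Cm n) (ρ / 2))).toReal) ≤ ENNReal.ofReal (Real.exp (k * A) * M) := by
    rw [ENNReal.ofReal_mul (by positivity), ENNReal.ofReal_toReal hvt]
    exact h1
  exact (ENNReal.ofReal_le_ofReal_iff (by positivity)).1 h2

/-- A holomorphic normal form `h` of the weight `φ` at `c`:
`a |z - c|² ≤ φ - Re h ≤ A |z - c|²` on `ball c R`. -/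
structure NF (φ : Cm n → ℝ) (c : Cm n) (h : Cm n → ℂ) (a A R : ℝ) : Prop where
  diff : Differentiable ℂ h
  a_pos : 0 < a
  A_pos : 0 < A
  R_pos : 0 < R
  lower : ∀ z ∈ ball c R, a * ‖z - c‖ ^ 2 ≤ φ z - (h z).re
  upper : ∀ z ∈ ball c R, φ z - (h z).re ≤ A * ‖z - c‖ ^ 2

theorem exists_NF {φ : Cm n → ℝ} {c : Cm n} (hφ : ContDiffAt ℝ 2 φ c)
    (hpos : (cHess φ c).PosDef) : ∃ (h : Cm n → ℂ) (a A R : ℝ), NF φ c h a A R := by
  obtain ⟨h, a, A, hd, ha, hA, hev⟩ := normal_form hφ hpos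
  obtain ⟨R, hR, hball⟩ := Metric.eventually_nhds_iff_ball.1 hev
  exact ⟨h, a, A, R, hd, ha, hA, hR, fun z hz => (hball z hz).1, fun z hz => (hball z hz).2⟩

/-- smallness in `L²` on a fixed small ball gives smallness of the `1`-jet in the frame
`exp (m h / 2)` -/
theorem NF.small {φ : Cm n → ℝ} {c : Cm n} {h : Cm n → ℂ} {a A R : ℝ} (N : NF φ c h a A R)
    {ρ : ℝ} (hρ : 0 < ρ) (hρR : ρ ≤ R) {m : ℕ} {M : ℝ} (hM0 : 0 ≤ M) {u : Cm n → ℂ}
    (hu : DifferentiableOn ℂ u (ball c ρ))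
    (hM : nrm n m φ (ball c ρ) u ≤ ENNReal.ofReal M) :
    ‖u c * exp (-(m : ℂ) * h c / 2)‖ ≤
        Real.sqrt (Real.exp (m * (A * ρ ^ 2)) * M / (volume (ball (0 : Cm n) (ρ / 2))).toReal) ∧
    ∀ j : Fin n, ‖fderiv ℂ (fun z => u z * exp (-(m : ℂ) * h z / 2)) c (Pi.single j 1)‖ ≤
      Real.sqrt (Real.exp (m * (A * ρ ^ 2)) * M / (volume (ball (0 : Cm n) (ρ / 2))).toReal) /
        (ρ / 2 / 2) := by
  have h1 := sup_bound (k := (m : ℝ)) (A := A * ρ ^ 2) (u := u) (Nat.cast_nonneg m) hρ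
    (fun z hz => (N.upper z (ball_subset_ball hρR hz)).trans (by
      have : ‖z - c‖ < ρ := by rwa [mem_ball, dist_eq_norm] at hz
      have := N.A_pos
      gcongr)) N.diff hu hM0 hM
  simp only [ofReal_natCast] at h1
  refine ⟨h1 c (mem_ball_self (by positivity)), fun j => ?_⟩
  refine fderiv_bound (by positivity) ?_ h1 j
  refine (hu.mono (ball_subset_ball (by linarith))).mul ?_
  have hd := N.diff
  have : Differentiable ℂ fun z => exp (-(m : ℂ) * h z / 2) := by fun_prop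
  exact this.differentiableOn

/-- **Exponentially small `L²` norms give small `1`-jets**, on a ball `ball c ρ` whose radius only
depends on the rate `δ`. -/
theorem NF.eventually_small {φ : Cm n → ℝ} {c : Cm n} {h : Cm n → ℂ} {a A R : ℝ}
    (N : NF φ c h a A R) {δ ρ₀ : ℝ} (hδ : 0 < δ) (hρ₀ : 0 < ρ₀) :
    ∃ ρ : ℝ, 0 < ρ ∧ ρ ≤ ρ₀ ∧ ρ ≤ R ∧ ∀ K ε : ℝ, 0 ≤ K → 0 < ε → ∃ m₀ : ℕ, ∀ m : ℕ, m₀ ≤ m →
      ∀ u : Cm n → ℂ, DifferentiableOn ℂ u (ball c ρ) →
        nrm n m φ (ball c ρ) u ≤ ENNReal.ofReal (K * Real.exp (-δ * m)) →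
        ‖u c * exp (-(m : ℂ) * h c / 2)‖ ≤ ε ∧
        ∀ j : Fin n, ‖fderiv ℂ (fun z => u z * exp (-(m : ℂ) * h z / 2)) c (Pi.single j 1)‖ ≤ ε := by
  obtain ⟨ρ, hρ, hρ1, hρ2, hρ3⟩ : ∃ ρ : ℝ, 0 < ρ ∧ ρ ≤ ρ₀ ∧ ρ ≤ R ∧ A * ρ ^ 2 ≤ δ / 2 := by
    have hA := N.A_pos
    have hR := N.R_pos
    have h1 : Tendsto (fun ρ : ℝ => A * ρ ^ 2) (𝓝[>] 0) (𝓝 (A * 0 ^ 2)) := by
      apply Tendsto.mono_left _ nhdsWithin_le_nhds
      exact (by fun_prop : Continuous fun ρ : ℝ => A * ρ ^ 2).tendsto 0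
    have h2 : ∀ᶠ ρ : ℝ in 𝓝[>] 0, A * ρ ^ 2 < δ / 2 :=
      h1.eventually (gt_mem_nhds (by simp; positivity))
    have h3 : ∀ᶠ ρ : ℝ in 𝓝[>] 0, ρ < ρ₀ :=
      (gt_mem_nhds hρ₀).filter_mono nhdsWithin_le_nhds
    have h4 : ∀ᶠ ρ : ℝ in 𝓝[>] 0, ρ < R := (gt_mem_nhds hR).filter_mono nhdsWithin_le_nhds
    have h5 : ∀ᶠ ρ : ℝ in 𝓝[>] 0, 0 < ρ := self_mem_nhdsWithin
    obtain ⟨ρ, h⟩ := (h2.and (h3.and (h4.and h5))).exists
    exact ⟨ρ, h.2.2.2, h.2.1.le, h.2.2.1.le, h.1.le⟩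
  refine ⟨ρ, hρ, hρ1, hρ2, fun K ε hK hε => ?_⟩
  set v := (volume (ball (0 : Cm n) (ρ / 2))).toReal with hv
  have hv0 : 0 < v := ENNReal.toReal_pos (measure_ball_pos _ _ (by positivity)).ne'
    measure_ball_lt_top.ne
  have hlim : Tendsto (fun m : ℕ => Real.sqrt (K * Real.exp (-(δ / 2) * m) / v)) atTop (𝓝 0) := by
    have e1 : Tendsto (fun m : ℕ => Real.exp (-(δ / 2) * m)) atTop (𝓝 0) := by
      apply Real.tendsto_exp_atBot.comp
      apply Tendsto.const_mul_atTop_of_neg (by linarith) tendsto_natCast_atTop_atTop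
    have e2 : Tendsto (fun m : ℕ => K * Real.exp (-(δ / 2) * m) / v) atTop (𝓝 (K * 0 / v)) :=
      (e1.const_mul K).div_const v
    rw [mul_zero, zero_div] at e2
    have e3 := (Real.continuous_sqrt.tendsto 0).comp e2
    rwa [Real.sqrt_zero] at e3
  have hlim2 : ∀ᶠ m : ℕ in atTop, Real.sqrt (K * Real.exp (-(δ / 2) * m) / v) <
      min ε (ε * (ρ / 2 / 2)) :=
    hlim.eventually (gt_mem_nhds (by positivity))
  obtain ⟨m₀, hm₀⟩ := eventually_atTop.1 hlim2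
  refine ⟨m₀, fun m hm u hu hn => ?_⟩
  obtain ⟨h1, h2⟩ := N.small hρ hρ2 (M := K * Real.exp (-δ * m)) (by positivity) hu hn
  have h3 : Real.sqrt (Real.exp (m * (A * ρ ^ 2)) * (K * Real.exp (-δ * m)) / v) ≤
      Real.sqrt (K * Real.exp (-(δ / 2) * m) / v) := by
    apply Real.sqrt_le_sqrt
    apply div_le_div_of_nonneg_right _ hv0.le
    rw [mul_left_comm]
    apply mul_le_mul_of_nonneg_left _ hK
    rw [← Real.exp_add]
    apply Real.exp_le_exp.2
    have : (0 : ℝ) ≤ m := Nat.cast_nonneg m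
    nlinarith
  have h4 := hm₀ m hm
  refine ⟨h1.trans (h3.trans (h4.le.trans (min_le_left _ _))), fun j => ?_⟩
  refine (h2 j).trans ?_
  rw [div_le_iff₀ (by positivity)]
  exact h3.trans (h4.le.trans (min_le_right _ _))

end Vale.Agent.P272.KOD
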