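import Vale.Agent.P272.KOD.PeakB

/-!
# P272, stage 4 (Kodaira embedding), peak sections III: the cut-off local sections
-/

open scoped Manifold ContDiff ComplexOrder Topology Matrix ENNReal
open Complex Set Filter Metric MeasureTheory

noncomputable section

namespace Vale.Agent.P272.KOD

open Vale.Agent.P272.K

variable {n : ℕ}

/-- the affine functions `1, z_1 - c_1, …, z_n - c_n` -/
def qf (c : Cm n) (i : Fin (n + 1)) (z : Cm n) : ℂ :=
  Fin.cases (motive := fun _ => ℂ) 1 (fun j => z j - c j) i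

theorem qf_zero (c z : Cm n) : qf c 0 z = 1 := rfl
theorem qf_succ (c z : Cm n) (j : Fin n) : qf c j.succ z = z j - c j := rfl

theorem differentiable_qf (c : Cm n) (i : Fin (n + 1)) : Differentiable ℂ (qf c i) := by
  refine Fin.cases ?_ (fun j => ?_) i
  · exact differentiable_const _
  · have : qf c j.succ = fun z => z j - c j := rfl
    rw [this]
    fun_prop

theorem norm_qf_le (c : Cm n) (i : Fin (n + 1)) (z : Cm n) : ‖qf c i z‖ ≤ 1 + ‖z - c‖ := by
  refine Fin.cases ?_ (fun j => ?_) i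
  · rw [qf_zero, norm_one]
    have := norm_nonneg (z - c)
    linarith
  · rw [qf_succ]
    have := norm_le_pi_norm (z - c) j
    rw [Pi.sub_apply] at this
    linarith

/-- the local frame `exp (m h / 2)` -/
def frm (h : Cm n → ℂ) (m : ℕ) (z : Cm n) : ℂ := exp ((m : ℂ) * h z / 2)

theorem frm_ne (h : Cm n → ℂ) (m : ℕ) (z : Cm n) : frm h m z ≠ 0 := exp_ne_zero _

theorem differentiable_frm {h : Cm n → ℂ} (hh : Differentiable ℂ h) (m : ℕ) :
    Differentiable ℂ (frm h m) := by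
  unfold frm
  fun_prop

theorem norm_frm_sq (h : Cm n → ℂ) (m : ℕ) (z : Cm n) :
    ‖frm h m z‖ ^ 2 = Real.exp (m * (h z).re) := by
  unfold frm
  rw [Complex.norm_exp, ← Real.exp_nat_mul]
  congr 1
  have : ((m : ℂ) * h z / 2).re = m * (h z).re / 2 := by simp
  rw [this]
  push_cast
  ring

theorem exp_neg_mul_frm (h : Cm n → ℂ) (m : ℕ) (z : Cm n) :
    exp (-(m : ℂ) * h z / 2) * frm h m z = 1 := by
  unfold frm
  rw [← Complex.exp_add]
  have : -(m : ℂ) * h z / 2 + (m : ℂ) * h z / 2 = 0 := by ring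
  rw [this, Complex.exp_zero]

/-- the cut-off peak function `χ q exp (m h / 2)` -/
def pk (χ : Cm n → ℝ) (c : Cm n) (h : Cm n → ℂ) (m : ℕ) (i : Fin (n + 1)) (z : Cm n) : ℂ :=
  (χ z : ℂ) * (qf c i z * frm h m z)

/-- a cut-off function -/
structure Cut (c : Cm n) (r : ℝ) (χ : Cm n → ℝ) : Prop where
  smooth : ContDiff ℝ ∞ χ
  nonneg : ∀ z, 0 ≤ χ z
  le_one : ∀ z, χ z ≤ 1
  one : ∀ z ∈ closedBall c (r / 2), χ z = 1
  supp : tsupport χ ⊆ closedBall c r

theorem exists_cut (c : Cm n) {r : ℝ} (hr : 0 < r) : ∃ χ : Cm n → ℝ, Cut c r χ := by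
  let b : ContDiffBump c := ⟨r / 2, r, by positivity, by linarith⟩
  refine ⟨b, b.contDiff, fun z => b.nonneg, fun z => b.le_one, fun z hz => b.one_of_mem_closedBall hz,
    ?_⟩
  rw [b.tsupport_eq]

theorem contDiff_of_differentiable {f : Cm n → ℂ} (hf : Differentiable ℂ f) : ContDiff ℝ ∞ f := by
  have h1 : ContDiff ℂ ∞ f := by
    rw [contDiff_iff_contDiffAt]
    intro z
    exact (Vale.Agent.P268.analyticAt_of_differentiableOn isOpen_univ hf.differentiableOn
      (mem_univ z)).contDiffAt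
  exact h1.restrict_scalars ℝ

theorem dzb_mul_holo {χ : Cm n → ℝ} {g : Cm n → ℂ} {z : Cm n} (hχ : DifferentiableAt ℝ χ z)
    (hg : DifferentiableAt ℂ g z) (l : Fin n) :
    dzb l (fun y => (χ y : ℂ) * g y) z = dzb l (fun y => (χ y : ℂ)) z * g z := by
  have h1 : HasFDerivAt (fun y => (χ y : ℂ)) (ofRealCLM.comp (fderiv ℝ χ z)) z :=
    ofRealCLM.hasFDerivAt.comp z hχ.hasFDerivAt
  have h2 : HasFDerivAt g ((fderiv ℂ g z).restrictScalars ℝ) z :=
    hg.hasFDerivAt.restrictScalars ℝ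
  have h3 : HasFDerivAt (fun y => (χ y : ℂ) * g y) ((χ z : ℂ) •
      (fderiv ℂ g z).restrictScalars ℝ + g z • ofRealCLM.comp (fderiv ℝ χ z)) z := h1.mul h2
  have e1 : (Pi.single l I : Cm n) = I • Pi.single l (1 : ℂ) := by
    rw [← Pi.single_smul, smul_eq_mul, mul_one]
  unfold dzb
  rw [h3.fderiv, h1.fderiv]
  simp only [_root_.add_apply, _root_.smul_apply, smul_eq_mul,
    ContinuousLinearMap.coe_restrictScalars', e1, map_smul]
  have := I_mul_I
  linear_combination ((χ z : ℂ) * (fderiv ℂ g z) (Pi.single l 1) / 2) * this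

theorem pk_contDiff {χ : Cm n → ℝ} {c : Cm n} {r : ℝ} (hχ : Cut c r χ) {h : Cm n → ℂ}
    (hh : Differentiable ℂ h) (m : ℕ) (i : Fin (n + 1)) : ContDiff ℝ ∞ (pk χ c h m i) := by
  unfold pk
  have h1 : ContDiff ℝ ∞ fun z => ((χ z : ℝ) : ℂ) := ofRealCLM.contDiff.comp hχ.smooth
  exact h1.mul (contDiff_of_differentiable ((differentiable_qf c i).mul (differentiable_frm hh m)))

theorem pk_eq {χ : Cm n → ℝ} {c : Cm n} {r : ℝ} (hχ : Cut c r χ) (h : Cm n → ℂ) (m : ℕ)
    (i : Fin (n + 1)) {z : Cm n} (hz : z ∈ closedBall c (r / 2)) :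
    pk χ c h m i z = qf c i z * frm h m z := by
  rw [pk, hχ.one z hz, ofReal_one, one_mul]

theorem pk_eq_zero {χ : Cm n → ℝ} {c : Cm n} {r : ℝ} (hχ : Cut c r χ) (h : Cm n → ℂ) (m : ℕ)
    (i : Fin (n + 1)) {z : Cm n} (hz : z ∉ closedBall c r) : pk χ c h m i z = 0 := by
  have : χ z = 0 := image_eq_zero_of_notMem_tsupport fun h => hz (hχ.supp h)
  rw [pk, this, ofReal_zero, zero_mul]

theorem pk_tsupport {χ : Cm n → ℝ} {c : Cm n} {r : ℝ} (hχ : Cut c r χ) (h : Cm n → ℂ) (m : ℕ)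
    (i : Fin (n + 1)) : tsupport (pk χ c h m i) ⊆ closedBall c r := by
  apply closure_minimal _ isClosed_closedBall
  intro z hz
  by_contra hz'
  exact hz (pk_eq_zero hχ h m i hz')

theorem dzb_pk {χ : Cm n → ℝ} {c : Cm n} {r : ℝ} (hχ : Cut c r χ) {h : Cm n → ℂ}
    (hh : Differentiable ℂ h) (m : ℕ) (i : Fin (n + 1)) (l : Fin n) (z : Cm n) :
    dzb l (pk χ c h m i) z = dzb l (fun y => (χ y : ℂ)) z * (qf c i z * frm h m z) :=
  dzb_mul_holo (hχ.smooth.contDiffAt.differentiableAt (by simp))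
    (((differentiable_qf c i).mul (differentiable_frm hh m)) z) l

theorem dzb_eq_zero_of_eventuallyEq_const {f : Cm n → ℂ} {a : ℂ} {z : Cm n}
    (h : f =ᶠ[𝓝 z] fun _ => a) (l : Fin n) : dzb l f z = 0 := by
  unfold dzb
  rw [h.fderiv_eq]
  simp

theorem dzb_cut_eq_zero {χ : Cm n → ℝ} {c : Cm n} {r : ℝ} (hχ : Cut c r χ) (l : Fin n)
    {z : Cm n} (hz : z ∈ ball c (r / 2) ∨ z ∉ closedBall c r) :
    dzb l (fun y => (χ y : ℂ)) z = 0 := by
  rcases hz with hz | hz
  · apply dzb_eq_zero_of_eventuallyEq_const (a := 1)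
    filter_upwards [isOpen_ball.mem_nhds hz] with y hy
    rw [hχ.one y (ball_subset_closedBall hy), ofReal_one]
  · apply dzb_eq_zero_of_eventuallyEq_const (a := 0)
    filter_upwards [isClosed_closedBall.isOpen_compl.mem_nhds hz] with y hy
    have : χ y = 0 := image_eq_zero_of_notMem_tsupport fun h => hy (hχ.supp h)
    rw [this, ofReal_zero]

theorem continuous_dzb {f : Cm n → ℂ} (hf : ContDiff ℝ ∞ f) (l : Fin n) :
    Continuous (dzb l f) := by
  have h1 : Continuous (fderiv ℝ f) := hf.continuous_fderiv (by simp)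
  unfold dzb
  fun_prop

/-- **The `∂̄` of the peak functions is exponentially small** in the weighted norm. -/
theorem NF.dbar_bound {φ : Cm n → ℝ} {c : Cm n} {h : Cm n → ℂ} {a A R : ℝ} (N : NF φ c h a A R)
    {χ : Cm n → ℝ} {r : ℝ} (hr : 0 < r) (hrR : r < R) (hχ : Cut c r χ) :
    ∃ C : ℝ, 0 ≤ C ∧ ∀ (m : ℕ) (i : Fin (n + 1)) (z : Cm n),
      (∑ l, ‖dzb l (pk χ c h m i) z‖ ^ 2) * Real.exp (-(m : ℝ) * φ z) ≤
        C * Real.exp (-(a * r ^ 2 / 4) * m) := by
  have hcont : Continuous fun z => ∑ l : Fin n, ‖dzb l (fun y => (χ y : ℂ)) z‖ ^ 2 := by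
    have : ContDiff ℝ ∞ fun z => ((χ z : ℝ) : ℂ) := ofRealCLM.contDiff.comp hχ.smooth
    have h2 := fun l => continuous_dzb this l
    fun_prop
  obtain ⟨C, hC⟩ := (isCompact_closedBall c r).exists_bound_of_continuousOn hcont.continuousOn
  have hC0 : 0 ≤ C := (norm_nonneg _).trans (hC c (mem_closedBall_self hr.le))
  refine ⟨C * (1 + r) ^ 2, by positivity, fun m i z => ?_⟩
  by_cases hz : z ∈ ball c (r / 2) ∨ z ∉ closedBall c r
  · have h0 : ∑ l, ‖dzb l (pk χ c h m i) z‖ ^ 2 = 0 := by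
      apply Finset.sum_eq_zero
      intro l _
      rw [dzb_pk hχ N.diff, dzb_cut_eq_zero hχ l hz, zero_mul, norm_zero]
      simp
    rw [h0, zero_mul]
    positivity
  · push Not at hz
    obtain ⟨hz1, hz2⟩ := hz
    have hzR : z ∈ ball c R := by
      rw [mem_ball]
      exact lt_of_le_of_lt hz2 hrR
    have hn1 : r / 2 ≤ ‖z - c‖ := by
      rw [mem_ball, dist_eq_norm, not_lt] at hz1
      exact hz1
    have hn2 : ‖z - c‖ ≤ r := by rwa [mem_closedBall, dist_eq_norm] at hz2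
    have h1 : ∑ l, ‖dzb l (pk χ c h m i) z‖ ^ 2 =
        (∑ l, ‖dzb l (fun y => (χ y : ℂ)) z‖ ^ 2) * (‖qf c i z‖ ^ 2 * ‖frm h m z‖ ^ 2) := by
      rw [Finset.sum_mul]
      refine Finset.sum_congr rfl fun l _ => ?_
      rw [dzb_pk hχ N.diff, norm_mul, norm_mul, mul_pow, mul_pow]
    have h2 : ∑ l, ‖dzb l (fun y => (χ y : ℂ)) z‖ ^ 2 ≤ C := by
      have := hC z hz2
      exact (le_abs_self _).trans this
    have h3 : ‖qf c i z‖ ^ 2 ≤ (1 + r) ^ 2 := by
      have := norm_qf_le c i z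
      have h4 : ‖qf c i z‖ ≤ 1 + r := by linarith
      exact pow_le_pow_left₀ (norm_nonneg _) h4 2
    rw [h1, norm_frm_sq]
    have h5 : Real.exp (m * (h z).re) * Real.exp (-(m : ℝ) * φ z) ≤
        Real.exp (-(a * r ^ 2 / 4) * m) := by
      rw [← Real.exp_add]
      apply Real.exp_le_exp.2
      have h6 := N.lower z hzR
      have h7 : a * (r / 2) ^ 2 ≤ a * ‖z - c‖ ^ 2 := by
        have := N.a_pos
        gcongr
      have h8 : (0 : ℝ) ≤ m := Nat.cast_nonneg m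
      nlinarith
    calc (∑ l, ‖dzb l (fun y => (χ y : ℂ)) z‖ ^ 2) * (‖qf c i z‖ ^ 2 * Real.exp (m * (h z).re)) *
          Real.exp (-(m : ℝ) * φ z)
        = (∑ l, ‖dzb l (fun y => (χ y : ℂ)) z‖ ^ 2) * ‖qf c i z‖ ^ 2 *
          (Real.exp (m * (h z).re) * Real.exp (-(m : ℝ) * φ z)) := by ring
      _ ≤ C * (1 + r) ^ 2 * Real.exp (-(a * r ^ 2 / 4) * m) := by
          gcongr

end Vale.Agent.P272.KOD
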