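import Vale.Agent.P272.KOD.PeakD
import Vale.Agent.P272.KOD.Tools
import Vale.Agent.P272.KOD.PX1

/-!
# P272, stage 4 (Kodaira embedding), peak sections V: `PeakStmt`
-/

open scoped Manifold ContDiff ComplexOrder Topology Matrix ENNReal
open Complex Set Filter Metric MeasureTheory

set_option linter.all false

noncomputable section

namespace Vale.Agent.P272.KOD

open Vale.Agent.P272.K

variable {n : ℕ}

theorem nrm_mono {m : ℕ} {φ : Cm n → ℝ} {V V' : Set (Cm n)} (h : V' ⊆ V) (hm : MeasurableSet V')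
    {f g : Cm n → ℂ} (hfg : ∀ z ∈ V', g z = f z) : nrm n m φ V' g ≤ nrm n m φ V f := by
  unfold nrm
  calc ∫⁻ z in V', ENNReal.ofReal (‖g z‖ ^ 2 * Real.exp (-(m : ℝ) * φ z))
      = ∫⁻ z in V', ENNReal.ofReal (‖f z‖ ^ 2 * Real.exp (-(m : ℝ) * φ z)) :=
        setLIntegral_congr_fun hm fun z hz => by rw [hfg z hz]
    _ ≤ _ := lintegral_mono_set h

section
variable {X : Type} [TopologicalSpace X] [T2Space X] [CompactSpace X] [ChartedSpace (Cm n) X]
  [IsManifold 𝓘(ℂ, Cm n) ω X]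

/-- differentiability of the coefficients of a holomorphic section -/
theorem PSec.diffOn {m : ℕ} (s : PSec n m X) {e : Chart n X} (he : e ∈ atlas (Cm n) X)
    {U : Set (Cm n)} (hU : U ⊆ e.target) : DifferentiableOn ℂ (s.coeff e) U := by
  intro z hz
  have h := s.holo e (e.symm z) (At.of_target he (hU hz))
  rw [e.right_inv (hU hz)] at h
  exact h.differentiableAt.differentiableWithinAt

/-- Holomorphic sections close to the peak functions at `x`, for all `m ≥ m₁`. -/
theorem exists_near {φ : Chart n X → Cm n → ℝ} (hφ : IsCanonicalMetric φ)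
    {N : ℕ} {e : Fin N → Chart n X} {V : Fin N → Set (Cm n)} {C : ℝ} {m₁ : ℕ} (hC : 0 ≤ C)
    (he : ∀ i, e i ∈ atlas (Cm n) X) (hVc : ∀ i, IsCompact (closure (V i)))
    (hVt : ∀ i, closure (V i) ⊆ (e i).target)
    (hkey : ∀ m, m₁ ≤ m → ∀ σ : SSec n m X, ∃ s : PSec n m X, ∀ i,
      nrm n m (φ (e i)) (V i) (fun z => σ.coeff (e i) z - s.coeff (e i) z) ≤
        ENNReal.ofReal C * ∑ j, dnrm n m (φ (e j)) (V j) (σ.coeff (e j)))
    (i : Fin N) {c : Cm n} {h : Cm n → ℂ} {a A R : ℝ}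
    (nf : NF (φ (e i)) c h a A R) {r : ℝ} (hr : 0 < r) (hrR : r < R)
    (hrt : closedBall c r ⊆ (e i).target) :
    ∃ K : ℝ, 0 ≤ K ∧ ∀ m, m₁ ≤ m → ∀ q : Fin (n + 1), ∃ s : PSec n m X,
      (∀ V' : Set (Cm n), MeasurableSet V' → V' ⊆ V i → V' ⊆ closedBall c (r / 2) →
        nrm n m (φ (e i)) V' (fun z => qf c q z * frm h m z - s.coeff (e i) z) ≤
          ENNReal.ofReal (K * Real.exp (-(a * r ^ 2 / 4) * m))) ∧
      (∀ (j : Fin N) (h' : Cm n → ℂ) (V' : Set (Cm n)), MeasurableSet V' → V' ⊆ V j →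
        (∀ z ∈ V', (e j).symm z ∉ (e i).symm '' closedBall c r) →
        nrm n m (φ (e j)) V' (fun z => 0 * frm h' m z - s.coeff (e j) z) ≤
          ENNReal.ofReal (K * Real.exp (-(a * r ^ 2 / 4) * m))) := by
  obtain ⟨χ, hχ⟩ := exists_cut c hr
  obtain ⟨C₁, hC₁, hb⟩ := nf.dbar_bound hr hrR hχ
  obtain ⟨C₂, hC₂, hsum⟩ := sum_dnrm_le hφ he hVc hVt (he i) (isCompact_closedBall c r) hrt
  refine ⟨C * (C₂ * C₁), by positivity, fun m hm q => ?_⟩
  set f : Cm n → ℂ := pk χ c h m q with hf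
  set σ : SSec n m X := locSec m (e i) (he i) f
    (fun z _ => (pk_contDiff hχ nf.diff m q).contDiffAt) (closedBall c r)
    (isCompact_closedBall c r) hrt (fun z hz => pk_eq_zero hχ h m q hz) with hσ
  have hσe : ∀ z ∈ (e i).target, σ.coeff (e i) z = f z := fun z hz => locCoeff_self (he i) hz
  have hσ0 : ∀ e' x, At e' x → x ∉ (e i).symm '' closedBall c r → σ.coeff e' (e' x) = 0 :=
    fun e' x hx hxn => (locCoeff_eventually_zero (isCompact_closedBall c r) hrt
      (fun z hz => pk_eq_zero hχ h m q hz) hx hxn).self_of_nhds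
  have hbd : ∀ z ∈ closedBall c r, (∑ l, ‖dzb l (σ.coeff (e i)) z‖ ^ 2) *
      Real.exp (-(m : ℝ) * φ (e i) z) ≤ C₁ * Real.exp (-(a * r ^ 2 / 4) * m) := by
    intro z hz
    have hev : σ.coeff (e i) =ᶠ[𝓝 z] f := by
      filter_upwards [(e i).open_target.mem_nhds (hrt hz)] with y hy
      exact hσe y hy
    have : ∀ l, dzb l (σ.coeff (e i)) z = dzb l f z := fun l => by
      unfold dzb
      rw [hev.fderiv_eq]
    simp only [this]
    exact hb m q z
  have h1 := hsum m σ (C₁ * Real.exp (-(a * r ^ 2 / 4) * m)) (by positivity) hσ0 hbd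
  obtain ⟨s, hs⟩ := hkey m hm σ
  have h2 : ∀ j, nrm n m (φ (e j)) (V j) (fun z => σ.coeff (e j) z - s.coeff (e j) z) ≤
      ENNReal.ofReal (C * (C₂ * C₁) * Real.exp (-(a * r ^ 2 / 4) * m)) := by
    intro j
    refine (hs j).trans ?_
    calc ENNReal.ofReal C * ∑ j, dnrm n m (φ (e j)) (V j) (σ.coeff (e j))
        ≤ ENNReal.ofReal C * ENNReal.ofReal (C₂ * (C₁ * Real.exp (-(a * r ^ 2 / 4) * m))) := by
          gcongr
      _ = ENNReal.ofReal (C * (C₂ * C₁) * Real.exp (-(a * r ^ 2 / 4) * m)) := by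
          rw [← ENNReal.ofReal_mul hC]
          congr 1
          ring
  refine ⟨s, ?_, ?_⟩
  · intro V' hV'm hV' hV'r
    refine (nrm_mono hV' hV'm fun z hz => ?_).trans (h2 i)
    have hzr : z ∈ closedBall c r := closedBall_subset_closedBall (by linarith) (hV'r hz)
    rw [hσe z (hrt hzr), hf, pk_eq hχ h m q (hV'r hz)]
  · intro j h' V' hV'm hV' hV'0
    refine (nrm_mono hV' hV'm fun z hz => ?_).trans (h2 j)
    have hzt : z ∈ (e j).target := hVt j (subset_closure (hV' hz))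
    have h3 := hσ0 (e j) ((e j).symm z) (At.of_target (he j) hzt) (hV'0 z hz)
    rw [(e j).right_inv hzt] at h3
    rw [h3, zero_mul]

/-- a small closed ball -/
theorem exists_radius {e : Chart n X} {c : Cm n} (hc : c ∈ e.target) {O : Set X} (hO : IsOpen O)
    (hcO : e.symm c ∈ O) {R : ℝ} (hR : 0 < R) :
    ∃ r : ℝ, 0 < r ∧ r < R ∧ closedBall c r ⊆ e.target ∧ e.symm '' closedBall c r ⊆ O := by
  have h1 : ∀ᶠ z in 𝓝 c, z ∈ e.target ∧ e.symm z ∈ O :=
    (e.open_target.eventually_mem hc).and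
      ((e.continuousAt_symm hc).eventually_mem (hO.mem_nhds hcO))
  obtain ⟨r₀, hr₀, hball⟩ := Metric.eventually_nhds_iff_ball.1 h1
  refine ⟨min r₀ R / 2, by positivity, ?_, ?_, ?_⟩
  · have := min_le_right r₀ R
    have := lt_min hr₀ hR
    linarith
  · intro z hz
    refine (hball z ?_).1
    rw [mem_ball]
    rw [mem_closedBall] at hz
    have := min_le_left r₀ R
    have := lt_min hr₀ hR
    linarith
  · rintro _ ⟨z, hz, rfl⟩
    refine (hball z ?_).2
    rw [mem_ball]
    rw [mem_closedBall] at hz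
    have := min_le_left r₀ R
    have := lt_min hr₀ hR
    linarith

end

/-- **Block K4**: peak sections give the `1`-jets at every point and separate the points. -/
theorem peakStmt : PeakStmt := by
  intro n X _ _ _ _ _ φ hφ hpos hK
  obtain ⟨N, e, V, C, m₁, hC, hm₁, he, hVo, hVc, hVt, hcov, hkey⟩ := hK
  have hnf : ∀ (i : Fin N) (x : X), x ∈ (e i).source →
      ∃ (h : Cm n → ℂ) (a A R : ℝ), NF (φ (e i)) (e i x) h a A R := fun i x hx =>
    exists_NF ((hφ.smooth (e i) x ⟨he i, hx⟩).of_le (by norm_cast))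
      (hpos (e i) x ⟨he i, hx⟩)
  constructor
  · intro x
    obtain ⟨i, hxi, hxV⟩ := hcov x
    obtain ⟨h, a, A, R, nf⟩ := hnf i x hxi
    set c := e i x with hc
    have hct : c ∈ (e i).target := (e i).map_source hxi
    obtain ⟨r, hr, hrR, hrt, -⟩ := exists_radius (e := e i) hct isOpen_univ (mem_univ _) nf.R_pos
    obtain ⟨K, hK0, hnear⟩ := exists_near hφ hC he hVc hVt hkey i nf hr hrR hrt
    obtain ⟨ρ₁, hρ₁, hb₁⟩ := Metric.isOpen_iff.1 (hVo i) c hxV
    have hδ : 0 < a * r ^ 2 / 4 := by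
      have := nf.a_pos
      positivity
    obtain ⟨ρ, hρ, hρ2, hρR, hjet⟩ := nf.jet hδ (ρ₀ := min ρ₁ (r / 2)) (by positivity)
    obtain ⟨m₂, hm₂⟩ := hjet K hK0
    have hbV : ball c ρ ⊆ V i :=
      (ball_subset_ball (hρ2.trans (min_le_left _ _))).trans hb₁
    have hbr : ball c ρ ⊆ closedBall c (r / 2) :=
      (ball_subset_ball (hρ2.trans (min_le_right _ _))).trans ball_subset_closedBall
    refine ⟨max m₁ m₂, hm₁.trans (le_max_left _ _), ?_⟩
    choose s hs using hnear (max m₁ m₂) (le_max_left _ _)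
    obtain ⟨hj1, hj2⟩ := hm₂ (max m₁ m₂) (le_max_right _ _) (fun q => (s q).coeff (e i))
      (fun q => (s q).diffOn (he i) ((hbV.trans subset_closure).trans (hVt i)))
      (fun q => (hs q).1 (ball c ρ) measurableSet_ball hbV hbr)
    exact ⟨s, e i, ⟨he i, hxi⟩, hj1, hj2⟩
  · intro x y hxy
    obtain ⟨i, hxi, hxV⟩ := hcov x
    obtain ⟨j, hyj, hyV⟩ := hcov y
    obtain ⟨h, a, A, R, nf⟩ := hnf i x hxi
    obtain ⟨h', a', A', R', nf'⟩ := hnf j y hyj
    obtain ⟨O, O', hO, hO', hxO, hyO, hdis⟩ := t2_separation hxy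
    set c := e i x with hc
    set c' := e j y with hc'
    have hct : c ∈ (e i).target := (e i).map_source hxi
    have hct' : c' ∈ (e j).target := (e j).map_source hyj
    obtain ⟨r, hr, hrR, hrt, hrO⟩ := exists_radius (e := e i) hct hO
      (by rw [hc, (e i).left_inv hxi]; exact hxO) nf.R_pos
    obtain ⟨r', hr', hrR', hrt', hrO'⟩ := exists_radius (e := e j) hct' hO'
      (by rw [hc', (e j).left_inv hyj]; exact hyO) nf'.R_pos
    obtain ⟨K, hK0, hnear⟩ := exists_near hφ hC he hVc hVt hkey i nf hr hrR hrt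
    obtain ⟨K', hK0', hnear'⟩ := exists_near hφ hC he hVc hVt hkey j nf' hr' hrR' hrt'
    obtain ⟨ρ₁, hρ₁, hb₁⟩ := Metric.isOpen_iff.1 (hVo i) c hxV
    obtain ⟨ρ₁', hρ₁', hb₁'⟩ := Metric.isOpen_iff.1 (hVo j) c' hyV
    set δ := min (a * r ^ 2 / 4) (a' * r' ^ 2 / 4) with hδdef
    have hδ : 0 < δ := by
      have := nf.a_pos
      have := nf'.a_pos
      positivity
    obtain ⟨ρ, hρ, hρ2, hρR, hval⟩ := nf.value hδ (ρ₀ := min ρ₁ (r / 2)) (by positivity)
    obtain ⟨ρ', hρ', hρ2', hρR', hval'⟩ := nf'.value hδ (ρ₀ := min ρ₁' (r' / 2)) (by positivity)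
    obtain ⟨m₂, hm₂⟩ := hval (max K K') (1 / 4) (le_max_of_le_left hK0) (by norm_num)
    obtain ⟨m₃, hm₃⟩ := hval' (max K K') (1 / 4) (le_max_of_le_left hK0) (by norm_num)
    have hbV : ball c ρ ⊆ V i :=
      (ball_subset_ball (hρ2.trans (min_le_left _ _))).trans hb₁
    have hbr : ball c ρ ⊆ closedBall c (r / 2) :=
      (ball_subset_ball (hρ2.trans (min_le_right _ _))).trans ball_subset_closedBall
    have hbV' : ball c' ρ' ⊆ V j :=
      (ball_subset_ball (hρ2'.trans (min_le_left _ _))).trans hb₁'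
    have hbr' : ball c' ρ' ⊆ closedBall c' (r' / 2) :=
      (ball_subset_ball (hρ2'.trans (min_le_right _ _))).trans ball_subset_closedBall
    set m := max m₁ (max m₂ m₃) with hm
    obtain ⟨s, hs1, hs2⟩ := hnear m (le_max_left _ _) 0
    obtain ⟨t, ht1, ht2⟩ := hnear' m (le_max_left _ _) 0
    have hexp : Real.exp (-(a * r ^ 2 / 4) * m) ≤ Real.exp (-δ * m) := by
      apply Real.exp_le_exp.2
      have : δ ≤ a * r ^ 2 / 4 := min_le_left _ _
      have : (0 : ℝ) ≤ m := Nat.cast_nonneg m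
      nlinarith
    have hexp' : Real.exp (-(a' * r' ^ 2 / 4) * m) ≤ Real.exp (-δ * m) := by
      apply Real.exp_le_exp.2
      have : δ ≤ a' * r' ^ 2 / 4 := min_le_right _ _
      have : (0 : ℝ) ≤ m := Nat.cast_nonneg m
      nlinarith
    have hbd : ENNReal.ofReal (K * Real.exp (-(a * r ^ 2 / 4) * m)) ≤
        ENNReal.ofReal (max K K' * Real.exp (-δ * m)) := by
      apply ENNReal.ofReal_le_ofReal
      have := le_max_left K K'
      gcongr
    have hbd' : ENNReal.ofReal (K' * Real.exp (-(a' * r' ^ 2 / 4) * m)) ≤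
        ENNReal.ofReal (max K K' * Real.exp (-δ * m)) := by
      apply ENNReal.ofReal_le_ofReal
      have := le_max_right K K'
      gcongr
    have hfar : ∀ z ∈ ball c' ρ', (e j).symm z ∉ (e i).symm '' closedBall c r := by
      intro z hz hz'
      have h1 : (e j).symm z ∈ O := hrO hz'
      have h2 : (e j).symm z ∈ O' := hrO' ⟨z, closedBall_subset_closedBall (by linarith)
        (hbr' hz), rfl⟩
      exact (Set.disjoint_left.1 hdis h1) h2
    have hfar' : ∀ z ∈ ball c ρ, (e i).symm z ∉ (e j).symm '' closedBall c' r' := by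
      intro z hz hz'
      have h1 : (e i).symm z ∈ O' := hrO' hz'
      have h2 : (e i).symm z ∈ O := hrO ⟨z, closedBall_subset_closedBall (by linarith)
        (hbr hz), rfl⟩
      exact (Set.disjoint_left.1 hdis h2) h1
    have hsub : ball c ρ ⊆ (e i).target := (hbV.trans subset_closure).trans (hVt i)
    have hsub' : ball c' ρ' ⊆ (e j).target := (hbV'.trans subset_closure).trans (hVt j)
    have hmm₂ : m₂ ≤ m := (le_max_left _ _).trans (le_max_right _ _)
    have hmm₃ : m₃ ≤ m := (le_max_right _ _).trans (le_max_right _ _)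
    have v1 := hm₂ m hmm₂ 1 (s.coeff (e i)) (s.diffOn (he i) hsub)
      (by
        have := (hs1 (ball c ρ) measurableSet_ball hbV hbr).trans hbd
        simpa only [qf_zero] using this)
    have v2 := hm₂ m hmm₂ 0 (t.coeff (e i)) (t.diffOn (he i) hsub)
      ((ht2 i h (ball c ρ) measurableSet_ball hbV hfar').trans hbd')
    have v3 := hm₃ m hmm₃ 1 (t.coeff (e j)) (t.diffOn (he j) hsub')
      (by
        have := (ht1 (ball c' ρ') measurableSet_ball hbV' hbr').trans hbd'
        simpa only [qf_zero] using this)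
    have v4 := hm₃ m hmm₃ 0 (s.coeff (e j)) (s.diffOn (he j) hsub')
      ((hs2 j h' (ball c' ρ') measurableSet_ball hbV' hfar).trans hbd)
    refine ⟨m, hm₁.trans (le_max_left _ _), s, t, e i, e j, ⟨he i, hxi⟩, ⟨he j, hyj⟩, ?_⟩
    exact det_ne_zero_of_close v1 v4 v2 v3

end Vale.Agent.P272.KOD
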