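import Vale.Agent.P272.KOD.Defs
import Vale.Agent.P272.K.Inv.Chart
import Mathlib.MeasureTheory.Measure.Lebesgue.VolumeOfBalls

/-!
# P272, stage 4, block K4b (part 1): change of charts for the `∂̄`-norms of sections of `K_X^m`
-/

open scoped Manifold ContDiff ComplexOrder Topology
open MeasureTheory Set

set_option linter.all false

noncomputable section

namespace Vale.Agent.P272.KOD

open Vale.Agent.P272.K

variable {n m : ℕ} {X : Type*} [TopologicalSpace X] [ChartedSpace (Cm n) X]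
  [IsManifold 𝓘(ℂ, Cm n) ω X]

/-- the `∂̄`-density of a smooth section in a chart -/
def dens (m : ℕ) (φ : Cm n → ℝ) (f : Cm n → ℂ) (z : Cm n) : ℝ :=
  (∑ l, ‖dzb l f z‖ ^ 2) * Real.exp (-(m : ℝ) * φ z)

lemma dens_nonneg (φ : Cm n → ℝ) (f : Cm n → ℂ) (z : Cm n) : 0 ≤ dens m φ f z := by
  unfold dens; positivity

/-- sum of the squares of the entries of the Jacobian matrix -/
def jsq (e e' : Chart n X) (x : X) : ℝ := ∑ p, ∑ l, ‖jacM e e' x p l‖ ^ 2

lemma jsq_nonneg (e e' : Chart n X) (x : X) : 0 ≤ jsq e e' x := by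
  unfold jsq; positivity

lemma SSec.coeff_eventually (σ : SSec n m X) {e e' : Chart n X} {x : X} (h : At e x)
    (h' : At e' x) :
    σ.coeff e' =ᶠ[𝓝 (e' x)] fun z => σ.coeff e (e (e'.symm z)) * (jacM e' e (e'.symm z)).det ^ m := by
  filter_upwards [h'.nhds_at h] with z hz
  have := σ.change e' e (e'.symm z) hz.2.1 hz.2.2
  rwa [e'.right_inv hz.1] at this

lemma SSec.dzb_change (σ : SSec n m X) {e e' : Chart n X} {x : X} (h : At e x)
    (h' : At e' x) (l : Fin n) :
    dzb l (σ.coeff e') (e' x) =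
      (∑ p, dzb p (σ.coeff e) (e x) * cj (jacM e' e x p l)) * (jacM e' e x).det ^ m := by
  rw [dzb_congr (σ.coeff_eventually h h')]
  have hx : e (e'.symm (e' x)) = e x := by rw [h'.left_inv]
  have hs : DifferentiableAt ℝ (σ.coeff e) (e (e'.symm (e' x))) := by
    rw [hx]; exact (σ.smooth e x h).differentiableAt (by simp)
  have ht : DifferentiableAt ℂ (fun z => e (e'.symm z)) (e' x) :=
    transition_differentiableAt h' h
  have h1 : DifferentiableAt ℝ (fun z => σ.coeff e (e (e'.symm z))) (e' x) :=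
    DifferentiableAt.comp (e' x) (g := σ.coeff e) hs (ht.restrictScalars ℝ)
  have hd : DifferentiableAt ℂ (fun z => (jacM e' e (e'.symm z)).det ^ m) (e' x) :=
    ((jacM_det_holo h' h).differentiableAt (by simp)).pow m
  rw [dzb_mul h1 (hd.restrictScalars ℝ), dzb_of_holo hd,
    dzb_comp_holo (τ := fun z => e (e'.symm z)) hs ht, hx, h'.left_inv, mul_zero, add_zero]
  rfl

lemma exp_change {φ : Chart n X → Cm n → ℝ} (hφ : IsCanonicalMetric φ) {e e' : Chart n X} {x : X}
    (h : At e x) (h' : At e' x) :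
    ‖(jacM e' e x).det‖ ^ (2 * m) * Real.exp (-(m : ℝ) * φ e' (e' x)) =
      Real.exp (-(m : ℝ) * φ e (e x)) := by
  have hne : (0 : ℝ) < ‖(jacM e' e x).det‖ := norm_pos_iff.2 (jacM_det_ne_zero h' h)
  rw [hφ.change e' e x h' h, Real.log_pow, mul_add, Real.exp_add, ← mul_assoc,
    mul_comm (‖(jacM e' e x).det‖ ^ (2 * m)), mul_assoc]
  have : Real.exp (-(m : ℝ) * (((2 : ℕ) : ℝ) * Real.log ‖(jacM e' e x).det‖)) =
      (‖(jacM e' e x).det‖ ^ (2 * m))⁻¹ := by
    rw [← Real.exp_log (pow_pos hne (2 * m)), ← Real.exp_neg, Real.log_pow]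
    congr 1
    push_cast
    ring
  rw [this, mul_inv_cancel₀ (pow_ne_zero _ hne.ne'), mul_one]

lemma SSec.dens_change (σ : SSec n m X) {φ : Chart n X → Cm n → ℝ} (hφ : IsCanonicalMetric φ)
    {e e' : Chart n X} {x : X} (h : At e x) (h' : At e' x) :
    dens m (φ e') (σ.coeff e') (e' x) ≤ jsq e' e x * dens m (φ e) (σ.coeff e) (e x) := by
  unfold dens
  have h1 : ∀ l, ‖dzb l (σ.coeff e') (e' x)‖ ^ 2 =
      ‖∑ p, dzb p (σ.coeff e) (e x) * cj (jacM e' e x p l)‖ ^ 2 *
        ‖(jacM e' e x).det‖ ^ (2 * m) := by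
    intro l
    rw [σ.dzb_change h h' l, norm_mul, norm_pow, mul_pow, ← pow_mul, mul_comm m 2]
  have h2 : ∀ l, ‖∑ p, dzb p (σ.coeff e) (e x) * cj (jacM e' e x p l)‖ ^ 2 ≤
      (∑ p, ‖dzb p (σ.coeff e) (e x)‖ ^ 2) * ∑ p, ‖jacM e' e x p l‖ ^ 2 := by
    intro l
    calc ‖∑ p, dzb p (σ.coeff e) (e x) * cj (jacM e' e x p l)‖ ^ 2
        ≤ (∑ p, ‖dzb p (σ.coeff e) (e x)‖ * ‖jacM e' e x p l‖) ^ 2 := by
          gcongr
          refine (norm_sum_le _ _).trans (Finset.sum_le_sum fun p _ => ?_)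
          rw [norm_mul, RCLike.norm_conj]
      _ ≤ _ := Finset.sum_mul_sq_le_sq_mul_sq _ _ _
  calc (∑ l, ‖dzb l (σ.coeff e') (e' x)‖ ^ 2) * Real.exp (-(m : ℝ) * φ e' (e' x))
      = (∑ l, ‖∑ p, dzb p (σ.coeff e) (e x) * cj (jacM e' e x p l)‖ ^ 2) *
        Real.exp (-(m : ℝ) * φ e (e x)) := by
        simp only [h1, ← Finset.sum_mul]
        rw [mul_assoc, exp_change hφ h h']
    _ ≤ (∑ l, (∑ p, ‖dzb p (σ.coeff e) (e x)‖ ^ 2) * ∑ p, ‖jacM e' e x p l‖ ^ 2) *
        Real.exp (-(m : ℝ) * φ e (e x)) := by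
        gcongr with l _
        exact h2 l
    _ = _ := by
        rw [← Finset.mul_sum, Finset.sum_comm]
        unfold jsq
        ring

/-- continuity of the Jacobian matrix -/
lemma jsq_continuousAt {e e' : Chart n X} {x : X} (h : At e x) (h' : At e' x) :
    ContinuousAt (jsq e e') x := by
  have h1 : ∀ p l, ContinuousAt (fun y => jacM e e' y p l) x := by
    intro p l
    have h2 : ContinuousAt (fun z => jacM e e' (e.symm z) p l) (e x) :=
      (jacM_holo h h' p l).continuousAt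
    have h3 : ContinuousAt (fun y => jacM e e' (e.symm (e y)) p l) x :=
      ContinuousAt.comp (g := fun z => jacM e e' (e.symm z) p l) h2 (e.continuousAt h.2)
    refine h3.congr ?_
    filter_upwards [e.open_source.mem_nhds h.2] with y hy
    rw [e.left_inv hy]
  unfold jsq
  exact tendsto_finsetSum _ fun p _ => tendsto_finsetSum _ fun l _ => ((h1 p l).norm.pow 2)

lemma exists_jsq_bound [T2Space X] {e e' : Chart n X} (he : e ∈ atlas (Cm n) X)
    (he' : e' ∈ atlas (Cm n) X) {K K' : Set (Cm n)} (hK : IsCompact K) (hK' : IsCompact K')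
    (hKe : K ⊆ e.target) (hKe' : K' ⊆ e'.target) :
    ∃ C : ℝ, 0 ≤ C ∧ ∀ x, x ∈ e.source → x ∈ e'.source → e x ∈ K → e' x ∈ K' →
      jsq e' e x ≤ C := by
  have c1 : IsCompact (e.symm '' K) := hK.image_of_continuousOn (e.continuousOn_symm.mono hKe)
  have c2 : IsCompact (e'.symm '' K') := hK'.image_of_continuousOn (e'.continuousOn_symm.mono hKe')
  have c3 : IsCompact (e.symm '' K ∩ e'.symm '' K') := c1.inter c2
  have c4 : ContinuousOn (jsq e' e) (e.symm '' K ∩ e'.symm '' K') := by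
    rintro x ⟨⟨z, hz, rfl⟩, ⟨z', hz', hzz⟩⟩
    have a1 : At e (e.symm z) := ⟨he, e.map_target (hKe hz)⟩
    have a2 : At e' (e.symm z) := ⟨he', by rw [← hzz]; exact e'.map_target (hKe' hz')⟩
    exact (jsq_continuousAt a2 a1).continuousWithinAt
  obtain ⟨C, hC⟩ := c3.bddAbove_image c4
  refine ⟨max C 0, le_max_right _ _, fun x hx hx' hk hk' => ?_⟩
  refine le_trans (hC ⟨x, ⟨⟨e x, hk, e.left_inv hx⟩, ⟨e' x, hk', e'.left_inv hx'⟩⟩, rfl⟩)
    (le_max_left _ _)

/-- The `∂̄`-norm on a coordinate domain of a section with support in a compact subset of a chart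
with small `∂̄`-density there. -/
theorem exists_dnrm_bound [T2Space X] {φ : Chart n X → Cm n → ℝ} (hφ : IsCanonicalMetric φ)
    {e e' : Chart n X} (he : e ∈ atlas (Cm n) X) (he' : e' ∈ atlas (Cm n) X)
    {K V : Set (Cm n)} (hK : IsCompact K) (hKe : K ⊆ e.target) (hVc : IsCompact (closure V))
    (hVe : closure V ⊆ e'.target) (hVo : IsOpen V) :
    ∃ C : ℝ, 0 ≤ C ∧ ∀ (m : ℕ) (σ : SSec n m X) (D : ℝ), 0 ≤ D →
      (∀ x, At e' x → x ∉ e.symm '' K → σ.coeff e' (e' x) = 0) →
      (∀ z ∈ K, dens m (φ e) (σ.coeff e) z ≤ D) →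
      dnrm n m (φ e') V (σ.coeff e') ≤ ENNReal.ofReal (C * D) := by
  obtain ⟨C, hC0, hC⟩ := exists_jsq_bound he he' hK hVc hKe hVe
  have hvol : volume V < ⊤ := lt_of_le_of_lt (measure_mono subset_closure) hVc.measure_lt_top
  refine ⟨C * (volume V).toReal, by positivity, fun m σ D hD h0 hd => ?_⟩
  have c1 : IsCompact (e.symm '' K) := hK.image_of_continuousOn (e.continuousOn_symm.mono hKe)
  have key : ∀ z ∈ V, dens m (φ e') (σ.coeff e') z ≤ C * D := by
    intro z hz
    have hzt : z ∈ e'.target := hVe (subset_closure hz)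
    have hx' : At e' (e'.symm z) := ⟨he', e'.map_target hzt⟩
    have hzz : e' (e'.symm z) = z := e'.right_inv hzt
    by_cases hx : e'.symm z ∈ e.symm '' K
    · obtain ⟨w, hw, hwz⟩ := hx
      have hxs : e'.symm z ∈ e.source := by rw [← hwz]; exact e.map_target (hKe hw)
      have hew : e (e'.symm z) = w := by rw [← hwz]; exact e.right_inv (hKe hw)
      have h1 := σ.dens_change hφ ⟨he, hxs⟩ hx'
      rw [hzz, hew] at h1
      have h2 : jsq e' e (e'.symm z) ≤ C :=
        hC _ hxs hx'.2 (by rw [hew]; exact hw) (by rw [hzz]; exact subset_closure hz)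
      calc _ ≤ _ := h1
        _ ≤ C * D := mul_le_mul h2 (hd w hw) (dens_nonneg _ _ _) hC0
    · have h3 : σ.coeff e' =ᶠ[𝓝 z] fun _ => (0 : ℂ) := by
        have h4 : ∀ᶠ y in 𝓝 z, e'.symm y ∈ (e.symm '' K)ᶜ :=
          (e'.continuousAt_symm hzt).eventually (c1.isClosed.isOpen_compl.mem_nhds hx)
        filter_upwards [h4, e'.open_target.mem_nhds hzt] with y hy hyt
        have := h0 (e'.symm y) ⟨he', e'.map_target hyt⟩ hy
        rwa [e'.right_inv hyt] at this
      have h5 : dens m (φ e') (σ.coeff e') z = 0 := by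
        unfold dens
        have : ∀ l, dzb l (σ.coeff e') z = 0 := fun l => by rw [dzb_congr h3, dzb_const]
        simp [this]
      rw [h5]; positivity
  unfold dnrm
  calc ∫⁻ z in V, ENNReal.ofReal ((∑ l, ‖dzb l (σ.coeff e') z‖ ^ 2) *
        Real.exp (-(m : ℝ) * φ e' z))
      ≤ ∫⁻ _ in V, ENNReal.ofReal (C * D) := by
        apply setLIntegral_mono' hVo.measurableSet
        intro z hz
        exact ENNReal.ofReal_le_ofReal (key z hz)
    _ = ENNReal.ofReal (C * D) * volume V := by rw [setLIntegral_const]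
    _ = ENNReal.ofReal (C * (volume V).toReal * D) := by
        rw [← ENNReal.ofReal_toReal hvol.ne, ← ENNReal.ofReal_mul (by positivity),
          ENNReal.toReal_ofReal ENNReal.toReal_nonneg]
        congr 1
        ring

end Vale.Agent.P272.KOD
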