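import Mathlib.Analysis.Calculus.InverseFunctionTheorem.FDeriv
import Mathlib.Geometry.Manifold.ContMDiff.Atlas
import Mathlib.Geometry.Manifold.ContMDiff.NormedSpace
import Mathlib.Analysis.Calculus.Deriv.Inv
import Mathlib.Tactic
import Vale.Agent.P272.KOD.Defs

/-! Stage 4 of P272 (the literal meaning of ample), soft part 1: algebra of pluricanonical
forms, the pointwise properties JetP and SepP, their stability under powers and their
openness. -/

open scoped Manifold ContDiff Topology
open Set Vale.Agent.P272.K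

noncomputable section

namespace Vale.Agent.P272.KOD

variable {n : ℕ} {X : Type*} [TopologicalSpace X] [ChartedSpace (Cm n) X]

/-! ### Algebra of pluricanonical forms -/

/-- Change of the exponent along an equality. -/
def pfCast {a b : ℕ} (h : a = b) (s : PSec n a X) : PSec n b X where
  coeff := s.coeff
  holo := s.holo
  change := by
    intro e e' x he he'
    rw [← h]
    exact s.change e e' x he he'

/-- Product of pluricanonical forms. -/
def pfMul {a b : ℕ} (s : PSec n a X) (t : PSec n b X) : PSec n (a + b) X where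
  coeff e z := s.coeff e z * t.coeff e z
  holo e x h := (s.holo e x h).mul (t.holo e x h)
  change := by
    intro e e' x he he'
    rw [s.change e e' x he he', t.change e e' x he he', pow_add]
    ring

/-- Powers of pluricanonical forms. -/
def pfPow {m : ℕ} (s : PSec n m X) (k : ℕ) : PSec n (m * k) X where
  coeff e z := s.coeff e z ^ k
  holo e x h := (s.holo e x h).pow k
  change := by
    intro e e' x he he'
    rw [s.change e e' x he he', mul_pow, ← pow_mul]

/-- Linear combinations of two pluricanonical forms. -/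
def pfComb {m : ℕ} (a b : ℂ) (s t : PSec n m X) : PSec n m X where
  coeff e z := a * s.coeff e z + b * t.coeff e z
  holo e x h := (analyticAt_const.mul (s.holo e x h)).add (analyticAt_const.mul (t.holo e x h))
  change := by
    intro e e' x he he'
    rw [s.change e e' x he he', t.change e e' x he he']
    ring

/-- Finite linear combinations of pluricanonical forms. -/
def pfSum {m : ℕ} {ι : Type*} [Fintype ι] (c : ι → ℂ) (s : ι → PSec n m X) :
    PSec n m X where
  coeff e z := ∑ i, c i * (s i).coeff e z
  holo e x h := by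
    exact Finset.analyticAt_fun_sum Finset.univ
      (fun i _ => analyticAt_const.mul ((s i).holo e x h))
  change := by
    intro e e' x he he'
    rw [Finset.sum_mul]
    refine Finset.sum_congr rfl fun i _ => ?_
    rw [(s i).change e e' x he he']
    ring

/-- The zero form. -/
def pfZero (n m : ℕ) (X : Type*) [TopologicalSpace X] [ChartedSpace (Cm n) X] :
    PSec n m X where
  coeff _ _ := 0
  holo _ _ _ := analyticAt_const
  change := by
    intro e e' x he he'
    simp

/-! ### Charts -/

/-- The preferred chart at a point. -/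
abbrev cht (n : ℕ) {X : Type*} [TopologicalSpace X] [ChartedSpace (Cm n) X] (x : X) : Chart n X :=
  chartAt (Cm n) x

lemma at_cht (x : X) : At (cht n x) x := ⟨chart_mem_atlas (Cm n) x, mem_chart_source (Cm n) x⟩

lemma at_nhds {e : Chart n X} {x : X} (h : At e x) : ∀ᶠ y in 𝓝 x, At e y :=
  Filter.Eventually.mono (e.open_source.mem_nhds h.2) fun _ hy => ⟨h.1, hy⟩

lemma map_contAt {e : Chart n X} {x : X} (h : At e x) : ContinuousAt e x :=
  e.continuousAt h.2

lemma inv_map {e : Chart n X} {x : X} (h : At e x) : e.symm (e x) = x := e.left_inv h.2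

lemma coeff_contAt {m : ℕ} (s : PSec n m X) {e : Chart n X} {x : X} (h : At e x) :
    ContinuousAt (fun y => s.coeff e (e y)) x :=
  ContinuousAt.comp' (f := e) (g := s.coeff e) (s.holo e x h).continuousAt (map_contAt h)

/-- The transition map of two charts. -/
def trans (e e' : Chart n X) (w : Cm n) : Cm n := e' (e.symm w)

lemma trans_apply {e e' : Chart n X} {x : X} (h : At e x) : trans e e' (e x) = e' x := by
  unfold trans
  rw [inv_map h]

section cplx
variable [IsManifold 𝓘(ℂ, Cm n) ω X]

lemma trans_contDiffAt {e e' : Chart n X} {x : X} (h : At e x) (h' : At e' x) :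
    ContDiffAt ℂ ω (trans e e') (e x) := by
  have : IsManifold 𝓘(ℂ, Cm n) ω X := inferInstance
  change ContDiffAt ℂ ω (e' ∘ e.symm) (e x)
  rw [← contMDiffAt_iff_contDiffAt]
  have h1 : ContMDiffAt 𝓘(ℂ, Cm n) 𝓘(ℂ, Cm n) ω e.symm (e x) :=
    (contMDiffOn_symm_of_mem_maximalAtlas (I := 𝓘(ℂ, Cm n)) (n := ω)
      (IsManifold.subset_maximalAtlas h.1)).contMDiffAt (e.open_target.mem_nhds (e.map_source h.2))
  have h2 : ContMDiffAt 𝓘(ℂ, Cm n) 𝓘(ℂ, Cm n) ω e' x :=
    (contMDiffOn_of_mem_maximalAtlas (I := 𝓘(ℂ, Cm n)) (n := ω)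
      (IsManifold.subset_maximalAtlas h'.1)).contMDiffAt (e'.open_source.mem_nhds h'.2)
  refine ContMDiffAt.comp (e x) ?_ h1
  rw [e.left_inv h.2]
  exact h2

omit [IsManifold 𝓘(ℂ, Cm n) ω X] in
lemma trans_trans {e e' : Chart n X} {x : X} (h : At e x) (h' : At e' x) :
    (fun w => trans e' e (trans e e' w)) =ᶠ[𝓝 (e x)] id := by
  have h1 : ∀ᶠ w in 𝓝 (e x), w ∈ e.target := e.open_target.mem_nhds (e.map_source h.2)
  have h2 : ∀ᶠ w in 𝓝 (e x), e.symm w ∈ e'.source := by
    have := (e.continuousAt_symm (e.map_source h.2)).eventually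
      (e'.open_source.mem_nhds (by rw [e.left_inv h.2]; exact h'.2))
    exact this
  filter_upwards [h1, h2] with w hw hw'
  change e (e'.symm (e' (e.symm w))) = w
  rw [e'.left_inv hw', e.right_inv hw]

lemma trans_fderiv_injective {e e' : Chart n X} {x : X} (h : At e x) (h' : At e' x) :
    Function.Injective (fderiv ℂ (trans e e') (e x)) := by
  have d1 := (trans_contDiffAt h h').differentiableAt (by simp)
  have d2 := (trans_contDiffAt h' h).differentiableAt (by simp)
  have h3 := fderiv_fun_comp (f := trans e e') (g := trans e' e) (e x)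
    (by rw [trans_apply h]; exact d2) d1
  rw [(trans_trans h h').fderiv_eq, fderiv_id] at h3
  intro v w hvw
  have hv := congrArg (fun L : Cm n →L[ℂ] Cm n => L v) h3
  have hw := congrArg (fun L : Cm n →L[ℂ] Cm n => L w) h3
  simp only [ContinuousLinearMap.coe_id', id_eq, ContinuousLinearMap.coe_comp,
    Function.comp_apply] at hv hw
  rw [hv, hw, hvw]

end cplx

/-! ### Separation of points -/

/-- Some two `m`-canonical forms have a nonzero minor at the pair `x`, `y`. -/
def SepP (n m : ℕ) {X : Type*} [TopologicalSpace X] [ChartedSpace (Cm n) X] (x y : X) : Prop :=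
  ∃ s t : PSec n m X, s.val x * t.val y - s.val y * t.val x ≠ 0

lemma val_eq {m : ℕ} (s : PSec n m X) {e : Chart n X} {x : X} (h : At e x) :
    s.val x = s.coeff e (e x) * (jacM (cht n x) e x).det ^ m :=
  s.change _ _ _ (at_cht x) h

lemma coeff_eq {m : ℕ} (s : PSec n m X) {e : Chart n X} {x : X} (h : At e x) :
    s.coeff e (e x) = s.val x * (jacM e (cht n x) x).det ^ m :=
  s.change _ _ _ h (at_cht x)

lemma val_ne_iff {m : ℕ} (s : PSec n m X) {e : Chart n X} {x : X} (h : At e x) :
    s.val x ≠ 0 ↔ s.coeff e (e x) ≠ 0 := by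
  constructor
  · intro h1 h2
    rw [val_eq s h, h2, zero_mul] at h1
    exact h1 rfl
  · intro h1 h2
    rw [coeff_eq s h, h2, zero_mul] at h1
    exact h1 rfl

/-- The minor of two forms at two points, read in charts. -/
def minor {m : ℕ} (s t : PSec n m X) (e e' : Chart n X) (x y : X) : ℂ :=
  s.coeff e (e x) * t.coeff e' (e' y) - s.coeff e' (e' y) * t.coeff e (e x)

lemma minor_ne_iff {m : ℕ} (s t : PSec n m X) {e e' : Chart n X} {x y : X} (h : At e x)
    (h' : At e' y) : minor s t e e' x y ≠ 0 ↔ s.val x * t.val y - s.val y * t.val x ≠ 0 := by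
  constructor
  · intro h1 h2
    apply h1
    unfold minor
    rw [coeff_eq s h, coeff_eq s h', coeff_eq t h, coeff_eq t h']
    linear_combination ((jacM e (cht n x) x).det ^ m * (jacM e' (cht n y) y).det ^ m) * h2
  · intro h1 h2
    apply h1
    unfold minor at h2
    rw [val_eq s h, val_eq s h', val_eq t h, val_eq t h']
    linear_combination ((jacM (cht n x) e x).det ^ m * (jacM (cht n y) e' y).det ^ m) * h2

lemma minor_contAt {m : ℕ} (s t : PSec n m X) {e e' : Chart n X} {x y : X} (h : At e x)
    (h' : At e' y) : ContinuousAt (fun p : X × X => minor s t e e' p.1 p.2) (x, y) := by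
  unfold minor
  have a1 : ContinuousAt (fun p : X × X => s.coeff e (e p.1)) (x, y) :=
    ContinuousAt.comp' (f := Prod.fst) (g := fun y => s.coeff e (e y)) (coeff_contAt s h)
      continuousAt_fst
  have a2 : ContinuousAt (fun p : X × X => t.coeff e (e p.1)) (x, y) :=
    ContinuousAt.comp' (f := Prod.fst) (g := fun y => t.coeff e (e y)) (coeff_contAt t h)
      continuousAt_fst
  have a3 : ContinuousAt (fun p : X × X => s.coeff e' (e' p.2)) (x, y) :=
    ContinuousAt.comp' (f := Prod.snd) (g := fun y => s.coeff e' (e' y)) (coeff_contAt s h')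
      continuousAt_snd
  have a4 : ContinuousAt (fun p : X × X => t.coeff e' (e' p.2)) (x, y) :=
    ContinuousAt.comp' (f := Prod.snd) (g := fun y => t.coeff e' (e' y)) (coeff_contAt t h')
      continuousAt_snd
  exact (a1.mul a4).sub (a3.mul a2)

/-- Openness of the separation of points. -/
lemma sep_nhds {m : ℕ} (s t : PSec n m X) {x y : X}
    (h : s.val x * t.val y - s.val y * t.val x ≠ 0) :
    ∀ᶠ p in 𝓝 (x, y), s.val p.1 * t.val p.2 - s.val p.2 * t.val p.1 ≠ 0 := by
  have h1 := (minor_ne_iff s t (at_cht x) (at_cht y)).mpr h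
  have h2 := (minor_contAt s t (at_cht x) (at_cht y)).eventually_ne h1
  have h3 : ∀ᶠ p in 𝓝 (x, y), At (cht n x) p.1 :=
    continuousAt_fst.eventually (at_nhds (at_cht x))
  have h4 : ∀ᶠ p in 𝓝 (x, y), At (cht n y) p.2 :=
    continuousAt_snd.eventually (at_nhds (at_cht y))
  filter_upwards [h2, h3, h4] with p hp h5 h6
  exact (minor_ne_iff s t h5 h6).mp hp

lemma SepP.pow {m : ℕ} {x y : X} (h : SepP n m x y) {k : ℕ} (hk : 1 ≤ k) :
    SepP n (m * k) x y := by
  obtain ⟨s, t, hst⟩ := h
  set u := pfComb (t.val x) (-(s.val x)) s t with hu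
  set v := pfComb (t.val y) (-(s.val y)) s t with hv
  have ux : u.val x = 0 := by
    change t.val x * s.val x + -(s.val x) * t.val x = 0
    ring
  have uy : u.val y = -(s.val x * t.val y - s.val y * t.val x) := by
    change t.val x * s.val y + -(s.val x) * t.val y = _
    ring
  have vy : v.val y = 0 := by
    change t.val y * s.val y + -(s.val y) * t.val y = 0
    ring
  have vx : v.val x = s.val x * t.val y - s.val y * t.val x := by
    change t.val y * s.val x + -(s.val y) * t.val x = _
    ring
  refine ⟨pfPow u k, pfPow v k, ?_⟩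
  change u.val x ^ k * v.val y ^ k - u.val y ^ k * v.val x ^ k ≠ 0
  rw [ux, vy, uy, vx, zero_pow (by omega), zero_mul, zero_sub, neg_ne_zero]
  exact mul_ne_zero (pow_ne_zero _ (neg_ne_zero.mpr hst)) (pow_ne_zero _ hst)

lemma SepP.cast {a b : ℕ} (h : a = b) {x y : X} (hs : SepP n a x y) : SepP n b x y := by
  subst h
  exact hs

/-- A form vanishing at one point and not at the other and a form not vanishing at the one
separate the points. -/
lemma sepP_of_zero {m : ℕ} {x y : X} (s t : PSec n m X) (h1 : s.val x ≠ 0)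
    (h2 : s.val y = 0) (h3 : t.val y ≠ 0) : SepP n m x y := by
  refine ⟨s, t, ?_⟩
  rw [h2, zero_mul, sub_zero]
  exact mul_ne_zero h1 h3

/-- The same with different exponents. -/
lemma sepP_of_zero' {a b : ℕ} (_ : 1 ≤ a) (hb : 1 ≤ b) {x y : X} (s : PSec n a X)
    (t : PSec n b X) (h1 : s.val x ≠ 0)
    (h2 : s.val y = 0) (h3 : t.val y ≠ 0) : SepP n (a * b) x y := by
  refine sepP_of_zero (pfPow s b) (pfCast (mul_comm b a) (pfPow t a)) ?_ ?_ ?_
  · change s.val x ^ b ≠ 0
    exact pow_ne_zero _ h1
  · change s.val y ^ b = 0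
    rw [h2, zero_pow (by omega)]
  · change t.val y ^ a ≠ 0
    exact pow_ne_zero _ h3

end Vale.Agent.P272.KOD
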