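import Vale.Agent.P272.KOD.Glue
import Vale.Agent.P272.KOD.Cmp

/-! Stage 4: the glued section is close to the given one, and its dbar is small. -/

open scoped Manifold ContDiff ComplexOrder Topology ENNReal ComplexConjugate
open MeasureTheory Filter

set_option linter.all false

noncomputable section

namespace Vale.Agent.P272.KOD

open Vale.Agent.P272.K

variable {n m : ℕ} {X : Type*} [TopologicalSpace X] [ChartedSpace (Cm n) X]
  [IsManifold 𝓘(ℂ, Cm n) ω X]

lemma exp_change' {φ : Chart n X → Cm n → ℝ} (hφ : IsCanonicalMetric φ) {e e' : Chart n X} {x : X}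
    (h : At e x) (h' : At e' x) :
    ‖(jacM e e' x).det ^ m‖ ^ 2 * Real.exp (-(m : ℝ) * φ e (e x)) =
      Real.exp (-(m : ℝ) * φ e' (e' x)) := by
  have hd : 0 < ‖(jacM e e' x).det‖ ^ 2 :=
    pow_pos (norm_pos_iff.2 (jacM_det_ne_zero h h')) 2
  have h1 : Real.exp (-(m : ℝ) * φ e (e x)) =
      Real.exp (-(m : ℝ) * φ e' (e' x)) * ((‖(jacM e e' x).det‖ ^ 2) ^ m)⁻¹ := by
    rw [hφ.change e e' x h h', mul_add, Real.exp_add]
    congr 1
    rw [neg_mul, Real.exp_neg, ← Real.log_pow, Real.exp_log (pow_pos hd m)]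
  have hd' : ‖(jacM e e' x).det‖ ^ (2 * m) ≠ 0 :=
    pow_ne_zero _ (norm_ne_zero_iff.2 (jacM_det_ne_zero h h'))
  rw [h1, norm_pow, ← pow_mul, ← pow_mul, Nat.mul_comm m 2]
  field_simp

/-- the density of the difference of `F j` and `σ`, as a function on `X` -/
def gden (C : PCov n X) (φ : Chart n X → Cm n → ℝ) (σ : SSec n m X) (F : Fin C.N → Cm n → ℂ)
    (j : Fin C.N) (x : X) : ℝ :=
  ‖F j (C.e j x) - σ.coeff (C.e j) (C.e j x)‖ ^ 2 * Real.exp (-(m : ℝ) * φ (C.e j) (C.e j x))

lemma gden_nonneg (C : PCov n X) (φ : Chart n X → Cm n → ℝ) (σ : SSec n m X)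
    (F : Fin C.N → Cm n → ℂ) (j : Fin C.N) (x : X) : 0 ≤ gden C φ σ F j x := by
  unfold gden; positivity

lemma gden_eq (C : PCov n X) {φ : Chart n X → Cm n → ℝ} (hφ : IsCanonicalMetric φ)
    (σ : SSec n m X) (F : Fin C.N → Cm n → ℂ) {j : Fin C.N} {e : Chart n X} {x : X}
    (hx : At e x) (h : At (C.e j) x) :
    ‖F j (C.e j x) * (jacM e (C.e j) x).det ^ m - σ.coeff e (e x)‖ ^ 2 *
      Real.exp (-(m : ℝ) * φ e (e x)) = gden C φ σ F j x := by
  unfold gden
  rw [σ.change e (C.e j) x hx h, ← sub_mul, norm_mul, mul_pow, mul_assoc, exp_change' hφ hx h]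

open Classical in
/-- the pointwise `L²` bound -/
lemma glue_pt [T2Space X] (C : PCov n X) {φ : Chart n X → Cm n → ℝ} (hφ : IsCanonicalMetric φ)
    (σ : SSec n m X) (F : Fin C.N → Cm n → ℂ) {e : Chart n X} {x : X} (hx : At e x) :
    ‖glueCoeff m C F e (e x) - σ.coeff e (e x)‖ ^ 2 * Real.exp (-(m : ℝ) * φ e (e x)) ≤
      ∑ j, if x ∈ C.D j then gden C φ σ F j x else 0 := by
  have h1 : (∑ j, C.χ j x) = 1 := C.sum_one x
  rw [glue_sub C F σ hx]
  set a : Fin C.N → ℂ := fun j => F j (C.e j x) * (jacM e (C.e j) x).det ^ m - σ.coeff e (e x)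
    with ha
  have h2 : ‖∑ j, (C.χ j x : ℂ) * a j‖ ≤ ∑ j, C.χ j x * ‖a j‖ := by
    refine (norm_sum_le _ _).trans (Finset.sum_le_sum fun j _ => ?_)
    rw [norm_mul, Complex.norm_real, Real.norm_of_nonneg (C.nonneg j x)]
  have h3 : ‖∑ j, (C.χ j x : ℂ) * a j‖ ^ 2 ≤ ∑ j, C.χ j x * ‖a j‖ ^ 2 :=
    (pow_le_pow_left₀ (norm_nonneg _) h2 2).trans
      (Real.pow_arith_mean_le_arith_mean_pow Finset.univ (fun j => C.χ j x) (fun j => ‖a j‖)
        (fun j _ => C.nonneg j x) h1 (fun j _ => norm_nonneg _) 2)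
  refine (mul_le_mul_of_nonneg_right h3 (Real.exp_pos _).le).trans ?_
  rw [Finset.sum_mul]
  refine Finset.sum_le_sum fun j _ => ?_
  split_ifs with h
  · rw [mul_assoc, gden_eq C hφ σ F hx (PCov.at_D h)]
    have h4 : C.χ j x ≤ 1 := by
      rw [← h1]
      exact Finset.single_le_sum (f := fun j => C.χ j x) (fun i _ => C.nonneg i x)
        (Finset.mem_univ j)
    exact mul_le_of_le_one_left (gden_nonneg C φ σ F j x) h4
  · rw [C.χ_zero h]; simp

open Classical in
/-- the pointwise bound of the `∂̄`-derivative -/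
lemma dzb_glue_pt [T2Space X] (C : PCov n X) {φ : Chart n X → Cm n → ℝ}
    (hφ : IsCanonicalMetric φ) (σ : SSec n m X) (F : Fin C.N → Cm n → ℂ)
    (hF : ∀ i, DifferentiableOn ℂ (F i) (C.V i)) {e : Chart n X} {x : X} (hx : At e x) {M : ℝ}
    (hM : ∀ j l, ‖dzb l (fun z => (C.χ j (e.symm z) : ℂ)) (e x)‖ ≤ M) :
    (∑ l, ‖dzb l (glueCoeff m C F e) (e x)‖ ^ 2) * Real.exp (-(m : ℝ) * φ e (e x)) ≤
      ((n : ℝ) * C.N * M ^ 2) * ∑ j, if x ∈ C.D j then gden C φ σ F j x else 0 := by
  set a : Fin C.N → ℂ := fun j => F j (C.e j x) * (jacM e (C.e j) x).det ^ m - σ.coeff e (e x)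
    with ha
  have h0 : ∀ j, x ∉ C.D j → ∀ l, dzb l (fun z => (C.χ j (e.symm z) : ℂ)) (e x) = 0 := by
    intro j h l
    rw [dzb_congr (g := fun _ => (0 : ℂ)), dzb_const]
    filter_upwards [C.χ_ev_zero hx h] with z hz
    rw [hz]; simp
  have h1 : ∀ l, ‖dzb l (glueCoeff m C F e) (e x)‖ ^ 2 ≤
      (C.N : ℝ) * M ^ 2 * ∑ j, if x ∈ C.D j then ‖a j‖ ^ 2 else 0 := by
    intro l
    rw [dzb_glue C F hF (σ.coeff e (e x)) hx l]
    have h2 : ‖∑ j, dzb l (fun z => (C.χ j (e.symm z) : ℂ)) (e x) * a j‖ ≤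
        ∑ j, M * (if x ∈ C.D j then ‖a j‖ else 0) := by
      refine (norm_sum_le _ _).trans (Finset.sum_le_sum fun j _ => ?_)
      split_ifs with h
      · rw [norm_mul]
        exact mul_le_mul_of_nonneg_right (hM j l) (norm_nonneg _)
      · rw [h0 j h l]; simp
    refine (pow_le_pow_left₀ (norm_nonneg _) h2 2).trans ?_
    rw [← Finset.mul_sum, mul_pow]
    have h3 := sq_sum_le_card_mul_sum_sq (s := (Finset.univ : Finset (Fin C.N)))
      (f := fun j => if x ∈ C.D j then ‖a j‖ else 0)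
    rw [Finset.card_univ, Fintype.card_fin] at h3
    have h4 : ∀ j, (if x ∈ C.D j then ‖a j‖ else 0) ^ 2 = if x ∈ C.D j then ‖a j‖ ^ 2 else 0 := by
      intro j; split_ifs <;> simp
    simp only [h4] at h3
    calc M ^ 2 * (∑ j, if x ∈ C.D j then ‖a j‖ else 0) ^ 2
        ≤ M ^ 2 * ((C.N : ℝ) * ∑ j, if x ∈ C.D j then ‖a j‖ ^ 2 else 0) := by gcongr
      _ = _ := by ring
  have h5 : (∑ l, ‖dzb l (glueCoeff m C F e) (e x)‖ ^ 2) ≤
      (n : ℝ) * ((C.N : ℝ) * M ^ 2 * ∑ j, if x ∈ C.D j then ‖a j‖ ^ 2 else 0) := by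
    refine (Finset.sum_le_sum fun l _ => h1 l).trans_eq ?_
    rw [Finset.sum_const, Finset.card_univ, Fintype.card_fin, nsmul_eq_mul]
  have h6 : (∑ j, if x ∈ C.D j then ‖a j‖ ^ 2 else 0) * Real.exp (-(m : ℝ) * φ e (e x)) =
      ∑ j, if x ∈ C.D j then gden C φ σ F j x else 0 := by
    rw [Finset.sum_mul]
    refine Finset.sum_congr rfl fun j _ => ?_
    split_ifs with h
    · exact gden_eq C hφ σ F hx (PCov.at_D h)
    · rw [zero_mul]
  refine (mul_le_mul_of_nonneg_right h5 (Real.exp_pos _).le).trans_eq ?_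
  rw [← h6]
  ring

/-- bound for the derivatives of the partition functions -/
lemma exists_M (C : PCov n X) : ∃ M : ℝ, 0 ≤ M ∧ ∀ i j l, ∀ z ∈ C.V i,
    ‖dzb l (fun z => (C.χ j ((C.e i).symm z) : ℂ)) z‖ ≤ M := by
  have h : ∀ (i j : Fin C.N) (l : Fin n), ∃ M : ℝ, ∀ z ∈ Metric.closedBall (C.c i) (C.r i),
      ‖dzb l (fun z => (C.χ j ((C.e i).symm z) : ℂ)) z‖ ≤ M := by
    intro i j l
    refine (isCompact_closedBall _ _).exists_bound_of_continuousOn fun z hz => ?_
    have hx : At (C.e i) ((C.e i).symm z) := At.of_target (C.mem i) (C.sub i hz)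
    have h1 := χ_smooth_c C j hx
    rw [(C.e i).right_inv (C.sub i hz)] at h1
    have h2 : ContinuousAt (fderiv ℝ (fun z => (C.χ j ((C.e i).symm z) : ℂ))) z :=
      (h1.fderiv_right (m := 0) (by simp)).continuousAt
    have h3 : ContinuousAt (dzb l (fun z => (C.χ j ((C.e i).symm z) : ℂ))) z := by
      unfold dzb
      have hv : ∀ v : Cm n, ContinuousAt
          (fun z => fderiv ℝ (fun z => (C.χ j ((C.e i).symm z) : ℂ)) z v) z := fun v =>
        h2.clm_apply continuousAt_const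
      exact ((hv (Pi.single l 1)).add
        (continuousAt_const.mul (hv (Pi.single l Complex.I)))).div_const 2
    exact h3.continuousWithinAt
  choose M hM using h
  refine ⟨∑ i, ∑ j, ∑ l, |M i j l|, by positivity, fun i j l z hz => ?_⟩
  refine (hM i j l z (Metric.ball_subset_closedBall hz)).trans ((le_abs_self _).trans ?_)
  calc |M i j l| ≤ ∑ l, |M i j l| :=
        Finset.single_le_sum (f := fun l => |M i j l|) (fun _ _ => abs_nonneg _)
          (Finset.mem_univ l)
    _ ≤ ∑ j, ∑ l, |M i j l| :=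
        Finset.single_le_sum (f := fun j => ∑ l, |M i j l|)
          (fun _ _ => Finset.sum_nonneg fun _ _ => abs_nonneg _) (Finset.mem_univ j)
    _ ≤ _ := Finset.single_le_sum (f := fun i => ∑ j, ∑ l, |M i j l|)
          (fun _ _ => Finset.sum_nonneg fun _ _ => Finset.sum_nonneg fun _ _ => abs_nonneg _)
          (Finset.mem_univ i)

/-- the overlap set -/
def PCov.A (C : PCov n X) (i j : Fin C.N) : Set (Cm n) :=
  C.V i ∩ ((C.e i).target ∩ (C.e i).symm ⁻¹' ((C.e j).source ∩ (C.e j) ⁻¹' (C.V j)))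

lemma PCov.isOpen_A (C : PCov n X) (i j : Fin C.N) : IsOpen (C.A i j) :=
  (C.isOpen_V i).inter ((C.e i).isOpen_inter_preimage_symm
    ((C.e j).isOpen_inter_preimage (C.isOpen_V j)))

lemma gden_cont (C : PCov n X) {φ : Chart n X → Cm n → ℝ} (hφ : IsCanonicalMetric φ)
    (σ : SSec n m X) (F : Fin C.N → Cm n → ℂ)
    (hF : ∀ i, DifferentiableOn ℂ (F i) (C.V i)) (i j : Fin C.N) :
    ContinuousOn (fun z => ENNReal.ofReal (gden C φ σ F j ((C.e i).symm z))) (C.A i j) := by
  intro z hz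
  have hzt : z ∈ (C.e i).target := hz.2.1
  have hj : At (C.e j) ((C.e i).symm z) := ⟨C.mem j, hz.2.2.1⟩
  have hV : C.e j ((C.e i).symm z) ∈ C.V j := hz.2.2.2
  have hT : ContinuousAt (fun z => C.e j ((C.e i).symm z)) z :=
    ContinuousAt.comp (f := (C.e i).symm) (g := C.e j) ((C.e j).continuousAt hj.2)
      ((C.e i).continuousAt_symm hzt)
  have h1 : ContinuousAt (F j) (C.e j ((C.e i).symm z)) :=
    ((hF j).differentiableAt ((C.isOpen_V j).mem_nhds hV)).continuousAt
  have h2 : ContinuousAt (σ.coeff (C.e j)) (C.e j ((C.e i).symm z)) :=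
    (σ.smooth _ _ hj).continuousAt
  have h3 : ContinuousAt (φ (C.e j)) (C.e j ((C.e i).symm z)) :=
    (hφ.smooth _ _ hj).continuousAt
  have h4 : ContinuousAt (fun w => ‖F j w - σ.coeff (C.e j) w‖ ^ 2 *
      Real.exp (-(m : ℝ) * φ (C.e j) w)) (C.e j ((C.e i).symm z)) :=
    ((h1.sub h2).norm.pow 2).mul (Real.continuous_exp.continuousAt.comp
      (continuousAt_const.mul h3))
  have h5 : ContinuousAt (fun z => gden C φ σ F j ((C.e i).symm z)) z :=
    ContinuousAt.comp (f := fun z => C.e j ((C.e i).symm z)) h4 hT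
  exact (ENNReal.continuous_ofReal.continuousAt.comp h5).continuousWithinAt

open Classical in
/-- the integrated form -/
lemma int_le [T2Space X] (C : PCov n X) {φ : Chart n X → Cm n → ℝ} (hφ : IsCanonicalMetric φ)
    {K : ℝ≥0∞}
    (hK : ∀ i j, ∀ g : X → ℝ≥0∞,
      ∫⁻ z in C.V i, {x | x ∈ (C.e j).source ∧ C.e j x ∈ C.V j}.indicator g ((C.e i).symm z) ≤
        K * ∫⁻ w in C.V j, g ((C.e j).symm w))
    (σ : SSec n m X) (F : Fin C.N → Cm n → ℂ)
    (hF : ∀ i, DifferentiableOn ℂ (F i) (C.V i)) (i : Fin C.N) :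
    ∫⁻ z in C.V i, ENNReal.ofReal (∑ j, if (C.e i).symm z ∈ C.D j then
      gden C φ σ F j ((C.e i).symm z) else 0) ≤
      ∑ j, K * nrm n m (φ (C.e j)) (C.V j) (fun z => F j z - σ.coeff (C.e j) z) := by
  have hm : ∀ j, AEMeasurable ((C.A i j).indicator
      fun z => ENNReal.ofReal (gden C φ σ F j ((C.e i).symm z))) volume := fun j => by
    rw [aemeasurable_indicator_iff (C.isOpen_A i j).measurableSet]
    exact (gden_cont C hφ σ F hF i j).aemeasurable (C.isOpen_A i j).measurableSet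
  calc ∫⁻ z in C.V i, ENNReal.ofReal (∑ j, if (C.e i).symm z ∈ C.D j then
      gden C φ σ F j ((C.e i).symm z) else 0)
      ≤ ∫⁻ z in C.V i, ∑ j, (C.A i j).indicator
          (fun z => ENNReal.ofReal (gden C φ σ F j ((C.e i).symm z))) z := by
        refine setLIntegral_mono' (C.isOpen_V i).measurableSet fun z hz => ?_
        rw [ENNReal.ofReal_sum_of_nonneg fun j _ => by
          split_ifs <;> [exact gden_nonneg C φ σ F j _; exact le_rfl]]
        refine Finset.sum_le_sum fun j _ => ?_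
        split_ifs with h
        · rw [Set.indicator_of_mem]
          exact ⟨hz, PCov.V_target hz, h.1, PCov.V_D h⟩
        · simp
    _ = ∑ j, ∫⁻ z in C.V i, (C.A i j).indicator
          (fun z => ENNReal.ofReal (gden C φ σ F j ((C.e i).symm z))) z :=
        lintegral_finset_sum' _ fun j _ => (hm j).restrict
    _ ≤ ∑ j, K * nrm n m (φ (C.e j)) (C.V j) (fun z => F j z - σ.coeff (C.e j) z) := by
        refine Finset.sum_le_sum fun j _ => ?_
        have h1 : ∫⁻ w in C.V j, ENNReal.ofReal (gden C φ σ F j ((C.e j).symm w)) =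
            nrm n m (φ (C.e j)) (C.V j) (fun z => F j z - σ.coeff (C.e j) z) := by
          unfold nrm
          refine setLIntegral_congr_fun (C.isOpen_V j).measurableSet fun w hw => ?_
          simp only [gden]
          rw [(C.e j).right_inv (PCov.V_target hw)]
        rw [← h1]
        refine le_trans (le_of_eq ?_)
          (hK i j fun x => ENNReal.ofReal (gden C φ σ F j x))
        refine setLIntegral_congr_fun (C.isOpen_V i).measurableSet fun z hz => ?_
        simp only [Set.indicator]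
        refine if_congr ?_ rfl rfl
        constructor
        · intro h; exact h.2.2
        · intro h; exact ⟨hz, PCov.V_target hz, h⟩

/-- The estimates for the glued section. -/
theorem step_glue [T2Space X] (C : PCov n X) {φ : Chart n X → Cm n → ℝ}
    (hφ : IsCanonicalMetric φ) : ∃ B : ℝ, 0 ≤ B ∧ ∀ (m : ℕ) (σ : SSec n m X)
      (F : Fin C.N → Cm n → ℂ) (hF : ∀ i, DifferentiableOn ℂ (F i) (C.V i)) (A : ℝ), 0 ≤ A →
      (∀ i, nrm n m (φ (C.e i)) (C.V i) (fun z => F i z - σ.coeff (C.e i) z) ≤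
        ENNReal.ofReal A) →
      (∀ i, nrm n m (φ (C.e i)) (C.V i) (fun z => (glue m C F hF).coeff (C.e i) z -
        σ.coeff (C.e i) z) ≤ ENNReal.ofReal (B * A)) ∧
      (∀ i, dnrm n m (φ (C.e i)) (C.V i) ((glue m C F hF).coeff (C.e i)) ≤
        ENNReal.ofReal (B * A)) := by
  classical
  have hcl : ∀ i, closure (C.V i) ⊆ Metric.closedBall (C.c i) (C.r i) := fun i =>
    Metric.closure_ball_subset_closedBall
  obtain ⟨K, hK, -, hcmp⟩ := cmp (e := C.e) (V := C.V) C.mem C.isOpen_V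
    (fun i => (isCompact_closedBall (C.c i) (C.r i)).of_isClosed_subset isClosed_closure (hcl i))
    (fun i => (hcl i).trans (C.sub i))
  obtain ⟨M, hM0, hM⟩ := exists_M C
  set k : ℝ := K.toReal with hk
  have hk0 : 0 ≤ k := ENNReal.toReal_nonneg
  have hKk : K = ENNReal.ofReal k := (ENNReal.ofReal_toReal hK).symm
  set B : ℝ := C.N * k + (n * C.N * M ^ 2) * (C.N * k) with hB
  refine ⟨B, by positivity, fun m σ F hF A hA hn => ?_⟩
  have hint : ∀ i, ∫⁻ z in C.V i, ENNReal.ofReal (∑ j, if (C.e i).symm z ∈ C.D j then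
      gden C φ σ F j ((C.e i).symm z) else 0) ≤ ENNReal.ofReal (C.N * k * A) := by
    intro i
    refine (int_le C hφ hcmp σ F hF i).trans ?_
    calc ∑ j, K * nrm n m (φ (C.e j)) (C.V j) (fun z => F j z - σ.coeff (C.e j) z)
        ≤ ∑ j : Fin C.N, K * ENNReal.ofReal A := by
          refine Finset.sum_le_sum fun j _ => ?_
          gcongr
          exact hn j
      _ = ENNReal.ofReal (C.N * k * A) := by
          rw [Finset.sum_const, Finset.card_univ, Fintype.card_fin, nsmul_eq_mul, hKk,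
            ← ENNReal.ofReal_mul hk0, ← ENNReal.ofReal_natCast,
            ← ENNReal.ofReal_mul (by positivity), mul_assoc]
  constructor
  · intro i
    unfold nrm
    refine le_trans (setLIntegral_mono' (C.isOpen_V i).measurableSet fun z hz => ?_)
      ((hint i).trans (ENNReal.ofReal_le_ofReal ?_))
    · have h := glue_pt C hφ σ F (PCov.at_V hz)
      rw [(C.e i).right_inv (PCov.V_target hz)] at h
      exact ENNReal.ofReal_le_ofReal h
    · rw [hB]
      have : 0 ≤ (n * C.N * M ^ 2) * (C.N * k) * A := by positivity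
      nlinarith
  · intro i
    unfold dnrm
    calc ∫⁻ z in C.V i, ENNReal.ofReal ((∑ l, ‖dzb l ((glue m C F hF).coeff (C.e i)) z‖ ^ 2) *
          Real.exp (-(m : ℝ) * φ (C.e i) z))
        ≤ ∫⁻ z in C.V i, ENNReal.ofReal (n * C.N * M ^ 2) *
          ENNReal.ofReal (∑ j, if (C.e i).symm z ∈ C.D j then
            gden C φ σ F j ((C.e i).symm z) else 0) := by
          refine setLIntegral_mono' (C.isOpen_V i).measurableSet fun z hz => ?_
          rw [← ENNReal.ofReal_mul (by positivity)]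
          have h := dzb_glue_pt C hφ σ F hF (PCov.at_V hz) (M := M) (fun j l => by
            rw [(C.e i).right_inv (PCov.V_target hz)]
            exact hM i j l z hz)
          rw [(C.e i).right_inv (PCov.V_target hz)] at h
          exact ENNReal.ofReal_le_ofReal h
      _ ≤ ENNReal.ofReal (n * C.N * M ^ 2) * ENNReal.ofReal (C.N * k * A) := by
          rw [lintegral_const_mul' _ _ ENNReal.ofReal_ne_top]
          gcongr
          exact hint i
      _ ≤ ENNReal.ofReal (B * A) := by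
          rw [← ENNReal.ofReal_mul (by positivity)]
          refine ENNReal.ofReal_le_ofReal ?_
          rw [hB]
          have : 0 ≤ C.N * k * A := by positivity
          nlinarith

end Vale.Agent.P272.KOD
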